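import Vale.Agent.P161.Compare

/-!
Balls in a regular tree, and equivariance of the scheme under automorphisms.
-/

namespace Vale.Agent.P161

open MeasureTheory Finset Function
open scoped NNReal Classical

noncomputable section

variable {V : Type*} {G : SimpleGraph V} {θ : ℝ}

/-! ### Automorphisms -/

lemma dist_iso (g : G ≃g G) (u v : V) : G.dist (g u) (g v) = G.dist u v := by
  have le : ∀ (g : G ≃g G) (u v : V), G.Reachable u v → G.dist (g u) (g v) ≤ G.dist u v := by
    intro g u v h
    obtain ⟨p, hp⟩ := h.exists_walk_length_eq_dist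
    have := SimpleGraph.dist_le (p.map g.toHom)
    rw [SimpleGraph.Walk.length_map, hp] at this
    exact this
  by_cases h : G.Reachable u v
  · refine le_antisymm (le g u v h) ?_
    have h' : G.Reachable (g u) (g v) := h.map g.toHom
    simpa using le g.symm (g u) (g v) h'
  · have h' : ¬ G.Reachable (g u) (g v) := fun hr => h (by simpa using hr.map g.symm.toHom)
    rw [SimpleGraph.dist_eq_zero_of_not_reachable h, SimpleGraph.dist_eq_zero_of_not_reachable h']

/-- The image of a finite set under an automorphism. -/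
def imageIso (g : G ≃g G) (D : Finset V) : Finset V := D.map g.toEquiv.toEmbedding

lemma mem_imageIso {g : G ≃g G} {D : Finset V} {v : V} :
    v ∈ imageIso g D ↔ g.symm v ∈ D := by
  unfold imageIso
  rw [Finset.mem_map]
  constructor
  · rintro ⟨a, ha, rfl⟩
    simpa using ha
  · intro h
    exact ⟨g.symm v, h, g.toEquiv.apply_symm_apply v⟩

lemma map_mem_imageIso {g : G ≃g G} {D : Finset V} {v : V} : g v ∈ imageIso g D ↔ v ∈ D := by
  rw [mem_imageIso]; simp

lemma spin_imageIso (g : G ≃g G) (S : Finset V) (v : V) :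
    spin (imageIso g S) (g v) = spin S v := by
  unfold spin
  simp [map_mem_imageIso]

lemma wt_imageIso (g : G ≃g G) (D : Finset V) (s : V → ℝ) :
    wt G θ (imageIso g D) s = wt G θ D (fun v => s (g v)) := by
  have he : edgesIn G (imageIso g D) = (edgesIn G D).map
      ⟨Sym2.map g, Sym2.map.injective g.injective⟩ := by
    ext e
    induction e using Sym2.ind with
    | _ a b =>
      simp only [edgesIn, Finset.mem_filter, Finset.mk_mem_sym2_iff, SimpleGraph.mem_edgeSet,
        Finset.mem_map, Embedding.coeFn_mk]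
      constructor
      · rintro ⟨⟨ha, hb⟩, hab⟩
        refine ⟨s(g.symm a, g.symm b), ?_, by simp⟩
        rw [Finset.mk_mem_sym2_iff]
        exact ⟨⟨mem_imageIso.1 ha, mem_imageIso.1 hb⟩, g.symm.map_rel_iff.2 hab⟩
      · rintro ⟨e, he, heq⟩
        induction e using Sym2.ind with
        | _ c d =>
          rw [Finset.mk_mem_sym2_iff, SimpleGraph.mem_edgeSet] at he
          rw [Sym2.map_mk] at heq
          rcases Sym2.eq_iff.1 heq with ⟨rfl, rfl⟩ | ⟨rfl, rfl⟩
          · exact ⟨⟨map_mem_imageIso.2 he.1.1, map_mem_imageIso.2 he.1.2⟩,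
              g.map_rel_iff.2 he.2⟩
          · exact ⟨⟨map_mem_imageIso.2 he.1.2, map_mem_imageIso.2 he.1.1⟩,
              g.map_rel_iff.2 he.2.symm⟩
  unfold wt
  rw [he, Finset.prod_map]
  refine Finset.prod_congr rfl fun e _ => ?_
  induction e using Sym2.ind with
  | _ a b => simp

lemma Sm_imageIso (g : G ≃g G) (D : Finset V) (t : V → ℝ) (f : (V → ℝ) → ℝ) :
    Sm G θ (imageIso g D) t f
      = Sm G θ D (fun v => t (g v)) (fun s => f fun v => s (g.symm v)) := by
  unfold Sm
  symm
  refine Finset.sum_bij (fun S _ => imageIso g S) ?_ ?_ ?_ ?_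
  · intro S hS
    rw [Finset.mem_powerset] at hS ⊢
    exact Finset.map_subset_map.2 hS
  · intro S _ S' _ h
    exact Finset.map_injective _ h
  · intro S hS
    rw [Finset.mem_powerset] at hS
    refine ⟨imageIso g.symm S, Finset.mem_powerset.2 fun v hv => ?_, ?_⟩
    · have h2 := hS (mem_imageIso.1 hv)
      rw [mem_imageIso] at h2
      simpa using h2
    · ext v
      simp [mem_imageIso]
  · intro S _
    rw [wt_imageIso]
    simp only [spin_imageIso]
    congr 1
    · congr 1
      unfold imageIso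
      rw [Finset.prod_map]
      refine Finset.prod_congr rfl fun v _ => ?_
      have := spin_imageIso g S v
      unfold imageIso at this
      simp only [Equiv.coe_toEmbedding]
      rw [show (g.toEquiv v) = g v from rfl, this]
    · congr 1
      funext v
      rw [← spin_imageIso g S (g.symm v)]
      simp

lemma mf_imageIso (g : G ≃g G) (D : Finset V) (y : V → ℝ) (v : V) :
    mf G θ (imageIso g D) y (g v) = mf G θ D (fun u => y (g u)) v := by
  unfold mf mean avg
  simp only [Sm_imageIso, map_mem_imageIso]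
  simp

lemma path_imageIso (g : G ≃g G) (D : Finset V) (h : ℝ) (z : ℕ → V → ℝ) :
    ∀ (j : ℕ) (v : V), path G θ (imageIso g D) h 0 z j (g v)
      = path G θ D h 0 (fun i u => z i (g u)) j v := by
  intro j
  induction j with
  | zero => intro v; rfl
  | succ j ih =>
    intro v
    simp only [path, next]
    rw [ih v, mf_imageIso]
    simp only [ih]

/-! ### Balls -/

/-- The ball of radius `n`, as a finite set. -/
def ballF {d : ℕ} (hG : G.IsTree) (hd : Regular G d) (hd3 : 3 ≤ d) (o : V) (n : ℕ) : Finset V :=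
  (ball_finite hG hd hd3 o n).toFinset

variable {d : ℕ} {hG : G.IsTree} {hd : Regular G d} {hd3 : 3 ≤ d}

lemma mem_ballF {o u : V} {n : ℕ} : u ∈ ballF hG hd hd3 o n ↔ G.dist o u ≤ n := by
  simp [ballF]

lemma self_mem_ballF (o : V) (n : ℕ) : o ∈ ballF hG hd hd3 o n := by
  simp [mem_ballF]

lemma ballF_mono {o o' : V} {n n' : ℕ} (h : G.dist o' o + n ≤ n') :
    ballF hG hd hd3 o n ⊆ ballF hG hd hd3 o' n' := fun u hu => by
  rw [mem_ballF] at hu ⊢
  exact (hG.connected.dist_triangle (v := o)).trans (by omega)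

lemma closed_ballF (o : V) (n : ℕ) : Closed G (ballF hG hd hd3 o n) := by
  intro v hv x hx hxv
  rw [mem_ballF] at hv hx
  obtain ⟨p, hxp, hdp⟩ := exists_closer hG hxv
  refine ⟨p, mem_ballF.2 ?_, hxp, hdp⟩
  rcases hG.dist_eq_dist_add_one_of_adj o hxp with h | h
  · omega
  · have h3 : 1 ≤ G.dist x v := hG.connected.pos_dist_of_ne hxv
    have := dist_add_of_split hG (G.dist x v) rfl hxp hdp h
    omega

lemma imageIso_ballF (g : G ≃g G) (o : V) (n : ℕ) :
    imageIso g (ballF hG hd hd3 o n) = ballF hG hd hd3 (g o) n := by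
  ext u
  rw [mem_imageIso, mem_ballF, mem_ballF, ← dist_iso g o (g.symm u)]
  simp

lemma connected_ballF (o : V) (n : ℕ) :
    (G.induce (ballF hG hd hd3 o n : Set V)).Connected := by
  have reach : ∀ m (u : V) (hu : u ∈ ballF hG hd hd3 o n), G.dist o u = m →
      (G.induce (ballF hG hd hd3 o n : Set V)).Reachable
        ⟨o, self_mem_ballF o n⟩ ⟨u, hu⟩ := by
    intro m
    induction m with
    | zero =>
      intro u hu hm
      have : o = u := hG.connected.dist_eq_zero_iff.1 hm
      subst this
      exact SimpleGraph.Reachable.refl _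
    | succ m ih =>
      intro u hu hm
      have hne : u ≠ o := fun e => by simp [e] at hm
      obtain ⟨p, hup, hdp⟩ := exists_closer hG hne
      have hp : p ∈ ballF hG hd hd3 o n := mem_ballF.2 (by
        have := mem_ballF.1 hu
        omega)
      refine (ih p hp (by omega)).trans (SimpleGraph.Adj.reachable ?_)
      simpa using hup.symm
  haveI : Nonempty (ballF hG hd hd3 o n : Set V) := ⟨⟨o, self_mem_ballF o n⟩⟩
  exact ⟨fun a b => (reach _ a.1 a.2 rfl).symm.trans (reach _ b.1 b.2 rfl)⟩

lemma card_ballF (o : V) (n : ℕ) :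
    ((ballF hG hd hd3 o n).card : ℝ) ≤ (d : ℝ) ^ (n + 2) := by
  have hdpos : (0:ℝ) < d := by exact_mod_cast (by omega : 0 < d)
  have hx : ((d:ℝ) - 1) * (1 / d) < 1 := by
    rw [mul_one_div, div_lt_one hdpos]; linarith
  have := sum_pow_dist_le hG hd hd3 o (ballF hG hd hd3 o n) (x := 1 / (d:ℝ)) (by positivity) hx 0
    (fun _ _ => Nat.zero_le _)
  have hlow : ((ballF hG hd hd3 o n).card : ℝ) * (1 / (d:ℝ)) ^ n
      ≤ ∑ u ∈ ballF hG hd hd3 o n, (1 / (d:ℝ)) ^ G.dist o u := by
    rw [← nsmul_eq_mul, ← Finset.sum_const]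
    refine Finset.sum_le_sum fun u hu => ?_
    refine pow_le_pow_of_le_one (by positivity) ?_ (mem_ballF.1 hu)
    rw [div_le_one hdpos]
    exact_mod_cast (by omega : 1 ≤ d)
  have e : (d:ℝ) * (((d:ℝ) - 1) * (1 / d)) ^ 0 / (1 - ((d:ℝ) - 1) * (1 / d)) = (d:ℝ) ^ 2 := by
    have : 1 - ((d:ℝ) - 1) * (1 / d) = 1 / d := by field_simp; ring
    rw [this, pow_zero, mul_one]
    field_simp
  rw [e] at this
  have h3 := hlow.trans this
  rw [one_div, inv_pow, ← div_eq_mul_inv, div_le_iff₀ (by positivity)] at h3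
  rw [pow_add]
  linarith

end

end Vale.Agent.P161
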