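import Vale.Agent.P161.Marginal
import Mathlib.Probability.ProductMeasure

/-!
Comparing two Euler schemes on nested domains with refining time steps, driven by the
same Gaussian noise.
-/

namespace Vale.Agent.P161

open MeasureTheory ProbabilityTheory Finset Function
open scoped NNReal ENNReal Classical

noncomputable section

variable {V : Type*} (G : SimpleGraph V) (θ : ℝ)

/-- Truncation to `[-1, 1]`. -/
def cl (x : ℝ) : ℝ := max (-1) (min 1 x)

/-- The output of the scheme at `o`. -/
def out (D : Finset V) (h : ℝ≥0) (N : ℕ) (o : V) (z : Fin N → D → ℝ) : ℝ :=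
  cl (path G θ D h 0 (extN z) N o / (N * h))

/-- Keep the noise on `B`, take fresh noise elsewhere. -/
def mixB {N : ℕ} {D : Finset V} (B : Finset V) (z w : Fin N → D → ℝ) : Fin N → D → ℝ :=
  fun i u => if u.1 ∈ B then z i u else w i u

/-- The effect of fresh noise outside `B`. -/
def resamp (D : Finset V) (h : ℝ≥0) (N : ℕ) (o : V) (B : Finset V) (z : Fin N → D → ℝ) : ℝ :=
  ∫ w, |out G θ D h N o z - out G θ D h N o (mixB B z w)| ∂(nlaw h N D)

/-- Block sums of the noise. -/
def agg {N' : ℕ} {D' : Finset V} (D : Finset V) (M N : ℕ) (z : Fin N' → D' → ℝ) :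
    Fin N → D → ℝ :=
  fun j u => ∑ i ∈ Finset.range M, extN z (j * M + i) u

variable {G θ}

lemma abs_cl_le (x : ℝ) : |cl x| ≤ 1 :=
  abs_le.2 ⟨le_max_left _ _, max_le (by norm_num) (min_le_left _ _)⟩

lemma cl_lipschitz (a b : ℝ) : |cl a - cl b| ≤ |a - b| := by
  unfold cl
  refine (abs_max_sub_max_le_max _ _ _ _).trans (max_le ?_ ?_)
  · simp
  · refine (abs_min_sub_min_le_max _ _ _ _).trans (max_le ?_ le_rfl)
    simp

lemma abs_cl_add_sub {s x : ℝ} (hs : |s| ≤ 1) : |cl (s + x) - s| ≤ |x| := by
  have h1 : cl s = s := by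
    obtain ⟨a, b⟩ := abs_le.1 hs
    unfold cl
    rw [min_eq_right b, max_eq_right a]
  calc |cl (s + x) - s| = |cl (s + x) - cl s| := by rw [h1]
    _ ≤ |s + x - s| := cl_lipschitz _ _
    _ = |x| := by simp

lemma measurable_cl : Measurable cl := measurable_const.max (measurable_const.min measurable_id)

lemma measurable_out (hθ : Par θ) (D : Finset V) (h : ℝ≥0) (N : ℕ) (o : V) :
    Measurable (out G θ D h N o) :=
  measurable_cl.comp
    ((measurable_path (Y := fun _ => (0 : V → ℝ)) hθ D h (fun _ => measurable_const)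
      (fun j u => measurable_extN j u) N o).div_const _)

lemma measurable_mixB {N : ℕ} {D : Finset V} (B : Finset V) :
    Measurable fun p : (Fin N → D → ℝ) × (Fin N → D → ℝ) => mixB B p.1 p.2 := by
  refine measurable_pi_lambda _ fun i => measurable_pi_lambda _ fun u => ?_
  unfold mixB
  split_ifs
  · exact (measurable_pi_apply u).comp ((measurable_pi_apply i).comp measurable_fst)
  · exact (measurable_pi_apply u).comp ((measurable_pi_apply i).comp measurable_snd)

lemma measurable_resamp (hθ : Par θ) (D : Finset V) (h : ℝ≥0) (N : ℕ) (o : V) (B : Finset V) :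
    Measurable (resamp G θ D h N o B) :=
  ((((measurable_out hθ D h N o).comp measurable_fst).sub
    ((measurable_out hθ D h N o).comp (measurable_mixB B))).abs.stronglyMeasurable.integral_prod_right').measurable

lemma abs_out_sub_le (D : Finset V) (h : ℝ≥0) {N : ℕ} (o : V) (D' : Finset V) (h' : ℝ≥0) {N' : ℕ}
    (o' : V) (z : Fin N → D → ℝ) (w : Fin N' → D' → ℝ) :
    |out G θ D h N o z - out G θ D' h' N' o' w| ≤ 2 := by
  refine (abs_sub _ _).trans ?_
  have h1 : |out G θ D h N o z| ≤ 1 := abs_cl_le _
  have h2 : |out G θ D' h' N' o' w| ≤ 1 := abs_cl_le _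
  linarith

lemma abs_resamp_le (D : Finset V) (h : ℝ≥0) (N : ℕ) (o : V) (B : Finset V)
    (z : Fin N → D → ℝ) : |resamp G θ D h N o B z| ≤ 2 := by
  refine abs_integral_le_integral_abs.trans ?_
  calc ∫ w, |(|out G θ D h N o z - out G θ D h N o (mixB B z w)|)| ∂(nlaw h N D)
      ≤ ∫ _w, (2:ℝ) ∂(nlaw h N D) := by
        refine integral_mono_of_nonneg (ae_of_all _ fun w => abs_nonneg _) (integrable_const _)
          (ae_of_all _ fun w => ?_)
        simp only [abs_abs]
        exact abs_out_sub_le D h o D h o _ _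
    _ = 2 := by simp

/-- The radial super-solution hypothesis on `D`. -/
def Super (G : SimpleGraph V) (θ a Kc : ℝ) (D : Finset V) : Prop :=
  0 ≤ a ∧ a ≤ 1 ∧ 0 ≤ Kc ∧
    ∀ v w : V, ∑ u ∈ D, θ ^ G.dist v u * a ^ G.dist u w ≤ Kc * a ^ G.dist v w

lemma path_lipschitz (hG : G.IsTree) (hθ : Par θ) {D : Finset V} (hD : Closed G D) {a Kc : ℝ}
    (hS : Super G θ a Kc D) (h : ℝ≥0) (z z' : ℕ → V → ℝ) :
    ∀ (j : ℕ) (v : V), v ∈ D →
      |path G θ D h 0 z j v - path G θ D h 0 z' j v| ≤
        (1 + h * Kc) ^ j * ∑ i ∈ Finset.range j, ∑ u ∈ D, a ^ G.dist v u * |z i u - z' i u| := by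
  obtain ⟨ha, -, hK, hsup⟩ := hS
  have hc : 0 ≤ (h:ℝ) * Kc := mul_nonneg h.coe_nonneg hK
  intro j
  induction j with
  | zero => intro v _; simp [path]
  | succ j ih =>
    intro v hv
    set P := fun w => |path G θ D h 0 z j w - path G θ D h 0 z' j w|
    set E := fun w => ∑ i ∈ Finset.range j, ∑ u ∈ D, a ^ G.dist w u * |z i u - z' i u| with hE
    have hm : |mf G θ D (path G θ D h 0 z j) v - mf G θ D (path G θ D h 0 z' j) v|
        ≤ (1 + h * Kc) ^ j * (Kc * E v) := by
      refine (mf_lipschitz hG hθ hD _ _ hv).trans ?_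
      calc ∑ w ∈ D, θ ^ G.dist v w * P w
          ≤ ∑ w ∈ D, θ ^ G.dist v w * ((1 + h * Kc) ^ j * E w) :=
            Finset.sum_le_sum fun w hw =>
              mul_le_mul_of_nonneg_left (ih w hw) (pow_nonneg hθ.1 _)
        _ = (1 + h * Kc) ^ j * ∑ i ∈ Finset.range j, ∑ u ∈ D,
              (∑ w ∈ D, θ ^ G.dist v w * a ^ G.dist w u) * |z i u - z' i u| := by
            simp only [hE, Finset.mul_sum, Finset.sum_mul]
            rw [Finset.sum_comm]
            refine Finset.sum_congr rfl fun i _ => ?_
            rw [Finset.sum_comm]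
            exact Finset.sum_congr rfl fun u _ => Finset.sum_congr rfl fun w _ => by ring
        _ ≤ (1 + h * Kc) ^ j * ∑ i ∈ Finset.range j, ∑ u ∈ D,
              (Kc * a ^ G.dist v u) * |z i u - z' i u| := by
            refine mul_le_mul_of_nonneg_left (Finset.sum_le_sum fun i _ =>
              Finset.sum_le_sum fun u _ =>
                mul_le_mul_of_nonneg_right (hsup v u) (abs_nonneg _)) (by positivity)
        _ = _ := by
            simp only [hE, Finset.mul_sum]
            exact Finset.sum_congr rfl fun i _ => Finset.sum_congr rfl fun u _ => by ring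
    have hz : |z j v - z' j v| ≤ ∑ u ∈ D, a ^ G.dist v u * |z j u - z' j u| := by
      refine le_trans (le_of_eq ?_) (Finset.single_le_sum
        (f := fun u => a ^ G.dist v u * |z j u - z' j u|) (fun u _ => by positivity) hv)
      simp
    have hE0 : 0 ≤ ∑ u ∈ D, a ^ G.dist v u * |z j u - z' j u| :=
      Finset.sum_nonneg fun u _ => by positivity
    simp only [path, next]
    calc _ = |(path G θ D h 0 z j v - path G θ D h 0 z' j v)
            + h * (mf G θ D (path G θ D h 0 z j) v - mf G θ D (path G θ D h 0 z' j) v)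
            + (z j v - z' j v)| := by congr 1; ring
      _ ≤ |path G θ D h 0 z j v - path G θ D h 0 z' j v|
            + h * |mf G θ D (path G θ D h 0 z j) v - mf G θ D (path G θ D h 0 z' j) v|
            + |z j v - z' j v| := by
          refine (abs_add_le _ _).trans (add_le_add_left ((abs_add_le _ _).trans ?_) _)
          rw [abs_mul, abs_of_nonneg h.coe_nonneg]
      _ ≤ (1 + h * Kc) ^ j * E v + h * ((1 + h * Kc) ^ j * (Kc * E v))
            + ∑ u ∈ D, a ^ G.dist v u * |z j u - z' j u| :=
          add_le_add (add_le_add (ih v hv) (mul_le_mul_of_nonneg_left hm h.coe_nonneg)) hz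
      _ ≤ _ := by
          rw [Finset.sum_range_succ, mul_add (((1:ℝ) + h * Kc) ^ (j+1))]
          refine add_le_add (le_of_eq (by rw [pow_succ]; simp only [hE]; ring)) ?_
          exact le_mul_of_one_le_left hE0 (one_le_pow₀ (by linarith))

lemma out_lipschitz (hG : G.IsTree) (hθ : Par θ) {D : Finset V} (hD : Closed G D) {a Kc : ℝ}
    (hS : Super G θ a Kc D) (h : ℝ≥0) {N : ℕ} {o : V} (ho : o ∈ D) (z z' : Fin N → D → ℝ) :
    |out G θ D h N o z - out G θ D h N o z'| ≤
      (1 + h * Kc) ^ N / (N * h) *
        ∑ j : Fin N, ∑ u : D, a ^ G.dist o u * |z j u - z' j u| := by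
  refine (cl_lipschitz _ _).trans ?_
  rw [← sub_div, abs_div, abs_of_nonneg (show (0:ℝ) ≤ N * h by positivity), div_mul_eq_mul_div]
  refine div_le_div_of_nonneg_right ((path_lipschitz hG hθ hD hS h _ _ N o ho).trans_eq ?_)
    (by positivity)
  congr 1
  rw [Finset.sum_range]
  refine Finset.sum_congr rfl fun j _ => ?_
  rw [← Finset.sum_coe_sort D]
  exact Finset.sum_congr rfl fun u _ => by rw [extN_apply z j.2 u.2, extN_apply z' j.2 u.2]

lemma curry_preserving (D : Finset V) (h : ℝ≥0) (N : ℕ) :
    MeasurePreserving (MeasurableEquiv.curry (Fin N) D ℝ)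
      (Measure.pi fun _ : Fin N × D => gl h) (nlaw h N D) := by
  refine ⟨(MeasurableEquiv.curry _ _ _).measurable, ?_⟩
  have := Measure.infinitePi_map_curry (fun (_ : Fin N) (_ : D) => gl h)
  rw [Measure.infinitePi_eq_pi, Measure.infinitePi_eq_pi] at this
  rw [this]
  simp only [nlaw, Measure.infinitePi_eq_pi]

/-- The bound on resampling distant noise. -/
def eta (G : SimpleGraph V) (D : Finset V) (h : ℝ≥0) (N : ℕ) (o : V) (B : Finset V)
    (a Kc : ℝ) : ℝ :=
  2 * h * N * ((1 + h * Kc) ^ N / (N * h)) ^ 2 * ∑ u ∈ D \ B, (a ^ 2) ^ G.dist o u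

/-- From second to first absolute moments, for a bounded two-variable function. -/
lemma abs_le_sq_integral {Ω : Type*} [MeasurableSpace Ω] (ρ : Measure Ω) [IsProbabilityMeasure ρ]
    (F : Ω → Ω → ℝ) (hF : Measurable fun p : Ω × Ω => F p.1 p.2) {C : ℝ}
    (hb : ∀ z w, |F z w| ≤ C) {ε : ℝ} (hε : 0 < ε) :
    ∫ z, ∫ w, |F z w| ∂ρ ∂ρ ≤ (∫ z, ∫ w, F z w ^ 2 ∂ρ ∂ρ) / ε + ε := by
  have hb2 : ∀ z w, |F z w ^ 2| ≤ C ^ 2 := fun z w => by
    rw [abs_pow]; exact pow_le_pow_left₀ (abs_nonneg _) (hb z w) 2
  have iw : ∀ z, Integrable (fun w => F z w ^ 2) ρ := fun z =>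
    integrable_of_bdd ((hF.comp measurable_prodMk_left).pow_const 2) (hb2 z)
  have iz : Integrable (fun z => ∫ w, F z w ^ 2 ∂ρ) ρ :=
    integrable_of_bdd (B := C ^ 2) (hF.pow_const 2).stronglyMeasurable.integral_prod_right'.measurable
      fun q => by
        have := norm_integral_le_of_norm_le_const (μ := ρ)
          (ae_of_all _ fun w => show ‖F q w ^ 2‖ ≤ C ^ 2 from hb2 q w)
        simpa using this
  calc ∫ z, ∫ w, |F z w| ∂ρ ∂ρ ≤ ∫ z, ((∫ w, F z w ^ 2 ∂ρ) / ε + ε) ∂ρ := by
        refine integral_mono_of_nonneg (ae_of_all _ fun z => integral_nonneg fun w => abs_nonneg _)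
          ((iz.div_const ε).add (integrable_const _)) (ae_of_all _ fun z => ?_)
        calc ∫ w, |F z w| ∂ρ ≤ ∫ w, (F z w ^ 2 / ε + ε) ∂ρ := by
              refine integral_mono_of_nonneg (ae_of_all _ fun w => abs_nonneg _)
                (((iw z).div_const ε).add (integrable_const _)) (ae_of_all _ fun w => ?_)
              simp only
              have : F z w ^ 2 / ε + ε = (|F z w| ^ 2 + ε ^ 2) / ε := by
                rw [sq_abs]; field_simp
              rw [this, le_div_iff₀ hε]
              nlinarith [sq_nonneg (|F z w| - ε), abs_nonneg (F z w)]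
          _ = _ := by
              rw [integral_add ((iw z).div_const ε) (integrable_const _), integral_div]
              simp
    _ = _ := by
        rw [integral_add (iz.div_const ε) (integrable_const _), integral_div]
        simp

lemma resamp_bound (hG : G.IsTree) (hθ : Par θ) {D : Finset V} (hD : Closed G D) {a Kc : ℝ}
    (hS : Super G θ a Kc D) (h : ℝ≥0) (N : ℕ) {o : V} (ho : o ∈ D) (B : Finset V) {ε : ℝ}
    (hε : 0 < ε) :
    ∫ z, resamp G θ D h N o B z ∂(nlaw h N D) ≤ eta G D h N o B a Kc / ε + ε := by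
  set T := MeasurableEquiv.curry (Fin N) D ℝ with hT
  have hTp : MeasurePreserving T (Measure.pi fun _ : Fin N × D => gl h) (nlaw h N D) :=
    curry_preserving D h N
  set ρ := Measure.pi fun _ : Fin N × D => gl h with hρ
  set Fz := fun z : Fin N × D → ℝ => out G θ D h N o (T z) with hFz
  have hFm : Measurable Fz := (measurable_out hθ D h N o).comp T.measurable
  set κ := (1 + h * Kc) ^ N / (N * (h:ℝ))
  set keep : Fin N × D → Prop := fun p => p.2.1 ∈ B
  set mx := fun (p : (Fin N × D → ℝ) × (Fin N × D → ℝ)) (i : Fin N × D) =>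
    if keep i then p.1 i else p.2 i with hmx
  have hmixp : MeasurePreserving mx (ρ.prod ρ) ρ := mix_preserving (fun _ => gl h) keep
  have hTmix : ∀ z w, T (mx (z, w)) = mixB B (T z) (T w) := fun z w => by
    funext i u
    simp only [hmx, mixB, hT, keep, MeasurableEquiv.coe_curry, Function.curry_apply]
  set Φ := fun z w => (Fz z - Fz (mx (z, w))) ^ 2 with hΦ
  have hFb : ∀ z, |Fz z| ≤ 1 := fun z => abs_cl_le _
  have hΦm : Measurable fun p : (Fin N × D → ℝ) × (Fin N × D → ℝ) => Φ p.1 p.2 :=
    ((hFm.comp measurable_fst).sub (hFm.comp hmixp.measurable)).pow_const 2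
  have hΦb : ∀ z w, |Φ z w| ≤ 4 := fun z w => by
    rw [hΦ, abs_pow]
    calc _ ≤ (2:ℝ) ^ 2 := pow_le_pow_left₀ (abs_nonneg _)
          ((abs_sub _ _).trans (by linarith [hFb z, hFb (mx (z, w))])) 2
      _ = 4 := by norm_num
  have idem : ∀ z w w', mx (mx (z, w), w') = mx (z, w') := fun z w w' => by
    funext i; simp only [hmx]; split_ifs <;> rfl
  have hes : ∫ z, ∫ w, Φ z w ∂ρ ∂ρ ≤ eta G D h N o B a Kc := by
    have hG2 : Measurable fun q : (Fin N × D → ℝ) => ∫ w, Φ q w ∂ρ :=
      hΦm.stronglyMeasurable.integral_prod_right'.measurable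
    have hG2b : ∀ q, |∫ w, Φ q w ∂ρ| ≤ 4 := fun q => by
      have := norm_integral_le_of_norm_le_const (μ := ρ)
        (ae_of_all _ fun w => show ‖Φ q w‖ ≤ 4 from hΦb q w)
      simpa using this
    have e1 : ∫ z, ∫ w, Φ z w ∂ρ ∂ρ = ∫ p, ∫ w, Φ (mx p) w ∂ρ ∂(ρ.prod ρ) := by
      rw [← integral_map hmixp.measurable.aemeasurable hG2.aestronglyMeasurable, hmixp.map_eq]
    rw [e1, integral_prod (f := fun p => ∫ w, Φ (mx p) w ∂ρ)
      (integrable_of_bdd (hG2.comp hmixp.measurable) fun p => hG2b _)]
    calc ∫ z, ∫ w, ∫ w', Φ (mx (z, w)) w' ∂ρ ∂ρ ∂ρ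
        ≤ ∫ _z, eta G D h N o B a Kc ∂ρ := by
          refine integral_mono_of_nonneg
            (ae_of_all _ fun z => integral_nonneg fun w => integral_nonneg fun w' => sq_nonneg _)
            (integrable_const _) (ae_of_all _ fun z => ?_)
          simp only [hΦ, idem]
          refine (efron_stein h (F := fun w => Fz (mx (z, w)))
            (hFm.comp (hmixp.measurable.comp measurable_prodMk_left)) (fun w => hFb _)
            (L := fun p => if keep p then 0 else κ * a ^ G.dist o p.2) fun p w x y => ?_).trans_eq ?_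
          · by_cases hk : keep p
            · rw [if_pos hk]
              have : mx (z, Function.update w p x) = mx (z, Function.update w p y) := by
                funext i
                simp only [hmx]
                split_ifs with hi
                · rfl
                · have hne : i ≠ p := fun e => hi (e ▸ hk)
                  rw [Function.update_of_ne hne, Function.update_of_ne hne]
              simp [this]
            · rw [if_neg hk]
              refine (out_lipschitz hG hθ hD hS h ho _ _).trans_eq ?_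
              rw [mul_assoc]
              congr 1
              have hd : ∀ (j : Fin N) (u : D),
                  a ^ G.dist o u * |T (mx (z, Function.update w p x)) j u
                      - T (mx (z, Function.update w p y)) j u|
                    = if (j, u) = p then a ^ G.dist o u * |x - y| else 0 := by
                intro j u
                simp only [hmx, hT, MeasurableEquiv.coe_curry, Function.curry_apply]
                by_cases hju : (j, u) = p
                · subst hju
                  simp [hk]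
                · rw [if_neg hju, Function.update_of_ne hju, Function.update_of_ne hju]
                  simp
              simp only [hd, ← Fintype.sum_prod_type', Prod.mk.eta]
              simp
          · have hs : ∑ p : Fin N × D, (if keep p then 0 else κ * a ^ G.dist o p.2) ^ 2
                = (N : ℝ) * (κ ^ 2 * ∑ u ∈ D \ B, (a ^ 2) ^ G.dist o u) := by
              simp only [Fintype.sum_prod_type, keep]
              rw [Finset.sum_const, Finset.card_univ, Fintype.card_fin, nsmul_eq_mul]
              congr 1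
              rw [Finset.mul_sum, Finset.sdiff_eq_filter, Finset.sum_filter,
                ← Finset.sum_coe_sort D]
              refine Finset.sum_congr rfl fun u _ => ?_
              by_cases hu : u.1 ∈ B <;> simp [hu, mul_pow, ← pow_mul, mul_comm]
            rw [hs]
            unfold eta
            ring
      _ = _ := by simp
  have e2 : ∫ z, resamp G θ D h N o B z ∂(nlaw h N D)
      = ∫ z, ∫ w, |Fz z - Fz (mx (z, w))| ∂ρ ∂ρ := by
    rw [← hTp.integral_comp T.measurableEmbedding (resamp G θ D h N o B)]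
    refine integral_congr_ae (ae_of_all _ fun z => ?_)
    simp only [resamp]
    rw [← hTp.integral_comp T.measurableEmbedding
      (fun w => |out G θ D h N o (T z) - out G θ D h N o (mixB B (T z) w)|)]
    simp only [hFz, hTmix]
  rw [e2]
  refine (abs_le_sq_integral ρ (fun z w => Fz z - Fz (mx (z, w)))
    ((hFm.comp measurable_fst).sub (hFm.comp hmixp.measurable))
    (fun z w => (abs_sub _ _).trans (add_le_add (hFb z) (hFb _))) hε).trans ?_
  exact add_le_add_left (div_le_div_of_nonneg_right hes hε.le) _

lemma measurable_agg {N' : ℕ} {D' : Finset V} (D : Finset V) (M N : ℕ) :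
    Measurable (agg (N' := N') (D' := D') D M N) :=
  measurable_pi_lambda _ fun _ => measurable_pi_lambda _ fun _ =>
    Finset.measurable_sum _ fun _ _ => measurable_extN _ _

lemma planted_agg {N' : ℕ} {D D' : Finset V} {M N : ℕ} {h h' : ℝ} (hh : h = M * h')
    (S : Finset V) (ξ : Fin N' → D' → ℝ) {j : ℕ} (hj : j ≤ N) {u : V} (hu : u ∈ D) :
    planted h 0 (S ∩ D) (extN (agg D M N ξ)) j u = planted h' 0 S (extN ξ) (j * M) u := by
  unfold planted
  rw [spin_inter hu]
  have : ∀ j ≤ N, ∑ i ∈ Finset.range j, extN (agg D M N ξ) i u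
      = ∑ i ∈ Finset.range (j * M), extN ξ i u := by
    intro j hj
    induction j with
    | zero => simp
    | succ j ih =>
      rw [Finset.sum_range_succ, ih (by omega), Nat.succ_mul, Finset.sum_range_add,
        extN_apply _ (show j < N by omega) hu]
      rfl
  rw [this j hj, hh]
  push_cast
  ring

/-- Marginal of the planted model under block sums. -/
lemma Epl_agg (hG : G.IsTree) (hθ : Par θ) {D D' : Finset V} (hD : Closed G D)
    (hne : D.Nonempty) (hD' : Closed G D') (hsub : D ⊆ D') {h h' : ℝ≥0} {N N' M : ℕ}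
    (hagg : MeasurePreserving (agg (N' := N') (D' := D') D M N) (nlaw h' N' D') (nlaw h N D))
    {f : Finset V → (Fin N → D → ℝ) → ℝ} (hf : ∀ S, Measurable (f S)) :
    Epl G θ D' h' N' (fun S ξ => f (S ∩ D) (agg D M N ξ)) = Epl G θ D h N f := by
  have key : ∀ S, ∫ ξ, f S (agg D M N ξ) ∂(nlaw h' N' D') = ∫ z, f S z ∂(nlaw h N D) := fun S => by
    rw [← hagg.map_eq, integral_map hagg.measurable.aemeasurable (hf S).aestronglyMeasurable]
  unfold Epl
  simp only [key]
  exact sum_post_marginal hG hθ hD hne hD' hsub fun S => ∫ z, f S z ∂(nlaw h N D)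

lemma out_inn {D : Finset V} {h : ℝ≥0} (hh : h ≠ 0) {N : ℕ} (hN : 0 < N) (S : Finset V)
    (ξ : Fin N → D → ℝ) {o : V} (ho : o ∈ D) :
    |out G θ D h N o (inn G θ D h S ξ) - spin S o|
      ≤ |∑ i ∈ Finset.range N, extN ξ i o| / (N * h) := by
  unfold out
  rw [path_inn S ξ le_rfl ho]
  have hT : (0:ℝ) < N * h := by
    have : (0:ℝ) < h := by positivity
    positivity
  have e : planted (h:ℝ) 0 S (extN ξ) N o / (N * h)
      = spin S o + (∑ i ∈ Finset.range N, extN ξ i o) / (N * h) := by
    unfold planted
    field_simp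
    simp
  rw [e]
  refine (abs_cl_add_sub (abs_spin S o).le).trans_eq ?_
  rw [abs_div, abs_of_pos hT]

/-- Two schemes on nested domains agree in `L¹` up to small errors. -/
theorem compare (hG : G.IsTree) (hθ : Par θ) {D D' : Finset V} (hD : Closed G D)
    (hD' : Closed G D') (hsub : D ⊆ D') {B : Finset V} (hB : B ⊆ D) {o : V} (hoB : o ∈ B)
    {a Kc : ℝ} (hS : Super G θ a Kc D)
    {h h' : ℝ≥0} (hh' : h' ≠ 0) {N N' M : ℕ} (hM : 0 < M) (hN : 0 < N) (hhM : (h:ℝ) = M * h')
    (hN' : N * M ≤ N')
    (hagg : MeasurePreserving (agg (N' := N') (D' := D') D M N) (nlaw h' N' D') (nlaw h N D))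
    (hs : (h:ℝ) * (4 * D.card) ≤ 1) (hs' : (h':ℝ) * (4 * D'.card) ≤ 1)
    {τ : ℝ} (hτ : ∀ u ∈ B, 4 * ∑ w ∈ D' \ D, (θ ^ 2) ^ G.dist u w ≤ τ)
    {ε ε₂ : ℝ} (hε : 0 < ε) (hε₂ : 0 < ε₂) :
    ∫ z, |out G θ D h N o (agg D M N z) - out G θ D' h' N' o z| ∂(nlaw h' N' D') ≤
      2 * (chi D' h' N' / ε + ε) + (chi D h N / ε + ε) + 2 * (eta G D h N o B a Kc / ε + ε)
        + (1 + h * Kc) ^ N * B.card * (τ / ε₂ + ε₂ + D.card * (h + Real.sqrt h))
        + 1 / Real.sqrt (N * h) + 1 / Real.sqrt (N' * h') := by
  have ho : o ∈ D := hB hoB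
  have hh : h ≠ 0 := by
    intro e
    rw [e] at hhM
    have h1 : (0:ℝ) < h' := by positivity
    have h2 : (0:ℝ) < M := by exact_mod_cast hM
    have h3 : (0:ℝ) < M * h' := mul_pos h2 h1
    rw [← hhM] at h3
    simp at h3
  have hpos : (0:ℝ) < h := by positivity
  have hN'pos : 0 < N' := lt_of_lt_of_le (Nat.mul_pos hN hM) hN'
  set Ψ := fun z => |out G θ D h N o (agg D M N z) - out G θ D' h' N' o z| with hΨ
  have hΨm : Measurable Ψ :=
    (((measurable_out hθ D h N o).comp (measurable_agg D M N)).sub
      (measurable_out hθ D' h' N' o)).abs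
  have hΨb : ∀ z, |Ψ z| ≤ 2 := fun z => by
    simp only [hΨ, abs_abs]; exact abs_out_sub_le D h o D' h' o _ _
  have c0 := abs_le.1 (planted_close (G := G) hθ hh' hs' hΨm hΨb hε)
  set A := fun (S : Finset V) (ξ : Fin N' → D' → ℝ) => agg D M N (inn G θ D' h' S ξ)
  set Bz := fun (S : Finset V) (ξ : Fin N' → D' → ℝ) => inn G θ D h (S ∩ D) (agg D M N ξ)
  set R := resamp G θ D h N o B
  set Y := fun (S : Finset V) (ξ : Fin N' → D' → ℝ) => planted (h':ℝ) 0 S (extN ξ) with hY
  set κ := (1 + h * Kc) ^ N / (N * (h:ℝ)) with hκ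
  have hκ0 : 0 ≤ κ := by
    rw [hκ]
    have := hS.2.2.1
    positivity
  set g1 := fun (j : Fin N) (u : V) (i : ℕ) (S : Finset V) (ξ : Fin N' → D' → ℝ) =>
    |mf G θ D' (Y S ξ (j * M + i)) u - mf G θ D (Y S ξ (j * M + i)) u|
      + ∑ w ∈ D, ((h:ℝ) + |∑ l ∈ Finset.Ico (j * M) (j * M + i), extN ξ l w|)
  set Dl := fun (S : Finset V) (ξ : Fin N' → D' → ℝ) =>
    ∑ j : Fin N, ∑ u ∈ B, ∑ i ∈ Finset.range M, (κ * h') * g1 j u i S ξ
  set W := fun (ξ : Fin N' → D' → ℝ) =>
    |∑ i ∈ Finset.range N, extN (agg D M N ξ) i o| / (N * h)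
  set W' := fun (ξ : Fin N' → D' → ℝ) =>
    |∑ i ∈ Finset.range N', extN ξ i o| / (N' * h')
  have hjM : ∀ (j : Fin N) (i : ℕ), i ≤ M → (j:ℕ) * M + i ≤ N' := fun j i hi => by
    have : ((j:ℕ) + 1) * M ≤ N * M := Nat.mul_le_mul_right M j.2
    rw [Nat.succ_mul] at this
    omega
  have point : ∀ S ∈ D'.powerset, ∀ ξ, Ψ (inn G θ D' h' S ξ)
      ≤ R (A S ξ) + R (Bz S ξ) + Dl S ξ + W ξ + W' ξ := by
    intro S _ ξ
    have e1 : |out G θ D h N o (A S ξ) - out G θ D h N o (Bz S ξ)|
        ≤ R (A S ξ) + R (Bz S ξ) + Dl S ξ := by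
      set zA := A S ξ
      set zB := Bz S ξ
      have imid : ∀ z : Fin N → D → ℝ,
          Integrable (fun w => |out G θ D h N o z - out G θ D h N o (mixB B z w)|) (nlaw h N D) :=
        fun z => integrable_of_bdd (B := 2)
          ((measurable_const.sub ((measurable_out hθ D h N o).comp
            ((measurable_mixB B).comp measurable_prodMk_left))).abs) fun w => by
          rw [abs_abs]; exact abs_out_sub_le D h o D h o _ _
      have hmid : ∀ w, |out G θ D h N o (mixB B zA w) - out G θ D h N o (mixB B zB w)| ≤ Dl S ξ := by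
        intro w
        refine (out_lipschitz hG hθ hD hS h ho _ _).trans ?_
        simp only [Dl, ← hκ]
        rw [Finset.mul_sum]
        refine Finset.sum_le_sum fun j _ => ?_
        rw [Finset.mul_sum]
        have hBsub : ∀ u : D, κ * (a ^ G.dist o u * |mixB B zA w j u - mixB B zB w j u|)
            = if u.1 ∈ B then κ * (a ^ G.dist o u * |zA j u - zB j u|) else 0 := fun u => by
          unfold mixB; split_ifs <;> simp
        rw [Finset.sum_congr rfl fun u _ => hBsub u]
        calc ∑ u : D, (if u.1 ∈ B then κ * (a ^ G.dist o u * |zA j u - zB j u|) else 0)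
            ≤ ∑ u : D, (if u.1 ∈ B then
                ∑ i ∈ Finset.range M, (κ * h') * g1 j u i S ξ else 0) := by
              refine Finset.sum_le_sum fun u _ => ?_
              split_ifs with hu
              swap
              · exact le_rfl
              rw [← Finset.mul_sum, mul_assoc]
              refine mul_le_mul_of_nonneg_left ((mul_le_of_le_one_left (abs_nonneg _)
                (pow_le_one₀ hS.1 hS.2.1)).trans ?_) hκ0
              have ea : zA j u - zB j u = ∑ i ∈ Finset.range M, (h':ℝ) *
                  (mf G θ D (Y S ξ (j * M)) u - mf G θ D' (Y S ξ (j * M + i)) u) := by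
                have hb' : planted (h:ℝ) 0 (S ∩ D) (extN (agg D M N ξ)) j u
                    = Y S ξ (j * M) u := planted_agg hhM S ξ j.2.le u.2
                have hA' : zA j u = ∑ i ∈ Finset.range M,
                    (extN ξ (j * M + i) u + (h':ℝ) *
                      (spin S u - mf G θ D' (Y S ξ (j * M + i)) u)) := by
                  refine Finset.sum_congr rfl fun i hi => ?_
                  rw [extN_apply _ (show (j:ℕ) * M + i < N' by
                    have := hjM j (i+1) (Finset.mem_range.1 hi); omega) (hsub u.2)]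
                  rfl
                have hB' : zB j u = (∑ i ∈ Finset.range M, extN ξ (j * M + i) u)
                    + (h:ℝ) * (spin S u - mf G θ D (Y S ξ (j * M)) u) := by
                  simp only [zB, Bz, inn, resN, innov]
                  rw [spin_inter u.2, extN_apply _ j.2 u.2,
                    mf_congr (D := D) (y' := Y S ξ (j * M))
                      (fun w hw => planted_agg hhM S ξ j.2.le hw)]
                  rfl
                rw [hA', hB', hhM]
                simp only [mul_sub, Finset.sum_add_distrib, Finset.sum_sub_distrib,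
                  Finset.sum_const, Finset.card_range, nsmul_eq_mul]
                ring
              rw [ea, Finset.mul_sum]
              refine (Finset.abs_sum_le_sum_abs _ _).trans (Finset.sum_le_sum fun i hi => ?_)
              rw [abs_mul, abs_of_nonneg h'.coe_nonneg]
              refine mul_le_mul_of_nonneg_left ?_ h'.coe_nonneg
              refine (abs_sub_le _ (mf G θ D (Y S ξ (j * M + i)) u) _).trans ?_
              rw [add_comm]
              simp only [g1]
              refine add_le_add (le_of_eq (abs_sub_comm _ _)) ?_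
              refine (mf_lipschitz hG hθ hD _ _ u.2).trans (Finset.sum_le_sum fun w _ => ?_)
              refine (mul_le_of_le_one_left (abs_nonneg _) (pow_le_one₀ hθ.1 hθ.2.le)).trans ?_
              rw [abs_sub_comm]
              have : Y S ξ (j * M + i) w - Y S ξ (j * M) w
                  = (i:ℝ) * h' * spin S w + ∑ l ∈ Finset.Ico (j * M:ℕ) (j * M + i), extN ξ l w := by
                simp only [hY, planted]
                rw [Finset.sum_Ico_eq_sub _ (Nat.le_add_right _ _)]
                push_cast
                ring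
              rw [this]
              refine (abs_add_le _ _).trans (add_le_add ?_ le_rfl)
              rw [abs_mul, abs_spin, mul_one, abs_of_nonneg (by positivity), hhM]
              exact mul_le_mul_of_nonneg_right
                (by exact_mod_cast (Finset.mem_range.1 hi).le) h'.coe_nonneg
          _ = _ := by
              rw [Finset.sum_coe_sort D
                (fun u => if u ∈ B then ∑ i ∈ Finset.range M, (κ * h') * g1 j u i S ξ else 0),
                ← Finset.sum_filter]
              refine Finset.sum_congr ?_ fun _ _ => rfl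
              rw [Finset.filter_mem_eq_inter, Finset.inter_eq_right.2 hB]
      calc |out G θ D h N o zA - out G θ D h N o zB|
          = ∫ _w, |out G θ D h N o zA - out G θ D h N o zB| ∂(nlaw h N D) := by simp
        _ ≤ ∫ w, (|out G θ D h N o zA - out G θ D h N o (mixB B zA w)|
              + |out G θ D h N o zB - out G θ D h N o (mixB B zB w)| + Dl S ξ) ∂(nlaw h N D) := by
            have i12 : Integrable (fun w => |out G θ D h N o zA - out G θ D h N o (mixB B zA w)|
              + |out G θ D h N o zB - out G θ D h N o (mixB B zB w)|) (nlaw h N D) :=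
              (imid zA).add (imid zB)
            refine integral_mono (integrable_const _) (i12.add (integrable_const _)) fun w => ?_
            have h1 := abs_sub_le (out G θ D h N o zA) (out G θ D h N o (mixB B zA w))
              (out G θ D h N o zB)
            have h2 := abs_sub_le (out G θ D h N o (mixB B zA w)) (out G θ D h N o (mixB B zB w))
              (out G θ D h N o zB)
            have h3 := hmid w
            rw [abs_sub_comm (out G θ D h N o (mixB B zB w))] at h2
            linarith
        _ = _ := by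
            have i12 : Integrable (fun w => |out G θ D h N o zA - out G θ D h N o (mixB B zA w)|
              + |out G θ D h N o zB - out G θ D h N o (mixB B zB w)|) (nlaw h N D) :=
              (imid zA).add (imid zB)
            rw [integral_add i12 (integrable_const _), integral_add (imid zA) (imid zB)]
            simp [R, resamp]
    have e2 := out_inn (G := G) (θ := θ) hh hN (S ∩ D) (agg D M N ξ) ho
    have e3 := out_inn (G := G) (θ := θ) hh' hN'pos S ξ (hsub ho)
    rw [spin_inter ho] at e2
    simp only [hΨ]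
    have h1 := abs_sub_le (out G θ D h N o (A S ξ)) (out G θ D h N o (Bz S ξ))
      (out G θ D' h' N' o (inn G θ D' h' S ξ))
    have h2 := abs_sub_le (out G θ D h N o (Bz S ξ)) (spin S o)
      (out G θ D' h' N' o (inn G θ D' h' S ξ))
    rw [abs_sub_comm (spin S o)] at h2
    simp only [A, Bz, W, W'] at *
    linarith
  -- integrability
  have mR := measurable_resamp (G := G) hθ D h N o B
  have iA : ∀ S, Integrable (fun ξ => R (A S ξ)) (nlaw h' N' D') := fun S =>
    integrable_of_bdd (B := 2) (mR.comp ((measurable_agg D M N).comp (measurable_inn hθ S)))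
      fun ξ => abs_resamp_le _ _ _ _ _ _
  have iB : ∀ S, Integrable (fun ξ => R (Bz S ξ)) (nlaw h' N' D') := fun S =>
    integrable_of_bdd (B := 2) (mR.comp ((measurable_inn hθ _).comp (measurable_agg D M N)))
      fun ξ => abs_resamp_le _ _ _ _ _ _
  have ig1a : ∀ (j : Fin N) (u : V) (i : ℕ) S, Integrable (fun ξ =>
      |mf G θ D' (Y S ξ (j * M + i)) u - mf G θ D (Y S ξ (j * M + i)) u|) (nlaw h' N' D') :=
    fun j u i S => ((integrable_mf_planted hθ S _ u).sub (integrable_mf_planted hθ S _ u)).abs
  have ig1b : ∀ (j : Fin N) (i : ℕ), i ≤ M → ∀ w ∈ D, Integrable (fun ξ : Fin N' → D' → ℝ =>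
      (h:ℝ) + |∑ l ∈ Finset.Ico (j * M:ℕ) (j * M + i), extN ξ l w|) (nlaw h' N' D') :=
    fun j i hi w hw => (integrable_const _).add
      (noise_moment h' (hsub hw) _ fun l hl =>
        lt_of_lt_of_le (Finset.mem_Ico.1 hl).2 (hjM j i hi)).1.abs
  have ig1 : ∀ (j : Fin N) (u : V) (i : ℕ), i ≤ M → ∀ S,
      Integrable (fun ξ => g1 j u i S ξ) (nlaw h' N' D') := fun j u i hi S =>
    (ig1a j u i S).add (integrable_finsetSum _ (ig1b j i hi))
  have iDl : ∀ S, Integrable (fun ξ => Dl S ξ) (nlaw h' N' D') := fun S =>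
    integrable_finsetSum _ fun j _ => integrable_finsetSum _ fun u _ =>
      integrable_finsetSum _ fun i hi =>
        (ig1 j u i (Finset.mem_range.1 hi).le S).const_mul _
  have eW : ∀ ξ : Fin N' → D' → ℝ, (∑ i ∈ Finset.range N, extN (agg D M N ξ) i o)
      = ∑ i ∈ Finset.range (N * M), extN ξ i o := fun ξ => by
    have := planted_agg (N := N) (D := D) hhM (∅ : Finset V) ξ le_rfl ho
    simp only [planted, spin_inter ho, hhM] at this
    push_cast at this
    linarith
  have iW : ∀ _S : Finset V, Integrable W (nlaw h' N' D') := fun _ => by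
    simp only [W, eW]
    exact ((noise_moment h' (hsub ho) _ fun i hi =>
      lt_of_lt_of_le (Finset.mem_range.1 hi) hN').1.abs).div_const _
  have iW' : ∀ _S : Finset V, Integrable W' (nlaw h' N' D') := fun _ =>
    ((noise_moment h' (hsub ho) _ fun i hi => Finset.mem_range.1 hi).1.abs).div_const _
  have iΨ : ∀ S, Integrable (fun ξ => Ψ (inn G θ D' h' S ξ)) (nlaw h' N' D') := fun S =>
    integrable_of_bdd (hΨm.comp (measurable_inn hθ S)) fun ξ => hΨb _
  have iAB : ∀ S, Integrable (fun ξ => R (A S ξ) + R (Bz S ξ)) (nlaw h' N' D') :=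
    fun S => (iA S).add (iB S)
  have iABD : ∀ S, Integrable (fun ξ => R (A S ξ) + R (Bz S ξ) + Dl S ξ) (nlaw h' N' D') :=
    fun S => (iAB S).add (iDl S)
  have iABDW : ∀ S, Integrable (fun ξ => R (A S ξ) + R (Bz S ξ) + Dl S ξ + W ξ)
      (nlaw h' N' D') := fun S => (iABD S).add (iW S)
  have main := Epl_mono (G := G) (g := fun S ξ => R (A S ξ) + R (Bz S ξ) + Dl S ξ + W ξ + W' ξ)
    hθ iΨ (fun S => (iABDW S).add (iW' S)) point
  rw [Epl_add iABDW iW', Epl_add iABD iW, Epl_add iAB iDl, Epl_add iA iB] at main
  -- the five terms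
  have hRb := resamp_bound hG hθ hD hS h N ho B hε
  have t1 : Epl G θ D' h' N' (fun S ξ => R (A S ξ))
      ≤ eta G D h N o B a Kc / ε + ε + (chi D' h' N' / ε + ε) := by
    have c := abs_le.1 (planted_close (G := G) (N := N') hθ hh' hs'
      (ψ := fun z => R (agg D M N z)) (mR.comp (measurable_agg D M N))
      (fun z => abs_resamp_le _ _ _ _ _ _) hε)
    have e : ∫ z, R (agg D M N z) ∂(nlaw h' N' D') = ∫ z, R z ∂(nlaw h N D) := by
      rw [← hagg.map_eq, integral_map hagg.measurable.aemeasurable mR.aestronglyMeasurable]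
    rw [e] at c
    simp only [A]
    linarith [c.2]
  have t2 : Epl G θ D' h' N' (fun S ξ => R (Bz S ξ))
      ≤ eta G D h N o B a Kc / ε + ε + (chi D h N / ε + ε) := by
    have c := abs_le.1 (planted_close (G := G) hθ hh hs (ψ := R) mR
      (fun z => abs_resamp_le _ _ _ _ _ _) hε)
    have e := Epl_agg hG hθ hD ⟨o, ho⟩ hD' hsub hagg
      (f := fun S z => R (inn G θ D h S z)) (fun S => mR.comp (measurable_inn hθ S))
    simp only [Bz]
    rw [e]
    linarith [c.2]
  have t3 : Epl G θ D' h' N' (fun S ξ => Dl S ξ) ≤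
      (1 + h * Kc) ^ N * B.card * (τ / ε₂ + ε₂ + D.card * (h + Real.sqrt h)) := by
    simp only [Dl]
    rw [Epl_sum _ fun j _ S => integrable_finsetSum _ fun u _ =>
      integrable_finsetSum _ fun i hi => (ig1 j u i (Finset.mem_range.1 hi).le S).const_mul _]
    calc ∑ j : Fin N, Epl G θ D' h' N'
          (fun S ξ => ∑ u ∈ B, ∑ i ∈ Finset.range M, (κ * h') * g1 j u i S ξ)
        ≤ ∑ _j : Fin N, ∑ _u ∈ B, ∑ _i ∈ Finset.range M,
            (κ * h') * (τ / ε₂ + ε₂ + D.card * (h + Real.sqrt h)) := by
          refine Finset.sum_le_sum fun j _ => ?_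
          rw [Epl_sum _ fun u _ S => integrable_finsetSum _ fun i hi =>
            (ig1 j u i (Finset.mem_range.1 hi).le S).const_mul _]
          refine Finset.sum_le_sum fun u hu => ?_
          rw [Epl_sum _ fun i hi S => (ig1 j u i (Finset.mem_range.1 hi).le S).const_mul _]
          refine Finset.sum_le_sum fun i hi => ?_
          have hiM := (Finset.mem_range.1 hi).le
          rw [Epl_const_mul]
          refine mul_le_mul_of_nonneg_left ?_ (by positivity)
          simp only [g1]
          rw [Epl_add (ig1a j u i) fun S => integrable_finsetSum _ (ig1b j i hiM)]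
          refine add_le_add ((mf_gain hG hθ hD (hB hu) hD' hsub hh' (hjM j i hiM) hε₂).trans ?_) ?_
          · have := div_le_div_of_nonneg_right (hτ u hu) hε₂.le
            linarith
          · rw [Epl_sum _ fun w hw S => ig1b j i hiM w hw]
            refine (Finset.sum_le_sum (g := fun _ => (h:ℝ) + Real.sqrt h) fun w hw => ?_).trans_eq
              (by simp [mul_add])
            unfold Epl
            have hint : ∫ ξ, ((h:ℝ) + |∑ l ∈ Finset.Ico (j * M:ℕ) (j * M + i), extN ξ l w|)
                ∂(nlaw h' N' D') ≤ h + Real.sqrt h := by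
              have hl : ∀ l ∈ Finset.Ico ((j:ℕ) * M) (j * M + i), l < N' := fun l hl =>
                lt_of_lt_of_le (Finset.mem_Ico.1 hl).2 (hjM j i hiM)
              rw [integral_add (integrable_const _) (noise_moment h' (hsub hw) _ hl).1.abs]
              refine add_le_add (le_of_eq (by simp)) ?_
              refine noise_abs h' (hsub hw) _ hl (Real.sqrt_pos.2 hpos) ?_
              rw [Real.sq_sqrt h.coe_nonneg, Nat.card_Ico, Nat.add_sub_cancel_left, hhM]
              exact mul_le_mul_of_nonneg_right (by exact_mod_cast hiM) h'.coe_nonneg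
            calc ∑ S ∈ D'.powerset, post G θ D' 0 S *
                  ∫ ξ, ((h:ℝ) + |∑ l ∈ Finset.Ico (j * M:ℕ) (j * M + i), extN ξ l w|)
                    ∂(nlaw h' N' D')
                ≤ ∑ S ∈ D'.powerset, post G θ D' 0 S * ((h:ℝ) + Real.sqrt h) :=
                  Finset.sum_le_sum fun S _ =>
                    mul_le_mul_of_nonneg_left hint (post_nonneg hθ D' 0 S)
              _ = _ := by rw [← Finset.sum_mul, sum_post hθ, one_mul]
      _ = _ := by
          simp only [Finset.sum_const, Finset.card_range, Finset.card_univ, Fintype.card_fin,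
            nsmul_eq_mul, hκ]
          have hN0 : (N:ℝ) ≠ 0 := by exact_mod_cast hN.ne'
          have hh0 : (h':ℝ) ≠ 0 := by exact_mod_cast hh'
          have hM0 : (M:ℝ) ≠ 0 := by exact_mod_cast hM.ne'
          rw [hhM]
          field_simp
  have tW : ∀ (n : ℕ) (hh0 : ℝ), n ≤ N' → 0 < hh0 → (n:ℝ) * h' = hh0 →
      Epl G θ D' h' N' (fun _ ξ => |∑ i ∈ Finset.range n, extN ξ i o| / hh0)
        ≤ 1 / Real.sqrt hh0 := by
    intro n T hn hT hnT
    unfold Epl
    rw [← Finset.sum_mul, sum_post hθ, one_mul, integral_div]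
    have hsq := Real.sqrt_pos.2 hT
    have := noise_abs h' (hsub ho) (Finset.range n)
      (fun i hi => lt_of_lt_of_le (Finset.mem_range.1 hi) hn) hsq
      (by rw [Real.sq_sqrt hT.le, Finset.card_range, hnT])
    calc (∫ ξ, |∑ i ∈ Finset.range n, extN ξ i o| ∂(nlaw h' N' D')) / T
        ≤ Real.sqrt T / T := div_le_div_of_nonneg_right this hT.le
      _ = 1 / Real.sqrt T := by rw [Real.sqrt_div_self]; ring
  have t4 : Epl G θ D' h' N' (fun _ ξ => W ξ) ≤ 1 / Real.sqrt (N * h) := by
    simp only [W, eW]
    exact tW (N * M) (N * h) hN' (by positivity) (by rw [hhM]; push_cast; ring)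
  have t5 : Epl G θ D' h' N' (fun _ ξ => W' ξ) ≤ 1 / Real.sqrt (N' * h') := by
    refine tW N' (N' * h') le_rfl ?_ rfl
    have : (0:ℝ) < h' := by positivity
    have : (0:ℝ) < N' := by exact_mod_cast hN'pos
    positivity
  linarith [c0.1]

end

end Vale.Agent.P161
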