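import Vale.Agent.P161.Ising

/-!
Exact identities for the tilted Ising model on a closed subset of a tree: covariances
factor through separating vertices, and the third cumulant through the median.
-/

namespace Vale.Agent.P161

open Finset Function
open scoped Classical

noncomputable section

variable {V : Type*}

/-- The joint third cumulant of three spins. -/
def cum3 (G : SimpleGraph V) (θ : ℝ) (D : Finset V) (g : V → ℝ) (x y u : V) : ℝ :=
  avg G θ D g (fun s => s x * s y * s u)
    - mean G θ D g x * avg G θ D g (fun s => s y * s u)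
    - mean G θ D g y * avg G θ D g (fun s => s x * s u)
    - mean G θ D g u * avg G θ D g (fun s => s x * s y)
    + 2 * mean G θ D g x * mean G θ D g y * mean G θ D g u

variable {G : SimpleGraph V} {θ : ℝ}

lemma avg_congr_fun (D : Finset V) (g : V → ℝ) {f f' : (V → ℝ) → ℝ}
    (hf : ∀ S, f (spin S) = f' (spin S)) : avg G θ D g f = avg G θ D g f' := by
  unfold avg
  rw [Sm_congr (fun _ _ => rfl) fun S _ => hf S]

lemma avg_const (hθ : Par θ) (D : Finset V) {g : V → ℝ} (hg : Fld g) (c : ℝ) :
    avg G θ D g (fun _ => c) = c := by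
  rw [show (fun _ : V → ℝ => c) = (fun s => c * (fun _ : V → ℝ => (1:ℝ)) s) from
    funext fun s => (mul_one c).symm, avg_smul, avg_one hθ D hg, mul_one]

lemma cv_comm (D : Finset V) (g : V → ℝ) (v w : V) : cv G θ D g v w = cv G θ D g w v := by
  unfold cv
  rw [avg_congr_fun D g (f' := fun s => s w * s v) fun S => mul_comm _ _]
  ring

lemma cum3_comm₁₂ (D : Finset V) (g : V → ℝ) (x y u : V) :
    cum3 G θ D g x y u = cum3 G θ D g y x u := by
  unfold cum3
  rw [avg_congr_fun D g (f' := fun s => s y * s x * s u) fun S => by ring,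
    avg_congr_fun D g (f := fun s : V → ℝ => s x * s y) (f' := fun s => s y * s x) fun S => mul_comm _ _]
  ring

lemma cum3_comm₂₃ (D : Finset V) (g : V → ℝ) (x y u : V) :
    cum3 G θ D g x y u = cum3 G θ D g x u y := by
  unfold cum3
  rw [avg_congr_fun D g (f' := fun s => s x * s u * s y) fun S => by ring,
    avg_congr_fun D g (f := fun s : V → ℝ => s y * s u) (f' := fun s => s u * s y) fun S => mul_comm _ _]
  ring

lemma cum3_self (hθ : Par θ) (D : Finset V) {g : V → ℝ} (hg : Fld g) (c : V) :
    cum3 G θ D g c c c = -2 * mean G θ D g c * (1 - mean G θ D g c ^ 2) := by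
  have h2 : avg G θ D g (fun s => s c * s c) = 1 := by
    rw [avg_congr_fun D g (f' := fun _ => (1:ℝ)) fun S => spin_sq S c, avg_one hθ D hg]
  have h3 : avg G θ D g (fun s => s c * s c * s c) = mean G θ D g c := by
    unfold mean
    exact avg_congr_fun D g fun S => by rw [spin_sq, one_mul]
  unfold cum3
  rw [h2, h3]
  ring

/-- Peeling a leaf: functions of the rest see a tilted system, and the leaf spin enters
linearly through its neighbour. -/
lemma exists_peel (hθ : Par θ) {D : Finset V} {x p : V} (hx : x ∈ D) (hp : p ∈ D.erase x)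
    (hxp : G.Adj x p) (hu : ∀ z ∈ D, G.Adj x z → z = p) {g : V → ℝ} (hg : Fld g) :
    ∃ (g' : V → ℝ) (α β : ℝ), Fld g' ∧
      (∀ f, DepOn f (D.erase x) → avg G θ D g f = avg G θ (D.erase x) g' f) ∧
      (∀ f, DepOn f (D.erase x) → avg G θ D g (fun s => f s * s x)
        = α * avg G θ (D.erase x) g' f + β * avg G θ (D.erase x) g' (fun s => f s * s p)) := by
  set a := g x with ha
  have ht : |θ * a| < 1 := hθ.mul_abs_lt (hg x).le
  have hd : 1 - (θ * a) ^ 2 ≠ 0 := by
    have := abs_lt.1 ht
    nlinarith [this.1, this.2]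
  set g' := update g p ((g p + θ * a) / (1 + θ * a * g p)) with hg'
  have hgf : Fld g' := hg.update p (absorb_abs_lt ht (hg p))
  set α := a * (1 - θ ^ 2) / (1 - (θ * a) ^ 2) with hα
  set β := θ * (1 - a ^ 2) / (1 - (θ * a) ^ 2) with hβ
  have hk : 1 + θ * a * g p ≠ 0 := (one_add_mul_pos ht (hg p).le).ne'
  have hden : Sm G θ D g (fun _ => 1)
      = 2 * (1 + θ * a * g p) * Sm G θ (D.erase x) g' (fun _ => 1) := by
    rw [Sm_peel_dep hx hp hxp hu g (fun _ _ _ => rfl), Sm_absorb hp hg ht]
    ring
  refine ⟨g', α, β, hgf, fun f hf => ?_, fun f hf => ?_⟩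
  · unfold avg
    rw [hden, Sm_peel_dep hx hp hxp hu g hf, Sm_absorb hp hg ht, ← mul_assoc,
      mul_div_mul_left _ _ (mul_ne_zero two_ne_zero hk)]
  · unfold avg
    rw [hden, Sm_peel_mul hx hp hxp hu g hf]
    have e : Sm G θ (D.erase x) g (fun s => (g x + θ * s p) * f s)
        = Sm G θ (D.erase x) g
            (fun s => (1 + θ * a * s p) * (α * f s + β * (f s * s p))) := by
      refine Sm_congr (fun _ _ => rfl) fun S _ => ?_
      have h1 := spin_sq S p
      have key : (1 + θ * a * spin S p) * (α + β * spin S p) = a + θ * spin S p := by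
        rw [hα, hβ, div_mul_eq_mul_div, ← add_div, ← mul_div_assoc, div_eq_iff hd]
        linear_combination (θ ^ 2 * a * (1 - a ^ 2)) * h1
      rw [← ha, ← key]
      ring
    rw [e, Sm_absorb hp hg ht, Sm_add, Sm_smul, Sm_smul, ← mul_assoc,
      mul_div_mul_left _ _ (mul_ne_zero two_ne_zero hk), add_div, mul_div_assoc, mul_div_assoc]

lemma depOn_eval {A : Finset V} {v : V} (h : v ∈ A) : DepOn (fun s : V → ℝ => s v) A :=
  fun _ _ hst => hst v h

lemma depOn_mul {A : Finset V} {f f' : (V → ℝ) → ℝ} (h : DepOn f A) (h' : DepOn f' A) :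
    DepOn (fun s => f s * f' s) A :=
  fun s t hst => by simp only [h s t hst, h' s t hst]

/-- The leaf spin in a covariance. -/
lemma cv_peel {D : Finset V} {x p : V} {g g' : V → ℝ} {α β : ℝ} (hθ : Par θ) (hgf : Fld g')
    (h1 : ∀ f, DepOn f (D.erase x) → avg G θ D g f = avg G θ (D.erase x) g' f)
    (h2 : ∀ f, DepOn f (D.erase x) → avg G θ D g (fun s => f s * s x)
        = α * avg G θ (D.erase x) g' f + β * avg G θ (D.erase x) g' (fun s => f s * s p))
    {y : V} (hy : y ∈ D.erase x) :
    cv G θ D g x y = β * cv G θ (D.erase x) g' p y := by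
  have hx : mean G θ D g x = α + β * mean G θ (D.erase x) g' p := by
    unfold mean
    rw [avg_congr_fun D g (f' := fun s => (fun _ => (1:ℝ)) s * s x) fun S => (one_mul _).symm,
      h2 _ (fun _ _ _ => rfl), avg_one hθ _ hgf, mul_one]
    simp only [one_mul]
  unfold cv
  rw [avg_congr_fun D g (f := fun s => s x * s y) (f' := fun s => s y * s x) fun S => mul_comm _ _,
    h2 _ (depOn_eval hy), hx,
    show mean G θ D g y = mean G θ (D.erase x) g' y from h1 _ (depOn_eval hy),
    avg_congr_fun (D.erase x) g' (f := fun s => s y * s p) (f' := fun s => s p * s y)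
      fun S => mul_comm _ _]
  unfold mean
  ring

/-- The leaf spin in a third cumulant. -/
lemma cum3_peel {D : Finset V} {x p : V} {g g' : V → ℝ} {α β : ℝ} (hθ : Par θ) (hgf : Fld g')
    (h1 : ∀ f, DepOn f (D.erase x) → avg G θ D g f = avg G θ (D.erase x) g' f)
    (h2 : ∀ f, DepOn f (D.erase x) → avg G θ D g (fun s => f s * s x)
        = α * avg G θ (D.erase x) g' f + β * avg G θ (D.erase x) g' (fun s => f s * s p))
    {y u : V} (hy : y ∈ D.erase x) (hu : u ∈ D.erase x) :
    cum3 G θ D g x y u = β * cum3 G θ (D.erase x) g' p y u := by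
  have hx : mean G θ D g x = α + β * mean G θ (D.erase x) g' p := by
    unfold mean
    rw [avg_congr_fun D g (f' := fun s => (fun _ => (1:ℝ)) s * s x) fun S => (one_mul _).symm,
      h2 _ (fun _ _ _ => rfl), avg_one hθ _ hgf, mul_one]
    simp only [one_mul]
  have c : ∀ {z : V}, z ∈ D.erase x → avg G θ D g (fun s => s x * s z)
      = α * mean G θ (D.erase x) g' z + β * avg G θ (D.erase x) g' (fun s => s p * s z) := by
    intro z hz
    rw [avg_congr_fun D g (f' := fun s => s z * s x) fun S => mul_comm _ _, h2 _ (depOn_eval hz),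
      avg_congr_fun (D.erase x) g' (f := fun s => s z * s p) (f' := fun s => s p * s z)
        fun S => mul_comm _ _]
    rfl
  have c3 : avg G θ D g (fun s => s x * s y * s u)
      = α * avg G θ (D.erase x) g' (fun s => s y * s u)
        + β * avg G θ (D.erase x) g' (fun s => s p * s y * s u) := by
    rw [avg_congr_fun D g (f' := fun s => s y * s u * s x) fun S => by ring,
      h2 _ (depOn_mul (depOn_eval hy) (depOn_eval hu)),
      avg_congr_fun (D.erase x) g' (f := fun s => s y * s u * s p)
        (f' := fun s => s p * s y * s u) fun S => by ring]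
  unfold cum3
  rw [c3, hx, c hy, c hu, h1 _ (depOn_mul (depOn_eval hy) (depOn_eval hu)),
    show mean G θ D g y = mean G θ (D.erase x) g' y from h1 _ (depOn_eval hy),
    show mean G θ D g u = mean G θ (D.erase x) g' u from h1 _ (depOn_eval hu)]
  ring

/-- A vertex between `x ≠ c` and `y` is still between the neighbour of `x` and `y`. -/
lemma between_step (hG : G.IsTree) {D : Finset V} (hD : Closed G D) {x p c y : V} (hx : x ∈ D)
    (hu : ∀ z ∈ D, G.Adj x z → z = p) (hxp : G.Adj x p) (hc : c ∈ D) (hxc : x ≠ c)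
    (h : G.dist x c + G.dist c y = G.dist x y) : G.dist p c + G.dist c y = G.dist p y := by
  obtain ⟨q, hq, hxq, hdq⟩ := hD c hc x hx hxc
  obtain rfl := hu q hq hxq
  have h1 : G.dist x y ≤ G.dist x q + G.dist q y := hG.connected.dist_triangle
  have h2 : G.dist x q = 1 := SimpleGraph.dist_eq_one_iff_adj.2 hxp
  have h3 : G.dist q y ≤ G.dist q c + G.dist c y := hG.connected.dist_triangle
  have h4 := SimpleGraph.dist_comm (G := G) (u := c) (v := x)
  have h5 := SimpleGraph.dist_comm (G := G) (u := c) (v := q)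
  omega

/-- A leaf other than `c` is not equal to two of the vertices `c` separates. -/
lemma ne_of_between (hG : G.IsTree) {x y c : V} (hxc : x ≠ c)
    (h : G.dist x c + G.dist c y = G.dist x y) : x ≠ y := by
  rintro rfl
  rw [SimpleGraph.dist_self] at h
  exact hxc (hG.connected.dist_eq_zero_iff.1 (by omega))

/-- Covariances factor through a separating vertex. -/
theorem cv_separation (hG : G.IsTree) (hθ : Par θ) :
    ∀ (D : Finset V), Closed G D → ∀ {g : V → ℝ}, Fld g → ∀ {x y c : V}, x ∈ D → y ∈ D → c ∈ D →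
      G.dist x c + G.dist c y = G.dist x y →
      cv G θ D g x y * (1 - mean G θ D g c ^ 2) = cv G θ D g x c * cv G θ D g c y := by
  intro D
  induction D using Finset.strongInduction with
  | H D ih =>
    intro hD g hg x y c hx hy hc hbet
    by_cases hDc : ({c} : Finset V) = D
    · subst hDc
      rw [Finset.mem_singleton] at hx hy
      subst hx; subst hy
      rw [cv_self hθ _ hg]
    obtain ⟨z, hz, hzc, p, hp, hzp, hu, hD'⟩ := exists_leaf hG hD (closed_singleton c)
      ⟨c, by simp⟩ (by simpa using hc) hDc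
    rw [Finset.mem_singleton] at hzc
    obtain ⟨g', α, β, hgf, h1, h2⟩ := exists_peel hθ hz hp hzp hu hg
    have hc' : c ∈ D.erase z := Finset.mem_erase.2 ⟨Ne.symm hzc, hc⟩
    have hmc : mean G θ D g c = mean G θ (D.erase z) g' c := h1 _ (depOn_eval hc')
    have hcv : ∀ {a b : V}, a ∈ D.erase z → b ∈ D.erase z →
        cv G θ D g a b = cv G θ (D.erase z) g' a b := by
      intro a b ha hb
      unfold cv mean
      rw [h1 _ (depOn_mul (depOn_eval ha) (depOn_eval hb)), h1 _ (depOn_eval ha),
        h1 _ (depOn_eval hb)]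
    by_cases hxz : x = z
    · subst hxz
      have hy' : y ∈ D.erase x := Finset.mem_erase.2 ⟨(ne_of_between hG hzc hbet).symm, hy⟩
      rw [cv_peel hθ hgf h1 h2 hy', cv_peel hθ hgf h1 h2 hc', hcv hc' hy', hmc, mul_assoc,
        ih _ (Finset.erase_ssubset hz) hD' hgf hp hy' hc' (between_step hG hD hx hu hzp hc hzc hbet), mul_assoc]
    have hx' : x ∈ D.erase z := Finset.mem_erase.2 ⟨hxz, hx⟩
    by_cases hyz : y = z
    · subst hyz
      have hbet' : G.dist y c + G.dist c x = G.dist y x := by
        rw [SimpleGraph.dist_comm (u := y) (v := c), SimpleGraph.dist_comm (u := y) (v := x),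
          SimpleGraph.dist_comm (u := c) (v := x)]
        omega
      rw [cv_comm D g x y, cv_peel hθ hgf h1 h2 hx', cv_comm D g c y,
        cv_peel hθ hgf h1 h2 hc', hcv hx' hc', hmc, mul_assoc,
        ih _ (Finset.erase_ssubset hz) hD' hgf hp hx' hc' (between_step hG hD hy hu hzp hc hzc hbet'),
        cv_comm (D.erase y) g' c x]
      ring
    have hy' : y ∈ D.erase z := Finset.mem_erase.2 ⟨hyz, hy⟩
    rw [hcv hx' hy', hcv hx' hc', hcv hc' hy', hmc]
    exact ih _ (Finset.erase_ssubset hz) hD' hgf hx' hy' hc' hbet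

/-- The third cumulant through the median. -/
theorem cum3_median (hG : G.IsTree) (hθ : Par θ) :
    ∀ (D : Finset V), Closed G D → ∀ {g : V → ℝ}, Fld g → ∀ {x y u c : V},
      x ∈ D → y ∈ D → u ∈ D → c ∈ D →
      G.dist x c + G.dist c y = G.dist x y → G.dist x c + G.dist c u = G.dist x u →
      G.dist y c + G.dist c u = G.dist y u →
      cum3 G θ D g x y u * (1 - mean G θ D g c ^ 2) ^ 2
        = -2 * mean G θ D g c * (cv G θ D g x c * cv G θ D g y c * cv G θ D g u c) := by
  intro D
  induction D using Finset.strongInduction with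
  | H D ih =>
    intro hD g hg x y u c hx hy hu' hc hxy hxu hyu
    by_cases hDc : ({c} : Finset V) = D
    · subst hDc
      rw [Finset.mem_singleton] at hx hy hu'
      subst hx; subst hy; subst hu'
      rw [cum3_self hθ _ hg, cv_self hθ _ hg]
      ring
    obtain ⟨z, hz, hzc, p, hp, hzp, hu, hD'⟩ := exists_leaf hG hD (closed_singleton c)
      ⟨c, by simp⟩ (by simpa using hc) hDc
    rw [Finset.mem_singleton] at hzc
    obtain ⟨g', α, β, hgf, h1, h2⟩ := exists_peel hθ hz hp hzp hu hg
    have hc' : c ∈ D.erase z := Finset.mem_erase.2 ⟨Ne.symm hzc, hc⟩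
    have hmc : mean G θ D g c = mean G θ (D.erase z) g' c := h1 _ (depOn_eval hc')
    have hcv : ∀ {a b : V}, a ∈ D.erase z → b ∈ D.erase z →
        cv G θ D g a b = cv G θ (D.erase z) g' a b := by
      intro a b ha hb
      unfold cv mean
      rw [h1 _ (depOn_mul (depOn_eval ha) (depOn_eval hb)), h1 _ (depOn_eval ha),
        h1 _ (depOn_eval hb)]
    have sym : ∀ {a b : V}, G.dist a c + G.dist c b = G.dist a b →
        G.dist b c + G.dist c a = G.dist b a := by
      intro a b h
      rw [SimpleGraph.dist_comm (u := b) (v := c), SimpleGraph.dist_comm (u := b) (v := a),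
        SimpleGraph.dist_comm (u := c) (v := a)]
      omega
    -- the case in which the leaf is the first of three marked vertices
    have leaf : ∀ {b d : V}, z ∈ D → b ∈ D → d ∈ D → G.dist z c + G.dist c b = G.dist z b →
        G.dist z c + G.dist c d = G.dist z d → G.dist b c + G.dist c d = G.dist b d →
        cum3 G θ D g z b d * (1 - mean G θ D g c ^ 2) ^ 2
          = -2 * mean G θ D g c * (cv G θ D g z c * cv G θ D g b c * cv G θ D g d c) := by
      intro b d hz' hb hd' hzb hzd hbd
      have hb' : b ∈ D.erase z := Finset.mem_erase.2 ⟨(ne_of_between hG hzc hzb).symm, hb⟩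
      have hd'' : d ∈ D.erase z := Finset.mem_erase.2 ⟨(ne_of_between hG hzc hzd).symm, hd'⟩
      rw [cum3_peel hθ hgf h1 h2 hb' hd'', cv_peel hθ hgf h1 h2 hc', hcv hb' hc', hcv hd'' hc',
        hmc, mul_assoc,
        ih _ (Finset.erase_ssubset hz) hD' hgf hp hb' hd'' hc' (between_step hG hD hz hu hzp hc hzc hzb)
          (between_step hG hD hz hu hzp hc hzc hzd) hbd]
      ring
    by_cases hxz : x = z
    · subst hxz
      exact leaf hx hy hu' hxy hxu hyu
    by_cases hyz : y = z
    · subst hyz
      rw [cum3_comm₁₂, leaf hy hx hu' (sym hxy) hyu hxu]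
      ring
    by_cases huz : u = z
    · subst huz
      rw [cum3_comm₂₃, cum3_comm₁₂, leaf hu' hx hy (sym hxu) (sym hyu) hxy]
      ring
    have hx' : x ∈ D.erase z := Finset.mem_erase.2 ⟨hxz, hx⟩
    have hy' : y ∈ D.erase z := Finset.mem_erase.2 ⟨hyz, hy⟩
    have hu'' : u ∈ D.erase z := Finset.mem_erase.2 ⟨huz, hu'⟩
    have hk : cum3 G θ D g x y u = cum3 G θ (D.erase z) g' x y u := by
      unfold cum3 mean
      rw [h1 _ (depOn_mul (depOn_mul (depOn_eval hx') (depOn_eval hy')) (depOn_eval hu'')),
        h1 _ (depOn_mul (depOn_eval hy') (depOn_eval hu'')),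
        h1 _ (depOn_mul (depOn_eval hx') (depOn_eval hu'')),
        h1 _ (depOn_mul (depOn_eval hx') (depOn_eval hy')),
        h1 _ (depOn_eval hx'), h1 _ (depOn_eval hy'), h1 _ (depOn_eval hu'')]
    rw [hk, hcv hx' hc', hcv hy' hc', hcv hu'' hc', hmc]
    exact ih _ (Finset.erase_ssubset hz) hD' hgf hx' hy' hu'' hc' hxy hxu hyu

/-- Three points of a closed set have a median in it. -/
lemma exists_median (hG : G.IsTree) {D : Finset V} (hD : Closed G D) :
    ∀ (n : ℕ) {x y u : V}, x ∈ D → y ∈ D → G.dist x y = n →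
      ∃ c ∈ D, G.dist x c + G.dist c y = G.dist x y ∧ G.dist x c + G.dist c u = G.dist x u ∧
        G.dist y c + G.dist c u = G.dist y u := by
  intro n
  induction n with
  | zero =>
    intro x y u hx _ hn
    obtain rfl := hG.connected.dist_eq_zero_iff.1 hn
    exact ⟨x, hx, by simp, by simp, by simp⟩
  | succ n ih =>
    intro x y u hx hy hn
    have hxy : x ≠ y := by rintro rfl; simp at hn
    obtain ⟨p, hp, hxp, hdp⟩ := hD y hy x hx hxy
    have hpy : G.dist p y = n := by
      rw [SimpleGraph.dist_comm (u := p) (v := y)]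
      rw [SimpleGraph.dist_comm (u := x) (v := y)] at hn
      omega
    have hxp1 : G.dist x p = 1 := SimpleGraph.dist_eq_one_iff_adj.2 hxp
    rcases hG.dist_eq_dist_add_one_of_adj u hxp with h | h
    · obtain ⟨c, hc, e1, e2, e3⟩ := ih (u := u) hp hy hpy
      refine ⟨c, hc, ?_, ?_, e3⟩
      · have t1 : G.dist x c ≤ G.dist x p + G.dist p c := hG.connected.dist_triangle
        have t2 : G.dist x y ≤ G.dist x c + G.dist c y := hG.connected.dist_triangle
        omega
      · have t1 : G.dist x c ≤ G.dist x p + G.dist p c := hG.connected.dist_triangle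
        have t2 : G.dist x u ≤ G.dist x c + G.dist c u := hG.connected.dist_triangle
        rw [SimpleGraph.dist_comm (u := u) (v := x), SimpleGraph.dist_comm (u := u) (v := p)] at h
        omega
    · have hs := dist_add_of_split hG (n + 1) (u := u) hn hxp hdp h
      refine ⟨x, hx, by simp, by simp, ?_⟩
      rw [SimpleGraph.dist_comm (u := y) (v := x), SimpleGraph.dist_comm (u := y) (v := u),
        SimpleGraph.dist_comm (u := x) (v := u), hs]
      omega

end

end Vale.Agent.P161
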