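import Mathlib.Combinatorics.SimpleGraph.Connectivity.Connected
import Mathlib.Data.Finset.Sym
import Mathlib.MeasureTheory.Constructions.UnitInterval
import Mathlib.Probability.ProductMeasure
import Mathlib.Analysis.SpecialFunctions.Trigonometric.Basic

/-!
The free Ising state on a tree, and factors of IID.
-/

namespace Vale.Agent.P161

open MeasureTheory
open scoped Classical

noncomputable section

variable {V : Type*}

/-- A spin as a number: `true` is `+1`, `false` is `-1`. -/
def spinVal (b : Bool) : ℝ := if b then 1 else -1

/-- The factor `(1 + θ η_u η_v) / 2` of the edge `{u, v}`. -/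
def edgeTerm (θ : ℝ) (η : V → Bool) : Sym2 V → ℝ :=
  Sym2.lift ⟨fun u v => (1 + θ * spinVal (η u) * spinVal (η v)) / 2, fun u v => by ring⟩

/-- `(1/2) ∏ (1 + θ η_u η_v)/2`, the product over the edges of `G` with both ends in `D`. -/
def isingWeight (G : SimpleGraph V) (θ : ℝ) (D : Finset V) (η : V → Bool) : ℝ :=
  1 / 2 * ∏ e ∈ D.sym2.filter (fun e => e ∈ G.edgeSet), edgeTerm θ η e

/-- `μ` is the free Ising measure with edge correlation `θ`: a probability measure with the
prescribed law on every finite connected set of vertices. -/
def IsFreeIsing (G : SimpleGraph V) (θ : ℝ) (μ : Measure (V → Bool)) : Prop :=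
  IsProbabilityMeasure μ ∧
    ∀ D : Finset V, (G.induce (D : Set V)).Connected → ∀ η : V → Bool,
      μ {σ | ∀ v ∈ D, σ v = η v} = ENNReal.ofReal (isingWeight G θ D η)

/-- `μ` is the law of `Φ(U)`, for i.i.d. uniform labels `U` and a measurable map `Φ` that
commutes almost surely with each graph automorphism. -/
def IsFactorOfIID (G : SimpleGraph V) (μ : Measure (V → Bool)) : Prop :=
  ∃ Φ : (V → unitInterval) → (V → Bool), Measurable Φ ∧
    (∀ g : G ≃g G,
      ∀ᵐ U ∂(Measure.infinitePi fun _ : V => (volume : Measure unitInterval)),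
        Φ (fun v => U (g.symm v)) = fun v => Φ U (g.symm v)) ∧
    (Measure.infinitePi fun _ : V => (volume : Measure unitInterval)).map Φ = μ

end

end Vale.Agent.P161
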