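import Vale.Agent.P161.Innovation
import Mathlib.Probability.Kernel.Representation
import Mathlib.Probability.Independence.InfinitePi
import Mathlib.Probability.Distributions.Gaussian.Basic

/-!
Consistent dyadic Gaussian increments built from one uniform variable per vertex.

Level `0` is an i.i.d. standard normal sequence; each increment is split into two halves by an
independent normal, so that level `k` is i.i.d. with variance `2 ^ (-k)`.
-/

namespace Vale.Agent.P161

open MeasureTheory ProbabilityTheory Function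
open scoped NNReal ENNReal

noncomputable section

/-- The mesh at level `k`. -/
def hlev (k : ℕ) : ℝ≥0 := (2 ^ k)⁻¹

theorem hlev_zero : hlev 0 = 1 := by simp [hlev]

theorem hlev_succ (k : ℕ) : hlev (k + 1) = hlev k / 2 := by
  simp [hlev, pow_succ, mul_comm, div_eq_mul_inv]

/-- Midpoint split of an increment `p.1` using the auxiliary normal `p.2`. -/
def splitCLM (c : ℝ) : ℝ × ℝ →L[ℝ] ℝ × ℝ :=
  ((1 / 2 : ℝ) • ContinuousLinearMap.fst ℝ ℝ ℝ + c • ContinuousLinearMap.snd ℝ ℝ ℝ).prod
    ((1 / 2 : ℝ) • ContinuousLinearMap.fst ℝ ℝ ℝ - c • ContinuousLinearMap.snd ℝ ℝ ℝ)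

theorem splitCLM_apply (c : ℝ) (p : ℝ × ℝ) :
    splitCLM c p = (p.1 / 2 + c * p.2, p.1 / 2 - c * p.2) := by
  ext <;> simp [splitCLM] <;> ring

theorem charFunDual_gl (h : ℝ≥0) (L : StrongDual ℝ ℝ) :
    charFunDual (gl h) L = Complex.exp (-((L 1 ^ 2 * h : ℝ) : ℂ) / 2) := by
  rw [gl, IsGaussian.charFunDual_eq, variance_continuousLinearMap_gaussianReal,
    integral_complex_ofReal, integral_continuousLinearMap_gaussianReal]
  simp [max_eq_left (sq_nonneg (L 1))]
  ring_nf

theorem split_preserving (h : ℝ≥0) :
    MeasurePreserving (splitCLM (Real.sqrt h / 2)) ((gl h).prod (gl 1))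
      ((gl (h / 2)).prod (gl (h / 2))) := by
  refine ⟨(splitCLM _).continuous.measurable, ?_⟩
  refine Measure.ext_of_charFunDual (funext fun L => ?_)
  rw [charFunDual_map, charFunDual_prod, charFunDual_prod, charFunDual_gl, charFunDual_gl,
    charFunDual_gl, charFunDual_gl, ← Complex.exp_add, ← Complex.exp_add]
  congr 1
  have hdec : ∀ a b : ℝ, L (a, b) = a * L (1, 0) + b * L (0, 1) := by
    intro a b
    have : ((a, b) : ℝ × ℝ) = a • ((1 : ℝ), (0 : ℝ)) + b • ((0 : ℝ), (1 : ℝ)) := by simp
    rw [this, map_add, map_smul, map_smul, smul_eq_mul, smul_eq_mul]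
  simp only [ContinuousLinearMap.comp_apply, ContinuousLinearMap.inl_apply,
    ContinuousLinearMap.inr_apply, splitCLM_apply]
  rw [hdec (1 / 2 + _) (1 / 2 - _), hdec (0 / 2 + _) (0 / 2 - _)]
  have hs : Real.sqrt h ^ 2 = h := Real.sq_sqrt h.2
  rw [← sub_eq_zero]
  norm_cast
  push_cast
  linear_combination (-(L (1, 0) - L (0, 1)) ^ 2 / 8) * hs

theorem pairing_preserving {ι : Type*} (μ ν : Measure ℝ) [IsProbabilityMeasure μ]
    [IsProbabilityMeasure ν] :
    MeasurePreserving (fun (p : (ι → ℝ) × (ι → ℝ)) (i : ι) => (p.1 i, p.2 i))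
      ((Measure.infinitePi fun _ : ι => μ).prod (Measure.infinitePi fun _ : ι => ν))
      (Measure.infinitePi fun _ : ι => μ.prod ν) := by
  classical
  have hw : ∀ b, IsProbabilityMeasure (![μ, ν] b) := Fin.forall_fin_two.2 ⟨‹_›, ‹_›⟩
  have h1 : MeasurePreserving (fun (p : (ι → ℝ) × (ι → ℝ)) (q : ι × Fin 2) =>
        ![p.1 q.1, p.2 q.1] q.2)
      ((Measure.infinitePi fun _ : ι => μ).prod (Measure.infinitePi fun _ : ι => ν))
      (Measure.infinitePi fun q : ι × Fin 2 => ![μ, ν] q.2) := by
    have hm : Measurable (fun (p : (ι → ℝ) × (ι → ℝ)) (q : ι × Fin 2) =>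
        ![p.1 q.1, p.2 q.1] q.2) := by
      refine measurable_pi_lambda _ fun q => ?_
      obtain ⟨i, b⟩ := q
      fin_cases b
      · exact (measurable_pi_apply i).comp measurable_fst
      · exact (measurable_pi_apply i).comp measurable_snd
    refine ⟨hm, Measure.eq_infinitePi _ fun s t ht => ?_⟩
    rw [Measure.map_apply hm (.pi s.countable_toSet fun q _ => ht q)]
    set A : Fin 2 → Finset ι := fun b => (s.filter fun q => q.2 = b).image Prod.fst with hA
    have hset : (fun (p : (ι → ℝ) × (ι → ℝ)) (q : ι × Fin 2) => ![p.1 q.1, p.2 q.1] q.2) ⁻¹'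
        (s : Set (ι × Fin 2)).pi t =
        Set.pi (A 0 : Set ι) (fun i => t (i, 0)) ×ˢ Set.pi (A 1 : Set ι) (fun i => t (i, 1)) := by
      ext p
      simp [hA, Prod.forall, Fin.forall_fin_two, forall_and]
    rw [hset, Measure.prod_prod, Measure.infinitePi_pi _ (fun i _ => ht _),
      Measure.infinitePi_pi _ (fun i _ => ht _),
      ← Finset.prod_fiberwise_of_maps_to (t := Finset.univ) (g := Prod.snd)
        (fun q _ => Finset.mem_univ _), Fin.prod_univ_two]
    congr 1 <;>
    · rw [hA, Finset.prod_image fun a ha b hb hab => Prod.ext hab ?_]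
      · refine Finset.prod_congr rfl fun q hq => ?_
        obtain ⟨i, b⟩ := q
        obtain rfl := (Finset.mem_filter.1 hq).2
        rfl
      · rw [Finset.mem_coe, Finset.mem_filter] at ha hb
        rw [ha.2, hb.2]
  have h2 : MeasurePreserving (MeasurableEquiv.curry ι (Fin 2) ℝ)
      (Measure.infinitePi fun q : ι × Fin 2 => ![μ, ν] q.2)
      (Measure.infinitePi fun _ : ι => Measure.pi ![μ, ν]) :=
    ⟨MeasurableEquiv.measurable _, by
      rw [Measure.infinitePi_map_curry (fun _ b => ![μ, ν] b)]
      simp only [Measure.infinitePi_eq_pi]⟩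
  have h3 : MeasurePreserving (fun (x : ι → Fin 2 → ℝ) (i : ι) => MeasurableEquiv.finTwoArrow (x i))
      (Measure.infinitePi fun _ : ι => Measure.pi ![μ, ν])
      (Measure.infinitePi fun _ : ι => μ.prod ν) :=
    ⟨by fun_prop, by
      rw [Measure.infinitePi_map_pi _ fun _ => MeasurableEquiv.measurable _]
      simp only [(measurePreserving_finTwoArrow_vec μ ν).map_eq]⟩
  exact h3.comp (h2.comp h1)

/-- The split of a sequence: entry `2i` and `2i+1` are the two halves of entry `i`. -/
def splitSeq (c : ℝ) (a z : ℕ → ℝ) (j : ℕ) : ℝ :=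
  if j % 2 = 0 then a (j / 2) / 2 + c * z (j / 2) else a (j / 2) / 2 - c * z (j / 2)

/-- The equivalence `(i, b) ↦ 2 i + b`. -/
def dblEquiv : ℕ × Fin 2 ≃ ℕ where
  toFun q := 2 * q.1 + q.2.val
  invFun j := (j / 2, ⟨j % 2, Nat.mod_lt _ two_pos⟩)
  left_inv q := by
    obtain ⟨i, b⟩ := q
    fin_cases b <;> simp [Nat.mul_add_div]
  right_inv j := Nat.div_add_mod j 2

theorem splitSeq_preserving (h : ℝ≥0) :
    MeasurePreserving (fun p : (ℕ → ℝ) × (ℕ → ℝ) => splitSeq (Real.sqrt h / 2) p.1 p.2)
      ((Measure.infinitePi fun _ : ℕ => gl h).prod (Measure.infinitePi fun _ : ℕ => gl 1))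
      (Measure.infinitePi fun _ : ℕ => gl (h / 2)) := by
  set T := splitCLM (Real.sqrt h / 2)
  set γ := gl (h / 2)
  have hT : MeasurePreserving (fun x => MeasurableEquiv.finTwoArrow.symm (T x))
      ((gl h).prod (gl 1)) (Measure.pi fun _ : Fin 2 => γ) :=
    ((measurePreserving_finTwoArrow γ).symm _).comp (split_preserving h)
  have h2 : MeasurePreserving (fun (x : ℕ → ℝ × ℝ) (i : ℕ) =>
        MeasurableEquiv.finTwoArrow.symm (T (x i)))
      (Measure.infinitePi fun _ : ℕ => (gl h).prod (gl 1))
      (Measure.infinitePi fun _ : ℕ => Measure.pi fun _ : Fin 2 => γ) :=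
    ⟨by fun_prop, by
      rw [Measure.infinitePi_map_pi _ fun _ => hT.measurable]
      simp only [hT.map_eq]⟩
  have h3 : MeasurePreserving (MeasurableEquiv.curry ℕ (Fin 2) ℝ).symm
      (Measure.infinitePi fun _ : ℕ => Measure.pi fun _ : Fin 2 => γ)
      (Measure.infinitePi fun _ : ℕ × Fin 2 => γ) :=
    ⟨MeasurableEquiv.measurable _, by
      rw [← Measure.infinitePi_map_curry_symm (fun (_ : ℕ) (_ : Fin 2) => γ)]
      simp only [Measure.infinitePi_eq_pi]⟩
  have h4 : MeasurePreserving (fun (x : ℕ × Fin 2 → ℝ) (j : ℕ) => x (dblEquiv.symm j))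
      (Measure.infinitePi fun _ : ℕ × Fin 2 => γ) (Measure.infinitePi fun _ : ℕ => γ) :=
    ⟨by fun_prop, Measure.map_infinitePi_infinitePi_of_inj dblEquiv.symm.injective⟩
  convert! h4.comp (h3.comp (h2.comp (pairing_preserving (gl h) (gl 1)))) using 1
  funext p j
  rcases Nat.mod_two_eq_zero_or_one j with hj | hj <;>
    simp [splitSeq, hj, dblEquiv, T, splitCLM_apply, MeasurableEquiv.finTwoArrow,
      MeasurableEquiv.piFinTwo, Function.uncurry]

/-- The increments at level `k` as a function of the normal rows `w`. -/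
def levels : ℕ → (ℕ → ℕ → ℝ) → ℕ → ℝ
  | 0, w => w 0
  | k + 1, w => splitSeq (Real.sqrt (hlev k) / 2) (levels k w) (w (k + 1))

theorem measurable_levels : ∀ k, Measurable (levels k)
  | 0 => measurable_pi_apply 0
  | k + 1 => by
    have h := (splitSeq_preserving (hlev k)).measurable
    exact h.comp ((measurable_levels k).prodMk (measurable_pi_apply (k + 1)))

theorem levels_congr : ∀ (k : ℕ) (w w' : ℕ → ℕ → ℝ), (∀ i ≤ k, w i = w' i) →
    levels k w = levels k w'
  | 0, w, w', h => h 0 le_rfl
  | k + 1, w, w', h => by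
    simp only [levels]
    rw [levels_congr k w w' fun i hi => h i (hi.trans (Nat.le_succ k)), h (k + 1) le_rfl]

/-- The law of the normal rows. -/
def rowsLaw : Measure (ℕ → ℕ → ℝ) :=
  Measure.infinitePi fun _ : ℕ => Measure.infinitePi fun _ : ℕ => gl 1

instance : IsProbabilityMeasure rowsLaw := by unfold rowsLaw; infer_instance

theorem levels_preserving : ∀ k,
    MeasurePreserving (levels k) rowsLaw (Measure.infinitePi fun _ : ℕ => gl (hlev k))
  | 0 => by
    rw [hlev_zero]
    exact measurePreserving_eval_infinitePi _ 0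
  | k + 1 => by
    have ih := levels_preserving k
    have hi : iIndepFun (fun (i : ℕ) (w : ℕ → ℕ → ℝ) => w i) rowsLaw :=
      iIndepFun_infinitePi (X := fun _ x => x) fun _ => measurable_id
    have hd : Disjoint (Finset.range (k + 1)) {k + 1} := by simp
    set g : ((i : Finset.range (k + 1)) → ℕ → ℝ) → ℕ → ℝ := fun r =>
      levels k fun i => if h : i ∈ Finset.range (k + 1) then r ⟨i, h⟩ else 0 with hg
    have hgm : Measurable g := by
      refine (measurable_levels k).comp (measurable_pi_lambda _ fun i => ?_)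
      by_cases h : i ∈ Finset.range (k + 1)
      · simp only [dif_pos h]
        exact measurable_pi_apply _
      · simp only [dif_neg h]
        exact measurable_const
    have hp := (hi.indepFun_finset _ _ hd fun i => measurable_pi_apply i).comp hgm
      (measurable_pi_apply (⟨k + 1, Finset.mem_singleton_self _⟩ : ({k + 1} : Finset ℕ)))
    have hgw : ∀ w : ℕ → ℕ → ℝ, g (fun i : Finset.range (k + 1) => w i) = levels k w := by
      intro w
      refine levels_congr k _ _ fun i hi => ?_
      simp [Finset.mem_range, Nat.lt_succ_iff.2 hi]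
    have hind : IndepFun (levels k) (fun w : ℕ → ℕ → ℝ => w (k + 1)) rowsLaw := by
      convert! hp using 1
      funext w
      exact (hgw w).symm
    have hrow : MeasurePreserving (fun w : ℕ → ℕ → ℝ => w (k + 1)) rowsLaw
        (Measure.infinitePi fun _ : ℕ => gl 1) := measurePreserving_eval_infinitePi _ (k + 1)
    have hpair : MeasurePreserving (fun w => (levels k w, w (k + 1))) rowsLaw
        ((Measure.infinitePi fun _ : ℕ => gl (hlev k)).prod
          (Measure.infinitePi fun _ : ℕ => gl 1)) := by
      refine ⟨(measurable_levels k).prodMk (measurable_pi_apply _), ?_⟩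
      rw [hind.map_prod_eq_prod_map_map (measurable_levels k).aemeasurable
        (measurable_pi_apply _).aemeasurable, ih.map_eq, hrow.map_eq]
    rw [hlev_succ]
    exact (splitSeq_preserving (hlev k)).comp hpair

theorem exists_rows : ∃ Ψ : unitInterval → (ℕ → ℕ → ℝ), Measurable Ψ ∧
    (volume : Measure unitInterval).map Ψ = rowsLaw :=
  Measure.exists_measurable_map_eq rowsLaw

/-- The normal rows read off from a uniform variable. -/
def rows : unitInterval → (ℕ → ℕ → ℝ) := exists_rows.choose

/-- The increments at level `k` read off from a uniform variable. -/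
def noise (k : ℕ) (u : unitInterval) : ℕ → ℝ := levels k (rows u)

theorem measurable_noise (k : ℕ) : Measurable (noise k) :=
  (measurable_levels k).comp exists_rows.choose_spec.1

theorem measurable_noise_apply (k j : ℕ) : Measurable fun u => noise k u j :=
  (measurable_pi_apply j).comp (measurable_noise k)

theorem noise_law (k : ℕ) :
    MeasurePreserving (noise k) volume (Measure.infinitePi fun _ : ℕ => gl (hlev k)) :=
  (levels_preserving k).comp ⟨exists_rows.choose_spec.1, exists_rows.choose_spec.2⟩

theorem noise_step (k : ℕ) (u : unitInterval) (j : ℕ) :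
    noise (k + 1) u (2 * j) + noise (k + 1) u (2 * j + 1) = noise k u j := by
  have h1 : (2 * j) % 2 = 0 := by omega
  have h2 : (2 * j + 1) % 2 = 1 := by omega
  have h3 : (2 * j) / 2 = j := by omega
  have h4 : (2 * j + 1) / 2 = j := by omega
  simp only [noise, levels, splitSeq, h1, h2, h3, h4, if_true]
  simp

theorem noise_refine {k k' : ℕ} (hk : k ≤ k') (u : unitInterval) (j : ℕ) :
    noise k u j = ∑ i ∈ Finset.range (2 ^ (k' - k)), noise k' u (j * 2 ^ (k' - k) + i) := by
  obtain ⟨d, rfl⟩ := Nat.exists_eq_add_of_le hk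
  rw [Nat.add_sub_cancel_left]
  clear hk
  induction d generalizing k j with
  | zero => simp
  | succ d ih =>
    have e : k + (d + 1) = (k + 1) + d := by omega
    rw [← noise_step k u j, ih (k := k + 1) (2 * j), ih (k := k + 1) (2 * j + 1), e]
    rw [pow_succ, mul_two (2 ^ d), Finset.sum_range_add]
    refine congrArg₂ (· + ·) (Finset.sum_congr rfl fun i _ => ?_) (Finset.sum_congr rfl fun i _ => ?_)
    · congr 1; ring
    · congr 1; ring

theorem noise_preserving {V : Type*} (k N : ℕ) (D : Finset V) :
    MeasurePreserving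
      (fun (U : V → unitInterval) (j : Fin N) (u : D) => noise k (U u) j)
      (Measure.infinitePi fun _ : V => (volume : Measure unitInterval))
      (nlaw (hlev k) N D) := by
  set γ := gl (hlev k)
  have h1 : MeasurePreserving (fun (U : V → unitInterval) (u : D) => U u)
      (Measure.infinitePi fun _ : V => (volume : Measure unitInterval))
      (Measure.infinitePi fun _ : D => (volume : Measure unitInterval)) :=
    ⟨by fun_prop, Measure.map_infinitePi_infinitePi_of_inj Subtype.val_injective⟩
  have hrow : MeasurePreserving (fun (x : ℕ → ℝ) (j : Fin N) => x j)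
      (Measure.infinitePi fun _ : ℕ => γ) (Measure.infinitePi fun _ : Fin N => γ) :=
    ⟨by fun_prop, Measure.map_infinitePi_infinitePi_of_inj Fin.val_injective⟩
  have hone := hrow.comp (noise_law k)
  have h2 : MeasurePreserving (fun (U : D → unitInterval) (u : D) (j : Fin N) => noise k (U u) j)
      (Measure.infinitePi fun _ : D => (volume : Measure unitInterval))
      (Measure.infinitePi fun _ : D => Measure.infinitePi fun _ : Fin N => γ) := by
    have hm : Measurable fun (U : D → unitInterval) (u : D) (j : Fin N) => noise k (U u) j :=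
      measurable_pi_lambda _ fun u => hone.measurable.comp (measurable_pi_apply u)
    refine ⟨hm, ?_⟩
    have := Measure.infinitePi_map_pi (fun _ : D => (volume : Measure unitInterval))
      (f := fun _ => (fun (x : ℕ → ℝ) (j : Fin N) => x j) ∘ noise k) fun _ => hone.measurable
    simp only [hone.map_eq] at this
    exact this
  have h3 : MeasurePreserving (MeasurableEquiv.curry D (Fin N) ℝ).symm
      (Measure.infinitePi fun _ : D => Measure.infinitePi fun _ : Fin N => γ)
      (Measure.infinitePi fun _ : D × Fin N => γ) :=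
    ⟨MeasurableEquiv.measurable _, Measure.infinitePi_map_curry_symm fun _ _ => γ⟩
  have h4 : MeasurePreserving (fun (x : D × Fin N → ℝ) (q : Fin N × D) => x q.swap)
      (Measure.infinitePi fun _ : D × Fin N => γ) (Measure.infinitePi fun _ : Fin N × D => γ) :=
    ⟨by fun_prop, Measure.map_infinitePi_infinitePi_of_inj Prod.swap_injective⟩
  have h5 : MeasurePreserving (MeasurableEquiv.curry (Fin N) D ℝ)
      (Measure.infinitePi fun _ : Fin N × D => γ) (nlaw (hlev k) N D) :=
    ⟨MeasurableEquiv.measurable _, by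
      rw [Measure.infinitePi_map_curry fun _ _ => γ]
      simp only [Measure.infinitePi_eq_pi, nlaw, γ]⟩
  exact h5.comp (h4.comp (h3.comp (h2.comp h1)))

end

end Vale.Agent.P161
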