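import Vale.Agent.P161.Planted

/-!
Restricting the planted model to sub-systems, the moments of the noise, and the bound
on how much distant observations can improve the posterior mean.
-/

namespace Vale.Agent.P161

open MeasureTheory ProbabilityTheory Finset Function
open scoped NNReal ENNReal Classical

noncomputable section

variable {V : Type*} {G : SimpleGraph V} {θ : ℝ}

lemma pi_comp_inj {ι ι' X : Type*} [Fintype ι] [Fintype ι'] [MeasurableSpace X] (ν : Measure X)
    [IsProbabilityMeasure ν] {e : ι' → ι} (he : Injective e) :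
    MeasurePreserving (fun z : ι → X => fun i' => z (e i'))
      (Measure.pi fun _ : ι => ν) (Measure.pi fun _ : ι' => ν) := by
  refine ⟨by fun_prop, (Measure.pi_eq fun s hs => ?_).symm⟩
  rw [Measure.map_apply (by fun_prop) (MeasurableSet.univ_pi hs)]
  have : (fun z : ι → X => fun i' => z (e i')) ⁻¹' Set.univ.pi s
      = Set.univ.pi fun i => if h : ∃ i', e i' = i then s h.choose else Set.univ := by
    ext z
    simp only [Set.mem_preimage, Set.mem_univ_pi]
    constructor
    · intro hz i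
      split_ifs with h
      · have h2 := hz h.choose
        have h3 : e h.choose = i := h.choose_spec
        rw [h3] at h2
        exact h2
      · trivial
    · intro hz i'
      have h2 := hz (e i')
      have hex : ∃ j, e j = e i' := ⟨i', rfl⟩
      rw [dif_pos hex, he hex.choose_spec] at h2
      exact h2
  rw [this, Measure.pi_pi,
    ← Finset.prod_subset (s₁ := Finset.univ.image e) (Finset.subset_univ _) (fun i _ hi => by
      rw [dif_neg (fun ⟨i', hi'⟩ => hi (Finset.mem_image.2 ⟨i', Finset.mem_univ _, hi'⟩)),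
        measure_univ]),
    Finset.prod_image fun a _ b _ hab => he hab]
  refine Finset.prod_congr rfl fun i' _ => ?_
  have hex : ∃ j, e j = e i' := ⟨i', rfl⟩
  rw [dif_pos hex, he hex.choose_spec]

/-- Restriction of the noise to fewer sites and steps. -/
def restr {N N₀ : ℕ} {A D : Finset V} (hsub : A ⊆ D) (hN : N₀ ≤ N) (ξ : Fin N → D → ℝ) :
    Fin N₀ → A → ℝ :=
  fun i u => ξ (Fin.castLE hN i) ⟨u.1, hsub u.2⟩

lemma restr_preserving {N N₀ : ℕ} {A D : Finset V} (hsub : A ⊆ D) (hN : N₀ ≤ N) (h : ℝ≥0) :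
    MeasurePreserving (restr (V := V) hsub hN) (nlaw h N D) (nlaw h N₀ A) := by
  have h1 : MeasurePreserving (fun z : D → ℝ => fun u : A => z ⟨u.1, hsub u.2⟩)
      (Measure.pi fun _ : D => gl h) (Measure.pi fun _ : A => gl h) :=
    pi_comp_inj (gl h) fun a b hab => Subtype.ext (congrArg Subtype.val hab :)
  have h2 : MeasurePreserving (fun (ξ : Fin N → D → ℝ) (i : Fin N) (u : A) => ξ i ⟨u.1, hsub u.2⟩)
      (nlaw h N D) (nlaw h N A) :=
    measurePreserving_pi (fun _ => Measure.pi fun _ : D => gl h)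
      (fun _ => Measure.pi fun _ : A => gl h) fun _ => h1
  have h3 : MeasurePreserving (fun (ξ : Fin N → A → ℝ) (i : Fin N₀) => ξ (Fin.castLE hN i))
      (nlaw h N A) (nlaw h N₀ A) :=
    pi_comp_inj _ (Fin.castLE_injective hN)
  exact h3.comp h2

lemma extN_restr {N N₀ : ℕ} {A D : Finset V} (hsub : A ⊆ D) (hN : N₀ ≤ N) (ξ : Fin N → D → ℝ)
    {i : ℕ} (hi : i < N₀) {u : V} (hu : u ∈ A) :
    extN (restr hsub hN ξ) i u = extN ξ i u := by
  rw [extN_apply _ hi hu, extN_apply _ (lt_of_lt_of_le hi hN) (hsub hu)]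
  rfl

lemma spin_inter {A S : Finset V} {u : V} (hu : u ∈ A) : spin (S ∩ A) u = spin S u := by
  simp [spin, hu]

lemma planted_restr {N N₀ : ℕ} {A D : Finset V} (hsub : A ⊆ D) (hN : N₀ ≤ N) (h : ℝ)
    (S : Finset V) (ξ : Fin N → D → ℝ) {i : ℕ} (hi : i ≤ N₀) {u : V} (hu : u ∈ A) :
    planted h 0 (S ∩ A) (extN (restr hsub hN ξ)) i u = planted h 0 S (extN ξ) i u := by
  unfold planted
  rw [spin_inter hu, Finset.sum_congr rfl fun j hj =>
    extN_restr hsub hN ξ (lt_of_lt_of_le (Finset.mem_range.1 hj) hi) hu]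

lemma sum_post_marginal (hG : G.IsTree) (hθ : Par θ) {A D : Finset V} (hA : Closed G A)
    (hAne : A.Nonempty) (hD : Closed G D) (hsub : A ⊆ D) (F : Finset V → ℝ) :
    ∑ S ∈ D.powerset, post G θ D 0 S * F (S ∩ A) = ∑ S ∈ A.powerset, post G θ A 0 S * F S := by
  set f : (V → ℝ) → ℝ := fun s => F (A.filter fun v => 0 < s v) with hf
  have hdep : DepOn f A := fun s t h => by
    simp only [hf]
    congr 1
    exact Finset.filter_congr fun v hv => by rw [h v hv]
  have hspin : ∀ S : Finset V, f (spin S) = F (S ∩ A) := fun S => by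
    simp only [hf]
    congr 1
    rw [Finset.inter_comm, ← Finset.filter_mem_eq_inter]
    refine Finset.filter_congr fun v _ => ?_
    unfold spin
    split_ifs with hS <;> simp [hS]
  have h1 := avg_eq_sum_post (G := G) hθ D (0 : V → ℝ) f
  have h2 := avg_eq_sum_post (G := G) hθ A (0 : V → ℝ) f
  rw [avg_consistent hG hA hAne hD hsub (fun v _ _ => by simp) hdep, h2] at h1
  simp only [hspin] at h1
  rw [← h1]
  refine Finset.sum_congr rfl fun S hS => ?_
  rw [Finset.inter_eq_left.2 (Finset.mem_powerset.1 hS)]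

lemma Epl_marginal (hG : G.IsTree) (hθ : Par θ) {A D : Finset V} (hA : Closed G A)
    (hAne : A.Nonempty) (hD : Closed G D) (hsub : A ⊆ D) {N N₀ : ℕ} (hN : N₀ ≤ N) (h : ℝ≥0)
    {f : Finset V → (Fin N₀ → A → ℝ) → ℝ} (hf : ∀ S, Measurable (f S)) :
    Epl G θ D h N (fun S ξ => f (S ∩ A) (restr hsub hN ξ)) = Epl G θ A h N₀ f := by
  have key : ∀ S, ∫ ξ, f S (restr hsub hN ξ) ∂(nlaw h N D) = ∫ z, f S z ∂(nlaw h N₀ A) := fun S => by
    rw [← (restr_preserving hsub hN h).map_eq,
      integral_map (restr_preserving hsub hN h).measurable.aemeasurable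
        (hf S).aestronglyMeasurable]
  unfold Epl
  simp only [key]
  exact sum_post_marginal hG hθ hA hAne hD hsub fun S => ∫ z, f S z ∂(nlaw h N₀ A)

/-- The squared posterior mean, averaged. -/
def msq (G : SimpleGraph V) (θ : ℝ) (h : ℝ≥0) (N : ℕ) (A : Finset V) (v : V) : ℝ :=
  Epl G θ A h N fun S ξ => mf G θ A (planted h 0 S (extN ξ) N) v ^ 2

lemma integrable_mf_planted (hθ : Par θ) {A : Finset V} {h : ℝ≥0} {N : ℕ} {D : Finset V}
    (S : Finset V) (i : ℕ) (v : V) :
    Integrable (fun ξ : Fin N → D → ℝ => mf G θ A (planted h 0 S (extN ξ) i) v) (nlaw h N D) :=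
  integrable_of_bdd (B := 1) (measurable_mf_comp hθ A (fun w => measurable_planted _ S i w) v)
    fun ξ => abs_mf_le hθ A _ v

lemma msq_diff (hG : G.IsTree) (hθ : Par θ) {A D : Finset V} (hA : Closed G A) {v : V}
    (hv : v ∈ A) (hD : Closed G D) (hsub : A ⊆ D) {h : ℝ≥0} (hh : h ≠ 0) (N : ℕ) :
    Epl G θ D h N (fun S ξ => (mf G θ D (planted h 0 S (extN ξ) N) v
        - mf G θ A (planted h 0 S (extN ξ) N) v) ^ 2)
      = msq G θ h N D v - msq G θ h N A v := by
  have hAne : A.Nonempty := ⟨v, hv⟩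
  have marg : ∀ (Φ : ℝ → ℝ → ℝ), (Measurable fun p : ℝ × ℝ => Φ p.1 p.2) →
      Epl G θ D h N (fun S ξ => Φ (spin S v) (mf G θ A (planted h 0 S (extN ξ) N) v))
        = Epl G θ A h N (fun S ξ => Φ (spin S v) (mf G θ A (planted h 0 S (extN ξ) N) v)) := by
    intro Φ hΦ
    rw [← Epl_marginal hG hθ hA hAne hD hsub le_rfl h
      (f := fun S ξ => Φ (spin S v) (mf G θ A (planted h 0 S (extN ξ) N) v))
      (fun S => hΦ.comp (measurable_const.prodMk
        (measurable_mf_comp hθ A (fun w => measurable_planted _ S N w) v)))]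
    refine Epl_congr fun S _ ξ => ?_
    rw [spin_inter hv, mf_congr fun u hu => planted_restr hsub le_rfl h S ξ le_rfl hu]
  have mA : ∀ {D' : Finset V} (Y : (Fin N → D' → ℝ) → V → ℝ),
      (∀ u, Measurable fun a => Y a u) → Measurable fun a => mf G θ A (Y a) v :=
    fun Y hY => measurable_mf_comp hθ A hY v
  have t1 := planted_tower (G := G) (N := N) (D := D) hθ hh (hsub hv)
    (φ := fun y => mf G θ A y v) (fun y y' e => mf_congr (fun u hu => e u (hsub hu)) v)
    (fun y => abs_mf_le hθ A y v) mA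
  have t2 := planted_tower (G := G) (N := N) (D := A) hθ hh hv
    (φ := fun y => mf G θ A y v) (fun y y' e => mf_congr e v)
    (fun y => abs_mf_le hθ A y v) mA
  have m1 := marg (fun _ m => m ^ 2) (measurable_snd.pow_const 2)
  have m2 := marg (fun s m => s * m) (measurable_fst.mul measurable_snd)
  have t2' : Epl G θ A h N (fun S ξ => spin S v * mf G θ A (planted h 0 S (extN ξ) N) v)
      = msq G θ h N A v := by rw [t2]; simp only [msq, sq]
  set mD := fun (S : Finset V) (ξ : Fin N → D → ℝ) => mf G θ D (planted h 0 S (extN ξ) N) v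
  set a := fun (S : Finset V) (ξ : Fin N → D → ℝ) => mf G θ A (planted h 0 S (extN ξ) N) v
  have ibd : ∀ (b c : Finset V → (Fin N → D → ℝ) → ℝ),
      (∀ S, Measurable (b S)) → (∀ S, Measurable (c S)) → (∀ S ξ, |b S ξ| ≤ 1) →
      (∀ S ξ, |c S ξ| ≤ 1) → ∀ S, Integrable (fun ξ => b S ξ * c S ξ) (nlaw h N D) :=
    fun b c hb hc hb' hc' S => integrable_of_bdd (B := 1) ((hb S).mul (hc S)) fun ξ => by
      rw [abs_mul]
      exact (mul_le_mul (hb' _ _) (hc' _ _) (abs_nonneg _) zero_le_one).trans_eq (one_mul 1)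
  have mmD : ∀ S, Measurable (mD S) := fun S =>
    measurable_mf_comp hθ D (fun w => measurable_planted _ S N w) v
  have mma : ∀ S, Measurable (a S) := fun S =>
    measurable_mf_comp hθ A (fun w => measurable_planted _ S N w) v
  have bD : ∀ S ξ, |mD S ξ| ≤ 1 := fun S ξ => abs_mf_le hθ D _ v
  have ba : ∀ S ξ, |a S ξ| ≤ 1 := fun S ξ => abs_mf_le hθ A _ v
  have iDD := ibd mD mD mmD mmD bD bD
  have iDa : ∀ S, Integrable (fun ξ => (-2 : ℝ) * (mD S ξ * a S ξ)) (nlaw h N D) :=
    fun S => (ibd mD a mmD mma bD ba S).const_mul (-2)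
  have iaa := ibd a a mma mma ba ba
  calc Epl G θ D h N (fun S ξ => (mD S ξ - a S ξ) ^ 2)
      = Epl G θ D h N (fun S ξ => (mD S ξ * mD S ξ + (-2) * (mD S ξ * a S ξ)) + a S ξ * a S ξ) :=
        Epl_congr fun S _ ξ => by ring
    _ = Epl G θ D h N (fun S ξ => mD S ξ * mD S ξ)
          + (-2) * Epl G θ D h N (fun S ξ => mD S ξ * a S ξ)
          + Epl G θ D h N (fun S ξ => a S ξ * a S ξ) := by
        have i12 : ∀ S, Integrable (fun ξ => mD S ξ * mD S ξ + (-2) * (mD S ξ * a S ξ))
            (nlaw h N D) := fun S => (iDD S).add (iDa S)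
        rw [Epl_add i12 iaa, Epl_add iDD iDa, Epl_const_mul]
    _ = msq G θ h N D v + (-2) * msq G θ h N A v + msq G θ h N A v := by
        have e1 : Epl G θ D h N (fun S ξ => mD S ξ * a S ξ) = msq G θ h N A v := by
          rw [← t1, m2, t2']
        have e2 : Epl G θ D h N (fun S ξ => a S ξ * a S ξ) = msq G θ h N A v := by
          unfold msq
          rw [← m1]
          exact Epl_congr fun S _ ξ => by ring
        rw [e1, e2]
        congr 2
        unfold msq
        exact Epl_congr fun S _ ξ => by ring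
    _ = _ := by ring

lemma msq_le (hG : G.IsTree) (hθ : Par θ) {A : Finset V} (hA : Closed G A) {v : V}
    (hv : v ∈ A) {h : ℝ≥0} (hh : h ≠ 0) (N : ℕ) :
    ∀ (D : Finset V), Closed G D → A ⊆ D →
      msq G θ h N D v - msq G θ h N A v ≤ 4 * ∑ w ∈ D \ A, (θ ^ 2) ^ G.dist v w := by
  intro D
  induction D using Finset.strongInduction with
  | H D ih =>
    intro hD hsub
    by_cases hAD : A = D
    · subst hAD; simp
    · obtain ⟨x, hx, hxA, p, hp, hxp, hu, hD'⟩ := exists_leaf hG hD hA ⟨v, hv⟩ hsub hAD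
      have hsub' : A ⊆ D.erase x := fun y hy =>
        Finset.mem_erase.2 ⟨fun e => hxA (e ▸ hy), hsub hy⟩
      have hvD : v ∈ D.erase x := hsub' hv
      have hstep : msq G θ h N D v - msq G θ h N (D.erase x) v ≤ 4 * (θ ^ 2) ^ G.dist v x := by
        rw [← msq_diff hG hθ hD' hvD hD (Finset.erase_subset _ _) hh N]
        calc Epl G θ D h N _ ≤ Epl G θ D h N (fun _ _ => 4 * (θ ^ 2) ^ G.dist v x) := by
              refine Epl_mono hθ (fun S => ?_) (fun _ => integrable_const _) fun S _ ξ => ?_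
              · refine integrable_of_bdd (B := 4) ?_ fun ξ => ?_
                · exact ((measurable_mf_comp hθ D (fun w => measurable_planted _ S N w) v).sub
                    (measurable_mf_comp hθ _ (fun w => measurable_planted _ S N w) v)).pow_const 2
                · rw [abs_pow]
                  have := abs_sub (mf G θ D (planted h 0 S (extN ξ) N) v)
                    (mf G θ (D.erase x) (planted h 0 S (extN ξ) N) v)
                  have h1 := abs_mf_le (G := G) hθ D (planted h 0 S (extN ξ) N) v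
                  have h2 := abs_mf_le (G := G) hθ (D.erase x) (planted h 0 S (extN ξ) N) v
                  calc _ ≤ (2:ℝ) ^ 2 := pow_le_pow_left₀ (abs_nonneg _) (by linarith) 2
                    _ = 4 := by norm_num
              · set y := planted (h:ℝ) 0 S (extN ξ) N
                have e : mf G θ (D.erase x) y v = mf G θ D (Function.update y x 0) v := by
                  rw [← mf_restrict hG hD' hD (Finset.erase_subset _ _) y hvD]
                  refine mf_congr (fun u hu' => ?_) v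
                  by_cases hux : u = x
                  · subst hux; simp
                  · simp [hux, hu']
                rw [e]
                nth_rewrite 1 [← Function.update_eq_self x y]
                rw [← sq_abs]
                calc _ ≤ (2 * θ ^ G.dist v x) ^ 2 := pow_le_pow_left₀ (abs_nonneg _)
                      (mf_step_bound hG hθ hD y (hsub hv) hx _ _) 2
                  _ = _ := by ring
          _ = _ := Epl_const hθ _
      have := ih _ (Finset.erase_ssubset hx) hD' hsub'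
      have hsplit : D \ A = insert x (D.erase x \ A) := by
        ext w
        simp only [Finset.mem_sdiff, Finset.mem_insert, Finset.mem_erase]
        by_cases hw : w = x
        · subst hw; simp [hx, hxA]
        · simp [hw]
      rw [hsplit, Finset.sum_insert (by simp), mul_add]
      linarith

/-- At any time, observations outside a closed set move the posterior mean very little. -/
theorem mf_gain (hG : G.IsTree) (hθ : Par θ) {A D : Finset V} (hA : Closed G A) {v : V}
    (hv : v ∈ A) (hD : Closed G D) (hsub : A ⊆ D) {h : ℝ≥0} (hh : h ≠ 0) {N i : ℕ} (hi : i ≤ N)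
    {ε : ℝ} (hε : 0 < ε) :
    Epl G θ D h N (fun S ξ => |mf G θ D (planted h 0 S (extN ξ) i) v
        - mf G θ A (planted h 0 S (extN ξ) i) v|)
      ≤ (4 * ∑ w ∈ D \ A, (θ ^ 2) ^ G.dist v w) / ε + ε := by
  set f : Finset V → (Fin i → D → ℝ) → ℝ := fun S ξ =>
    |mf G θ D (planted h 0 S (extN ξ) i) v - mf G θ A (planted h 0 S (extN ξ) i) v| with hf
  have fm : ∀ S, Measurable (f S) := fun S =>
    ((measurable_mf_comp hθ D (fun w => measurable_planted _ S i w) v).sub
      (measurable_mf_comp hθ A (fun w => measurable_planted _ S i w) v)).abs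
  have hm := Epl_marginal hG hθ hD ⟨v, hsub hv⟩ hD subset_rfl hi h fm
  have e : Epl G θ D h N (fun S ξ => f (S ∩ D) (restr subset_rfl hi ξ))
      = Epl G θ D h N (fun S ξ => |mf G θ D (planted h 0 S (extN ξ) i) v
          - mf G θ A (planted h 0 S (extN ξ) i) v|) := by
    refine Epl_congr fun S _ ξ => ?_
    simp only [hf]
    rw [mf_congr (fun u hu => planted_restr subset_rfl hi h S ξ le_rfl hu),
      mf_congr (fun u hu => planted_restr subset_rfl hi h S ξ le_rfl (hsub hu))]
  rw [← e, hm]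
  have hb : ∀ S ξ, f S ξ ≤ 2 := fun S ξ => by
    refine (abs_sub _ _).trans ?_
    linarith [abs_mf_le (G := G) hθ D (planted h 0 S (extN ξ) i) v,
      abs_mf_le (G := G) hθ A (planted h 0 S (extN ξ) i) v]
  have hf0 : ∀ S ξ, 0 ≤ f S ξ := fun S ξ => abs_nonneg _
  have i1 : ∀ S, Integrable (f S) (nlaw h i D) := fun S =>
    integrable_of_bdd (fm S) fun ξ => by rw [abs_of_nonneg (hf0 S ξ)]; exact hb S ξ
  have i2 : ∀ S, Integrable (fun ξ => ε⁻¹ * f S ξ ^ 2) (nlaw h i D) := fun S =>
    (integrable_sq_of_bdd (fm S) fun ξ => by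
      rw [abs_of_nonneg (hf0 S ξ)]; exact hb S ξ).const_mul _
  calc Epl G θ D h i f ≤ Epl G θ D h i (fun S ξ => ε⁻¹ * f S ξ ^ 2 + ε) := by
        refine Epl_mono hθ i1 (fun S => (i2 S).add (integrable_const ε)) fun S _ ξ => ?_
        have : ε⁻¹ * f S ξ ^ 2 + ε = (f S ξ ^ 2 + ε ^ 2) / ε := by field_simp
        rw [this, le_div_iff₀ hε]
        nlinarith [sq_nonneg (f S ξ - ε), hf0 S ξ]
    _ = ε⁻¹ * (msq G θ h i D v - msq G θ h i A v) + ε := by
        rw [Epl_add i2 (fun _ => integrable_const ε), Epl_const hθ, Epl_const_mul,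
          ← msq_diff hG hθ hA hv hD hsub hh i]
        congr 2
        exact Epl_congr fun S _ ξ => by simp only [hf, sq_abs]
    _ ≤ _ := by
        rw [inv_mul_eq_div]
        have := msq_le hG hθ hA hv hh i D hD hsub
        have := div_le_div_of_nonneg_right this hε.le
        linarith

/-- Moments of sums of noise increments at one site. -/
lemma noise_moment {D : Finset V} (h : ℝ≥0) {N : ℕ} {o : V} (ho : o ∈ D) (s : Finset ℕ)
    (hs : ∀ i ∈ s, i < N) :
    Integrable (fun ξ : Fin N → D → ℝ => ∑ i ∈ s, extN ξ i o) (nlaw h N D) ∧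
      Integrable (fun ξ : Fin N → D → ℝ => (∑ i ∈ s, extN ξ i o) ^ 2) (nlaw h N D) ∧
      ∫ ξ, (∑ i ∈ s, extN ξ i o) ^ 2 ∂(nlaw h N D) = s.card * h := by
  set ρ := Measure.pi fun _ : D => gl h with hρ
  have hev : MeasurePreserving (fun r : D → ℝ => r ⟨o, ho⟩) ρ (gl h) :=
    measurePreserving_eval (fun _ : D => gl h) (⟨o, ho⟩ : D)
  set X : Fin N → (D → ℝ) → ℝ := fun i r => if (i:ℕ) ∈ s then r ⟨o, ho⟩ else 0 with hX
  have hmem : MemLp (fun r : D → ℝ => r ⟨o, ho⟩) 2 ρ :=
    (memLp_id_gaussianReal' 2 (by simp)).comp_measurePreserving hev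
  have hL : ∀ i, MemLp (X i) 2 ρ := fun i => by
    simp only [hX]
    split_ifs
    · exact hmem
    · exact MemLp.zero'
  have hsum : ∀ ξ : Fin N → D → ℝ, ∑ i ∈ s, extN ξ i o = ∑ i : Fin N, X i (ξ i) := fun ξ => by
    rw [Finset.sum_congr rfl (g := fun i => if i ∈ s then extN ξ i o else 0)
      (fun i hi => (if_pos hi).symm)]
    rw [Finset.sum_subset (fun i hi => Finset.mem_range.2 (hs i hi)) (fun i _ hi => if_neg hi),
      Finset.sum_range]
    refine Finset.sum_congr rfl fun i _ => ?_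
    simp only [hX]
    rw [extN_apply ξ i.2 ho]
  have hLc : ∀ i : Fin N, MemLp (fun ξ : Fin N → D → ℝ => X i (ξ i)) 2 (nlaw h N D) := fun i =>
    (hL i).comp_measurePreserving (measurePreserving_eval (fun _ => ρ) i)
  have hT : MemLp (fun ξ : Fin N → D → ℝ => ∑ i : Fin N, X i (ξ i)) 2 (nlaw h N D) :=
    memLp_finsetSum _ fun i _ => hLc i
  simp only [hsum]
  refine ⟨hT.integrable (by norm_num), hT.integrable_sq, ?_⟩
  have hmean : ∀ i : Fin N, ∫ ξ, X i (ξ i) ∂(nlaw h N D) = 0 := fun i => by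
    rw [nlaw]
    rw [show (fun ξ : Fin N → D → ℝ => X i (ξ i)) = (X i) ∘ (fun ξ => ξ i) from rfl]
    change ∫ ξ : Fin N → D → ℝ, X i (ξ i) ∂(Measure.pi fun _ : Fin N => ρ) = 0
    rw [integral_comp_eval (μ := fun _ : Fin N => ρ) (hL i).aestronglyMeasurable]
    simp only [hX]
    split_ifs
    · rw [integral_comp_eval (μ := fun _ : D => gl h) (f := fun x : ℝ => x)
        aestronglyMeasurable_id]
      exact integral_id_gaussianReal
    · simp
  have hv := variance_sum_pi (μ := fun _ : Fin N => ρ) (X := X) hL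
  rw [Finset.sum_fn] at hv
  change Var[fun ξ : Fin N → D → ℝ => ∑ i, X i (ξ i); nlaw h N D] = _ at hv
  rw [variance_eq_sub hT] at hv
  have hz : ∫ ξ, ∑ i : Fin N, X i (ξ i) ∂(nlaw h N D) = 0 := by
    rw [integral_finsetSum _ fun i _ => (hLc i).integrable (by norm_num)]
    exact Finset.sum_eq_zero fun i _ => hmean i
  change (∫ ξ, (∑ i : Fin N, X i (ξ i)) ^ 2 ∂(nlaw h N D))
    - (∫ ξ, ∑ i : Fin N, X i (ξ i) ∂(nlaw h N D)) ^ 2 = _ at hv
  rw [hz, zero_pow two_ne_zero, sub_zero] at hv
  rw [hv]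
  have hvar : ∀ i : Fin N, Var[X i; ρ] = if (i:ℕ) ∈ s then (h:ℝ) else 0 := fun i => by
    simp only [hX]
    split_ifs
    · change Var[id ∘ (fun r : D → ℝ => r ⟨o, ho⟩); ρ] = _
      rw [← variance_map measurable_id.aemeasurable hev.measurable.aemeasurable, hev.map_eq,
        variance_id_gaussianReal]
    · exact variance_zero ρ
  simp only [hvar]
  rw [← Finset.sum_range (fun i => if i ∈ s then (h:ℝ) else 0),
    ← Finset.sum_filter, Finset.sum_const, nsmul_eq_mul]
  congr
  ext i
  simp only [Finset.mem_filter, Finset.mem_range]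
  exact ⟨fun hi => hi.2, fun hi => ⟨hs i hi, hi⟩⟩

lemma noise_abs {D : Finset V} (h : ℝ≥0) {N : ℕ} {o : V} (ho : o ∈ D) (s : Finset ℕ)
    (hs : ∀ i ∈ s, i < N) {c : ℝ} (hc : 0 < c) (hcs : (s.card : ℝ) * h ≤ c ^ 2) :
    ∫ ξ, |∑ i ∈ s, extN ξ i o| ∂(nlaw h N D) ≤ c := by
  obtain ⟨i1, i2, e⟩ := noise_moment h ho s hs
  calc ∫ ξ, |∑ i ∈ s, extN ξ i o| ∂(nlaw h N D)
      ≤ ∫ ξ, ((2 * c)⁻¹ * (∑ i ∈ s, extN ξ i o) ^ 2 + c / 2) ∂(nlaw h N D) := by
        refine integral_mono i1.abs ((i2.const_mul _).add (integrable_const _)) fun ξ => ?_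
        set x := ∑ i ∈ s, extN ξ i o
        have : (2 * c)⁻¹ * x ^ 2 + c / 2 = (x ^ 2 + c ^ 2) / (2 * c) := by field_simp
        simp only
        rw [this, le_div_iff₀ (by positivity)]
        nlinarith [sq_nonneg (|x| - c), sq_abs x]
    _ = (2 * c)⁻¹ * ((s.card : ℝ) * h) + c / 2 := by
        rw [integral_add (i2.const_mul _) (integrable_const _), integral_const_mul, e]
        simp
    _ ≤ (2 * c)⁻¹ * c ^ 2 + c / 2 := by gcongr
    _ = c := by field_simp; ring

end

end Vale.Agent.P161
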