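import Vale.Agent.P161.Scale
import Vale.Agent.P161.Defs

/-!
The limit of the schemes: an equivariant measurable map of i.i.d. labels whose law is the
free Ising state.
-/

namespace Vale.Agent.P161

open MeasureTheory Finset Function Filter
open scoped NNReal ENNReal Classical Topology

noncomputable section

variable {V : Type*} {G : SimpleGraph V} {d : ℕ} {θ : ℝ}
  (hG : G.IsTree) (hd : Regular G d) (hg : Good d θ)

/-- A continuous function of finitely many coordinates is measurable after composition. -/
lemma measurable_depOn {α : Type*} [MeasurableSpace α] {A : Finset V} {g : (V → ℝ) → ℝ}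
    (hgc : Continuous g) (hgd : DepOn g A) {Y : α → V → ℝ} (hY : Measurable Y) :
    Measurable fun a => g (Y a) := by
  have e : ∀ a, g (Y a) = g (ext0 fun u : A => Y a u) := fun a =>
    hgd _ _ fun v hv => (ext0_apply (fun u : A => Y a u) hv).symm
  simp_rw [e]
  have hc : Continuous fun r : A → ℝ => g (ext0 r) := by
    refine hgc.comp (continuous_pi fun u => ?_)
    unfold ext0
    split_ifs with h
    · exact continuous_apply (⟨u, h⟩ : A)
    · exact continuous_const
  exact hc.measurable.comp (measurable_pi_lambda _ fun u => (measurable_pi_apply u.1).comp hY)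

include hg in
lemma exists_ref_level (T : ℕ) (c : ℝ) {δ : ℝ} (hδ : 0 < δ) (hδ1 : δ ≤ 1) (K : ℕ) :
    ∃ k ≥ K, ∀ D : Finset V, (D.card : ℝ) ≤ c →
      chi D (hlev k) (T * 2 ^ k) ≤ δ ∧ (hlev k : ℝ) * (4 * D.card) ≤ 1 := by
  have := hg.deg
  obtain ⟨K1, h1⟩ := exists_small (32 * c ^ 2 * T) hδ
  obtain ⟨K2, h2⟩ := exists_small (4 * c) one_pos
  refine ⟨max K (max K1 K2), le_max_left _ _, fun D hc => ⟨chi_le hc
    (h1 _ (le_trans (le_max_left _ _) (le_max_right _ _))) hδ1, ?_⟩⟩
  have h3 := h2 (max K (max K1 K2)) (le_trans (le_max_right _ _) (le_max_right _ _))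
  have h4 := mul_le_mul_of_nonneg_left hc (hlev_pos (max K (max K1 K2))).le
  linarith

lemma epsN_le_one (n : ℕ) : epsN n ≤ 1 :=
  inv_le_one_of_one_le₀ (one_le_pow₀ (by norm_num))

lemma measurable_approxSpin (n : ℕ) (v : V) :
    Measurable (approxSpin hG hd hg n v) :=
  (measurable_out hg.par _ _ _ _).comp (nz_preserving _ _ _).measurable

lemma abs_approxSpin (n : ℕ) (v : V) (U : V → unitInterval) :
    |approxSpin hG hd hg n v U| ≤ 1 :=
  abs_cl_le _

/-- Successive approximations are close in `L¹`. -/
lemma approx_step (n : ℕ) (v : V) :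
    ∫ U, |approxSpin hG hd hg n v U - approxSpin hG hd hg (n + 1) v U| ∂(ilaw V)
      ≤ 20 * epsN n + 20 * epsN (n + 1) := by
  set R := max (domN d θ n) (domN d θ (n + 1))
  set D' := ballF hG hd hg.deg v R
  set T' := max (timeN n) (timeN (n + 1))
  have hε := pow_pos (epsN_pos (n + 1)) 2
  obtain ⟨k', hk', hk⟩ := exists_ref_level (V := V) hg T' ((d:ℝ) ^ (R + 2)) hε
    (pow_le_one₀ (epsN_pos _).le (epsN_le_one _)) (max (levN d θ n) (levN d θ (n + 1)))
  obtain ⟨c1, c2⟩ := hk D' (card_ballF _ _)
  have hmono : epsN (n + 1) ^ 2 ≤ epsN n ^ 2 := by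
    refine pow_le_pow_left₀ (epsN_pos _).le ?_ 2
    exact inv_anti₀ (by positivity) (pow_le_pow_right₀ (by norm_num) (Nat.le_succ n))
  have s1 : ballF hG hd hg.deg v (domN d θ n) ⊆ D' :=
    ballF_mono (by simp [R])
  have s2 : ballF hG hd hg.deg v (domN d θ (n + 1)) ⊆ D' :=
    ballF_mono (by simp [R])
  have a1 := approx_close hG hd hg n v (closed_ballF v R) s1
    (le_trans (le_max_left _ _) hk') (le_max_left _ _) (c1.trans hmono) c2
  have a2 := approx_close hG hd hg (n + 1) v (closed_ballF v R) s2
    (le_trans (le_max_right _ _) hk') (le_max_right _ _) c1 c2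
  set ref := fun U => out G θ D' (hlev k') (T' * 2 ^ k') v (nz k' (T' * 2 ^ k') D' U) with href
  have mref : Measurable ref :=
    (measurable_out hg.par _ _ _ _).comp (nz_preserving _ _ _).measurable
  have i1 : ∀ m, Integrable (fun U => |approxSpin hG hd hg m v U - ref U|) (ilaw V) := fun m =>
    integrable_of_bdd (B := 2) ((measurable_approxSpin hG hd hg m v).sub mref).abs fun U => by
      rw [abs_abs]; exact abs_out_sub_le _ _ _ _ _ _ _ _
  have i3 : Integrable (fun U => |approxSpin hG hd hg n v U - approxSpin hG hd hg (n + 1) v U|)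
      (ilaw V) :=
    integrable_of_bdd (B := 2) ((measurable_approxSpin hG hd hg n v).sub
      (measurable_approxSpin hG hd hg (n + 1) v)).abs fun U => by
        rw [abs_abs]; exact abs_out_sub_le _ _ _ _ _ _ _ _
  calc _ ≤ ∫ U, (|approxSpin hG hd hg n v U - ref U|
        + |approxSpin hG hd hg (n + 1) v U - ref U|) ∂(ilaw V) := by
        refine integral_mono i3 ((i1 n).add (i1 (n + 1))) fun U => ?_
        have := abs_sub_le (approxSpin hG hd hg n v U) (ref U) (approxSpin hG hd hg (n + 1) v U)
        rw [abs_sub_comm (ref U)] at this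
        exact this
    _ = _ := integral_add (i1 n) (i1 (n + 1))
    _ ≤ _ := add_le_add a1 a2

/-- Laws of finitely many approximate spins converge to the free Ising law. -/
lemma approx_law {D₀ : Finset V} (hD₀ : Closed G D₀) {o : V} (ho : o ∈ D₀)
    (g : (V → ℝ) → ℝ) (hgm : Continuous g) (hgd : DepOn g D₀)
    (hg01 : ∀ x : V → ℝ, (∀ v, |x v| ≤ 1) → |g x| ≤ 2)
    (hgL : ∀ x y : V → ℝ, (∀ v, |x v| ≤ 1) → (∀ v, |y v| ≤ 1) →
      |g x - g y| ≤ 2 * ∑ v ∈ D₀, |x v - y v|)
    (n : ℕ) :
    |∫ U, g (fun v => approxSpin hG hd hg n v U) ∂(ilaw V)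
        - ∑ S ∈ D₀.powerset, post G θ D₀ 0 S * g (spin S)|
      ≤ (42 * (D₀.card : ℝ) + 2) * epsN n := by
  set L := D₀.sup (fun v => G.dist o v)
  set R := domN d θ n + L
  set D' := ballF hG hd hg.deg o R
  set T := timeN n
  have hε := pow_pos (epsN_pos n) 2
  obtain ⟨k', hk', hk⟩ := exists_ref_level (V := V) hg T ((d:ℝ) ^ (R + 2)) hε
    (pow_le_one₀ (epsN_pos _).le (epsN_le_one _)) (levN d θ n)
  obtain ⟨c1, c2⟩ := hk D' (card_ballF _ _)
  set N := T * 2 ^ k' with hN
  have hD' : Closed G D' := closed_ballF o R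
  have hsub0 : D₀ ⊆ D' := fun v hv => mem_ballF.2 (le_trans
    (Finset.le_sup (f := fun v => G.dist o v) hv) (Nat.le_add_left _ _))
  have hball : ∀ v ∈ D₀, ballF hG hd hg.deg v (domN d θ n) ⊆ D' := fun v hv => ballF_mono (by
    have := Finset.le_sup (f := fun v => G.dist o v) hv
    omega)
  set O := fun (z : Fin N → D' → ℝ) (v : V) => out G θ D' (hlev k') N v z
  have mO : Measurable O := measurable_pi_lambda _ fun v => measurable_out hg.par _ _ _ v
  have bO : ∀ z v, |O z v| ≤ 1 := fun z v => abs_cl_le _
  set Y := fun (U : V → unitInterval) (v : V) => approxSpin hG hd hg n v U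
  have mY : Measurable Y := measurable_pi_lambda _ fun v => measurable_approxSpin hG hd hg n v
  have mgY : Measurable fun U => g (Y U) := measurable_depOn hgm hgd mY
  have mgO : Measurable fun z => g (O z) := measurable_depOn hgm hgd mO
  -- step one: compare with the reference scheme
  have e1 : |∫ U, g (Y U) ∂(ilaw V) - ∫ z, g (O z) ∂(nlaw (hlev k') N D')|
      ≤ 40 * (D₀.card : ℝ) * epsN n := by
    rw [← (nz_preserving k' N D').map_eq,
      integral_map (nz_preserving k' N D').measurable.aemeasurable mgO.aestronglyMeasurable]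
    have ia : Integrable (fun U => g (Y U)) (ilaw V) := integrable_of_bdd mgY fun U =>
      hg01 _ fun v => abs_approxSpin hG hd hg n v U
    have ib : Integrable (fun U => g (O (nz k' N D' U))) (ilaw V) :=
      integrable_of_bdd (mgO.comp (nz_preserving k' N D').measurable) fun U => hg01 _ (bO _)
    have ic : ∀ v : V, Integrable (fun U => |Y U v - O (nz k' N D' U) v|) (ilaw V) :=
      fun v => integrable_of_bdd (B := 2)
        (((measurable_pi_apply v).comp mY).sub
          ((measurable_pi_apply v).comp (mO.comp (nz_preserving k' N D').measurable))).abs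
        fun U => by rw [abs_abs]; exact abs_out_sub_le _ _ _ _ _ _ _ _
    rw [← integral_sub ia ib]
    refine abs_integral_le_integral_abs.trans ?_
    calc ∫ U, |g (Y U) - g (O (nz k' N D' U))| ∂(ilaw V)
        ≤ ∫ U, 2 * ∑ v ∈ D₀, |Y U v - O (nz k' N D' U) v| ∂(ilaw V) :=
          integral_mono (ia.sub ib).abs ((integrable_finsetSum _ fun v _ => ic v).const_mul _)
            fun U => hgL _ _ (fun v => abs_approxSpin hG hd hg n v U) (bO _)
      _ = 2 * ∑ v ∈ D₀, ∫ U, |Y U v - O (nz k' N D' U) v| ∂(ilaw V) := by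
          rw [integral_const_mul, integral_finsetSum _ fun v _ => ic v]
      _ ≤ 2 * ∑ _v ∈ D₀, 20 * epsN n := by
          refine mul_le_mul_of_nonneg_left (Finset.sum_le_sum fun v hv => ?_) zero_le_two
          exact approx_close hG hd hg n v hD' (hball v hv) hk' le_rfl c1 c2
      _ = _ := by simp; ring
  -- step two: from Gaussian noise to planted innovations
  have e2 : |Epl G θ D' (hlev k') N (fun S ξ => g (O (inn G θ D' (hlev k') S ξ)))
      - ∫ z, g (O z) ∂(nlaw (hlev k') N D')| ≤ 2 * epsN n := by
    refine (planted_close hg.par (hlev_ne_zero k') c2 mgO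
      (fun z => hg01 _ (bO _)) (epsN_pos n)).trans ?_
    have h1 := div_le_div_of_nonneg_right c1 (epsN_pos n).le
    have h2 : epsN n ^ 2 / epsN n = epsN n := by
      rw [sq, mul_div_assoc, div_self (epsN_pos n).ne', mul_one]
    linarith
  -- step three: planted outputs are close to the spins
  have e3 : |Epl G θ D' (hlev k') N (fun S ξ => g (O (inn G θ D' (hlev k') S ξ)))
      - ∑ S ∈ D₀.powerset, post G θ D₀ 0 S * g (spin S)| ≤ 2 * (D₀.card : ℝ) * epsN n := by
    rw [← sum_post_marginal hG hg.par hD₀ ⟨o, ho⟩ hD' hsub0 (fun S => g (spin S))]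
    have hgi : ∀ S, g (spin (S ∩ D₀)) = g (spin S) := fun S =>
      hgd _ _ fun v hv => spin_inter hv
    simp only [hgi]
    unfold Epl
    rw [← Finset.sum_sub_distrib]
    refine (Finset.abs_sum_le_sum_abs _ _).trans ?_
    calc ∑ S ∈ D'.powerset, |post G θ D' 0 S *
            ∫ ξ, g (O (inn G θ D' (hlev k') S ξ)) ∂(nlaw (hlev k') N D')
          - post G θ D' 0 S * g (spin S)|
        ≤ ∑ S ∈ D'.powerset, post G θ D' 0 S * (2 * (D₀.card : ℝ) * epsN n) := by
          refine Finset.sum_le_sum fun S _ => ?_
          rw [← mul_sub, abs_mul, abs_of_nonneg (post_nonneg hg.par D' 0 S)]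
          refine mul_le_mul_of_nonneg_left ?_ (post_nonneg hg.par D' 0 S)
          have hio : Integrable (fun ξ => g (O (inn G θ D' (hlev k') S ξ)))
              (nlaw (hlev k') N D') :=
            integrable_of_bdd (mgO.comp (measurable_inn hg.par S)) fun ξ => hg01 _ (bO _)
          have hW : ∀ v ∈ D₀, Integrable (fun ξ : Fin N → D' → ℝ =>
              |∑ i ∈ Finset.range N, extN ξ i v| / (N * (hlev k' : ℝ))) (nlaw (hlev k') N D') :=
            fun v hv => ((noise_moment (hlev k') (hsub0 hv) _ fun i hi =>
              Finset.mem_range.1 hi).1.abs).div_const _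
          rw [show g (spin S) = ∫ _ξ, g (spin S) ∂(nlaw (hlev k') N D') by simp,
            ← integral_sub hio (integrable_const _)]
          refine abs_integral_le_integral_abs.trans ?_
          calc ∫ ξ, |g (O (inn G θ D' (hlev k') S ξ)) - g (spin S)| ∂(nlaw (hlev k') N D')
              ≤ ∫ ξ, 2 * ∑ v ∈ D₀, |∑ i ∈ Finset.range N, extN ξ i v| / (N * (hlev k' : ℝ))
                  ∂(nlaw (hlev k') N D') := by
                refine integral_mono (hio.sub (integrable_const _)).abs
                  ((integrable_finsetSum _ hW).const_mul _) fun ξ => ?_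
                refine (hgL _ _ (bO _) fun v => (abs_spin S v).le).trans ?_
                refine mul_le_mul_of_nonneg_left (Finset.sum_le_sum fun v hv => ?_) zero_le_two
                exact out_inn (hlev_ne_zero k')
                  (Nat.mul_pos (timeN_pos n) (by positivity)) S ξ (hsub0 hv)
            _ ≤ 2 * ∑ _v ∈ D₀, epsN n := by
                rw [integral_const_mul, integral_finsetSum _ hW]
                refine mul_le_mul_of_nonneg_left (Finset.sum_le_sum fun v hv => ?_) zero_le_two
                rw [integral_div, mul_hlev]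
                have hT0 : (0:ℝ) < T := by exact_mod_cast timeN_pos n
                have := noise_abs (hlev k') (hsub0 hv) (Finset.range N)
                  (fun i hi => Finset.mem_range.1 hi) (Real.sqrt_pos.2 hT0)
                  (by rw [Real.sq_sqrt hT0.le, Finset.card_range, mul_hlev])
                calc _ ≤ Real.sqrt T / T := div_le_div_of_nonneg_right this hT0.le
                  _ = epsN n := by rw [Real.sqrt_div_self, ← sqrt_timeN]; ring
            _ = _ := by simp; ring
      _ = _ := by rw [← Finset.sum_mul, sum_post hg.par, one_mul]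
  have t1 := abs_le.1 e1
  have t2 := abs_le.1 e2
  have t3 := abs_le.1 e3
  rw [abs_le]
  constructor <;> linarith [t1.1, t1.2, t2.1, t2.2, t3.1, t3.2]

/-- The factor map. -/
def factorMap (U : V → unitInterval) (v : V) : Bool :=
  decide (∀ m : ℕ, ∃ n ≥ m, 0 < approxSpin hG hd hg n v U)

lemma measurable_factorMap : Measurable (factorMap hG hd hg) := by
  refine measurable_pi_lambda _ fun v => measurable_to_bool ?_
  have : (fun U => factorMap hG hd hg U v) ⁻¹' {true}
      = ⋂ m : ℕ, ⋃ n ≥ m, {U | 0 < approxSpin hG hd hg n v U} := by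
    ext U
    simp [factorMap]
  rw [this]
  exact MeasurableSet.iInter fun m => MeasurableSet.iUnion fun n => MeasurableSet.iUnion fun _ =>
    measurableSet_lt measurable_const (measurable_approxSpin hG hd hg n v)

lemma approxSpin_equivariant (g : G ≃g G) (n : ℕ) (v : V) (U : V → unitInterval) :
    approxSpin hG hd hg n (g v) (fun w => U (g.symm w)) = approxSpin hG hd hg n v U := by
  unfold approxSpin out
  congr 2
  have hbase := imageIso_ballF (hG := hG) (hd := hd) (hd3 := hg.deg) g v (domN d θ n)
  conv_lhs => rw [← hbase, path_imageIso]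
  refine path_congr _ (fun _ _ => rfl) _ (fun i hi u hu => ?_) v (self_mem_ballF v _)
  rw [extN_apply _ hi hu, extN_apply _ hi (map_mem_imageIso.2 hu)]
  simp [nz]

lemma factorMap_equivariant (g : G ≃g G) (U : V → unitInterval) :
    factorMap hG hd hg (fun v => U (g.symm v)) = fun v => factorMap hG hd hg U (g.symm v) := by
  funext v
  have h : ∀ n, approxSpin hG hd hg n v (fun w => U (g.symm w))
      = approxSpin hG hd hg n (g.symm v) U := fun n => by
    have := approxSpin_equivariant hG hd hg g n (g.symm v) U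
    simpa using this
  simp [factorMap, h]

lemma ae_converges (v : V) :
    ∀ᵐ U ∂(ilaw V), ∃ l : ℝ, Tendsto (fun n => approxSpin hG hd hg n v U) atTop (𝓝 l) := by
  set Δ := fun n U => |approxSpin hG hd hg n v U - approxSpin hG hd hg (n + 1) v U| with hΔ
  have mΔ : ∀ n, Measurable (Δ n) := fun n =>
    ((measurable_approxSpin hG hd hg n v).sub (measurable_approxSpin hG hd hg (n + 1) v)).abs
  have iΔ : ∀ n, Integrable (Δ n) (ilaw V) := fun n =>
    integrable_of_bdd (B := 2) (mΔ n) fun U => by
      simp only [hΔ, abs_abs]; exact abs_out_sub_le _ _ _ _ _ _ _ _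
  have hsum : Summable fun n => 20 * epsN n + 20 * epsN (n + 1) := by
    have h : Summable fun n : ℕ => epsN n := by
      refine (summable_geometric_of_lt_one (r := (4:ℝ)⁻¹) (by norm_num) (by norm_num)).congr
        fun n => ?_
      simp [epsN, inv_pow]
    exact (h.mul_left 20).add (((summable_nat_add_iff 1).2 h).mul_left 20)
  have hfin : ∫⁻ U, ∑' n, ENNReal.ofReal (Δ n U) ∂(ilaw V) ≠ ⊤ := by
    rw [lintegral_tsum fun n => (mΔ n).ennreal_ofReal.aemeasurable]
    refine ne_top_of_le_ne_top hsum.tsum_ofReal_ne_top (ENNReal.tsum_le_tsum fun n => ?_)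
    rw [← ofReal_integral_eq_lintegral_ofReal (iΔ n) (ae_of_all _ fun U => abs_nonneg _)]
    exact ENNReal.ofReal_le_ofReal (approx_step hG hd hg n v)
  filter_upwards [ae_lt_top (Measurable.tsum (fun n => (mΔ n).ennreal_ofReal)) hfin]
    with U hU
  have hs : Summable fun n => Δ n U := by
    have := ENNReal.summable_toReal hU.ne
    exact this.congr fun n => ENNReal.toReal_ofReal (abs_nonneg _)
  exact cauchySeq_tendsto_of_complete (cauchySeq_of_summable_dist hs)

lemma abs_prod_sub_prod_le (s : Finset V) (a b : V → ℝ) (ha : ∀ v, |a v| ≤ 1)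
    (hb : ∀ v, |b v| ≤ 1) : |∏ v ∈ s, a v - ∏ v ∈ s, b v| ≤ ∑ v ∈ s, |a v - b v| := by
  induction s using Finset.induction with
  | empty => simp
  | @insert x s hx ih =>
    rw [Finset.prod_insert hx, Finset.prod_insert hx, Finset.sum_insert hx]
    have hp : |∏ v ∈ s, a v| ≤ 1 := by
      rw [Finset.abs_prod]
      exact Finset.prod_le_one (fun v _ => abs_nonneg _) fun v _ => ha v
    calc |a x * ∏ v ∈ s, a v - b x * ∏ v ∈ s, b v|
        = |(a x - b x) * ∏ v ∈ s, a v + b x * (∏ v ∈ s, a v - ∏ v ∈ s, b v)| := by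
          congr 1; ring
      _ ≤ |a x - b x| * |∏ v ∈ s, a v| + |b x| * |∏ v ∈ s, a v - ∏ v ∈ s, b v| := by
          rw [← abs_mul, ← abs_mul]; exact abs_add_le _ _
      _ ≤ |a x - b x| + ∑ v ∈ s, |a v - b v| :=
          add_le_add (mul_le_of_le_one_right (abs_nonneg _) hp)
            ((mul_le_of_le_one_left (abs_nonneg _) (hb x)).trans ih)

/-- The finite-dimensional laws of the factor map. -/
theorem factorMap_law (D₀ : Finset V) (hD₀ : (G.induce (D₀ : Set V)).Connected)
    (η : V → Bool) :
    (ilaw V).map (factorMap hG hd hg) {σ | ∀ v ∈ D₀, σ v = η v}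
      = ENNReal.ofReal (isingWeight G θ D₀ η) := by
  have hcl : Closed G D₀ := closed_of_connected hG hD₀
  obtain ⟨o, ho⟩ : D₀.Nonempty := by
    obtain ⟨⟨x, hx⟩⟩ := hD₀.nonempty
    exact ⟨x, hx⟩
  set X := fun n U v => approxSpin hG hd hg n v U
  have bX : ∀ n U v, |X n U v| ≤ 1 := fun n U v => abs_approxSpin hG hd hg n v U
  have mX : ∀ n, Measurable (X n) := fun n =>
    measurable_pi_lambda _ fun v => measurable_approxSpin hG hd hg n v
  set lim := fun U v => limUnder atTop (fun n => X n U v)
  have hconv : ∀ᵐ U ∂(ilaw V), ∀ v ∈ D₀, Tendsto (fun n => X n U v) atTop (𝓝 (lim U v)) := by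
    rw [Filter.eventually_all_finset]
    intro v _
    filter_upwards [ae_converges hG hd hg v] with U hU
    exact tendsto_nhds_limUnder hU
  have heps : Tendsto (fun n => epsN n) atTop (𝓝 0) := by
    have : (fun n => epsN n) = fun n : ℕ => ((4:ℝ)⁻¹) ^ n := by
      funext n; simp [epsN, inv_pow]
    rw [this]
    exact tendsto_pow_atTop_nhds_zero_of_lt_one (by norm_num) (by norm_num)
  have key : ∀ (g : (V → ℝ) → ℝ), Continuous g → DepOn g D₀ →
      (∀ x : V → ℝ, (∀ v, |x v| ≤ 1) → |g x| ≤ 2) →
      (∀ x y : V → ℝ, (∀ v, |x v| ≤ 1) → (∀ v, |y v| ≤ 1) →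
        |g x - g y| ≤ 2 * ∑ v ∈ D₀, |x v - y v|) →
      ∀ f : (V → unitInterval) → ℝ,
      (∀ᵐ U ∂(ilaw V), Tendsto (fun n => g (X n U)) atTop (𝓝 (f U))) →
      ∫ U, f U ∂(ilaw V) = ∑ S ∈ D₀.powerset, post G θ D₀ 0 S * g (spin S) := by
    intro g h1 h2 h3 h4 f hf
    have t1 : Tendsto (fun n => ∫ U, g (X n U) ∂(ilaw V)) atTop (𝓝 (∫ U, f U ∂(ilaw V))) :=
      tendsto_integral_of_dominated_convergence (fun _ => 2)
        (fun n => (measurable_depOn h1 h2 (mX n)).aestronglyMeasurable) (integrable_const _)
        (fun n => ae_of_all _ fun U => h3 _ (bX n U)) hf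
    have t2 : Tendsto (fun n => ∫ U, g (X n U) ∂(ilaw V)) atTop
        (𝓝 (∑ S ∈ D₀.powerset, post G θ D₀ 0 S * g (spin S))) := by
      rw [tendsto_iff_norm_sub_tendsto_zero]
      refine squeeze_zero (fun n => norm_nonneg _)
        (fun n => approx_law hG hd hg hcl ho g h1 h2 h3 h4 n) ?_
      simpa using heps.const_mul (42 * (D₀.card : ℝ) + 2)
    exact tendsto_nhds_unique t1 t2
  -- the limits are signs
  have hsq : ∀ᵐ U ∂(ilaw V), ∀ v ∈ D₀, lim U v ^ 2 = 1 := by
    rw [Filter.eventually_all_finset]
    intro v hv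
    have hv' : v ∈ D₀ := hv
    have hb : ∀ᵐ U ∂(ilaw V), |lim U v| ≤ 1 := by
      filter_upwards [hconv] with U hU
      exact le_of_tendsto' (hU v hv').abs fun n => bX n U v
    set f := fun U => lim U v ^ 2
    have hint := key (fun x => x v ^ 2) ((continuous_apply v).pow 2)
      (fun s t h => by simp only [h v hv'])
      (fun x hx => by
        rw [abs_pow]
        linarith [pow_le_one₀ (n := 2) (abs_nonneg (x v)) (hx v)])
      (fun x y hx hy => by
        have : |x v ^ 2 - y v ^ 2| ≤ 2 * |x v - y v| := by
          rw [sq_sub_sq, abs_mul]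
          refine mul_le_mul_of_nonneg_right ((abs_add_le _ _).trans ?_) (abs_nonneg _)
          linarith [hx v, hy v]
        refine this.trans (mul_le_mul_of_nonneg_left ?_ zero_le_two)
        exact Finset.single_le_sum (f := fun u => |x u - y u|) (fun u _ => abs_nonneg _) hv')
      f (by filter_upwards [hconv] with U hU; exact (hU v hv').pow 2)
    have hs : ∀ S : Finset V, spin S v ^ 2 = 1 := fun S => by rw [sq]; exact spin_sq S v
    simp only [hs, mul_one, sum_post hg.par] at hint
    have hfm : AEStronglyMeasurable f (ilaw V) :=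
      aestronglyMeasurable_of_tendsto_ae atTop (f := fun n U => X n U v ^ 2)
        (fun n => ((measurable_pi_apply v).comp (mX n)).pow_const 2 |>.aestronglyMeasurable)
        (by filter_upwards [hconv] with U hU; exact (hU v hv').pow 2)
    have hfi : Integrable f (ilaw V) := Integrable.of_bound hfm 1 (by
      filter_upwards [hb] with U hU
      rw [Real.norm_eq_abs, abs_pow]
      exact pow_le_one₀ (abs_nonneg _) hU)
    have hnn : 0 ≤ᵐ[ilaw V] fun U => 1 - f U := by
      filter_upwards [hb] with U hU
      simp only [Pi.zero_apply, sub_nonneg, f]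
      exact (sq_le_one_iff_abs_le_one _).2 hU
    have hz : ∫ U, (1 - f U) ∂(ilaw V) = 0 := by
      rw [integral_sub (integrable_const _) hfi, hint]; simp
    filter_upwards [(integral_eq_zero_iff_of_nonneg_ae hnn ((integrable_const _).sub hfi)).1 hz]
      with U hU
    simp only [Pi.zero_apply, f] at hU
    linarith
  -- indicator of the pattern
  set A := {U | ∀ v ∈ D₀, factorMap hG hd hg U v = η v} with hA
  have hAm : MeasurableSet A := by
    have : A = ⋂ v ∈ D₀, (fun U => factorMap hG hd hg U v) ⁻¹' {η v} := by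
      ext U; simp [hA]
    rw [this]
    exact D₀.measurableSet_biInter fun v _ =>
      (measurable_pi_apply v).comp (measurable_factorMap hG hd hg) (measurableSet_singleton _)
  set g := fun x : V → ℝ => ∏ v ∈ D₀, (1 + spinVal (η v) * x v) / 2
  have hη : ∀ v, |spinVal (η v)| = 1 := fun v => by unfold spinVal; cases η v <;> simp
  have hfac : ∀ x : V → ℝ, (∀ v, |x v| ≤ 1) → ∀ v, |(1 + spinVal (η v) * x v) / 2| ≤ 1 := by
    intro x hx v
    rw [abs_div, abs_two, div_le_one two_pos]
    refine (abs_add_le _ _).trans ?_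
    rw [abs_mul, hη, one_mul, abs_one]
    linarith [hx v]
  have hint := key g (continuous_finsetProd _ fun v _ =>
      (continuous_const.add (continuous_const.mul (continuous_apply v))).div_const 2)
    (fun s t h => Finset.prod_congr rfl fun v hv => by rw [h v hv])
    (fun x hx => by
      rw [Finset.abs_prod]
      exact (Finset.prod_le_one (fun v _ => abs_nonneg _) fun v _ => hfac x hx v).trans one_le_two)
    (fun x y hx hy => by
      refine (abs_prod_sub_prod_le D₀ _ _ (hfac x hx) (hfac y hy)).trans ?_
      rw [Finset.mul_sum]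
      refine Finset.sum_le_sum fun v _ => ?_
      rw [← sub_div, abs_div, abs_two, add_sub_add_left_eq_sub, ← mul_sub, abs_mul, hη, one_mul]
      linarith [abs_nonneg (x v - y v)])
    (fun U => A.indicator (fun _ => (1:ℝ)) U) (by
      filter_upwards [hconv, hsq] with U hU h1
      have hdec : ∀ v ∈ D₀, lim U v = spinVal (factorMap hG hd hg U v) := by
        intro v hv
        rcases sq_eq_one_iff.1 (h1 v hv) with h | h
        · have : ∀ m : ℕ, ∃ n ≥ m, 0 < approxSpin hG hd hg n v U := fun m => by
            have := (hU v hv).eventually (eventually_gt_nhds (show (0:ℝ) < lim U v by linarith))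
            obtain ⟨n, hn1, hn2⟩ := ((eventually_ge_atTop m).and this).exists
            exact ⟨n, hn1, hn2⟩
          rw [h, factorMap, decide_eq_true this]
          simp [spinVal]
        · have : ¬ ∀ m : ℕ, ∃ n ≥ m, 0 < approxSpin hG hd hg n v U := fun hall => by
            have := (hU v hv).eventually (eventually_lt_nhds (show lim U v < (0:ℝ) by linarith))
            obtain ⟨m, hm⟩ := eventually_atTop.1 this
            obtain ⟨n, hn1, hn2⟩ := hall m
            exact absurd (hm n hn1) (by simp only [X]; linarith)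
          rw [h, factorMap, decide_eq_false this]
          simp [spinVal]
      have hlim : Tendsto (fun n => g (X n U)) atTop (𝓝 (g (lim U))) :=
        tendsto_finsetProd _ fun v hv =>
          (((hU v hv).const_mul _).const_add 1).div_const 2
      have : g (lim U) = A.indicator (fun _ => (1:ℝ)) U := by
        by_cases hUA : U ∈ A
        · rw [Set.indicator_of_mem hUA]
          refine Finset.prod_eq_one fun v hv => ?_
          rw [hdec v hv, hUA v hv]
          unfold spinVal; cases η v <;> norm_num
        · rw [Set.indicator_of_notMem hUA]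
          simp only [hA, Set.mem_ofPred_eq] at hUA
          push Not at hUA
          obtain ⟨v, hv, hne⟩ := hUA
          refine Finset.prod_eq_zero hv ?_
          rw [hdec v hv]
          unfold spinVal
          cases hv1 : η v <;> cases hv2 : factorMap hG hd hg U v <;>
            simp_all
      rw [← this]
      exact hlim)
  rw [integral_indicator hAm, setIntegral_const] at hint
  set S₁ := D₀.filter fun v => η v = true
  have hS₁ : ∀ v ∈ D₀, spin S₁ v = spinVal (η v) := fun v hv => by
    unfold spin spinVal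
    cases hη : η v <;> simp [S₁, hv, hη]
  have hval : ∑ S ∈ D₀.powerset, post G θ D₀ 0 S * g (spin S) = isingWeight G θ D₀ η := by
    rw [Finset.sum_eq_single_of_mem S₁ (Finset.mem_powerset.2 (Finset.filter_subset _ _))]
    · have hg1 : g (spin S₁) = 1 := Finset.prod_eq_one fun v hv => by
        rw [hS₁ v hv]; unfold spinVal; cases η v <;> norm_num
      rw [hg1, mul_one]
      have hden : ∑ S' ∈ D₀.powerset, ew G θ D₀ 0 S' = (2:ℝ) ^ D₀.card := by
        rw [← Sm_zero_one (θ := θ) hG hcl ⟨o, ho⟩]
        simp [Sm, ew]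
      unfold post
      rw [hden]
      unfold ew isingWeight wt
      have he : ∏ e ∈ edgesIn G D₀, edgeFactor θ (spin S₁) e
          = 2 ^ (edgesIn G D₀).card * ∏ e ∈ edgesIn G D₀, edgeTerm θ η e := by
        rw [← Finset.prod_const, ← Finset.prod_mul_distrib]
        refine Finset.prod_congr rfl fun e he => ?_
        induction e using Sym2.ind with
        | _ a b =>
          simp only [edgesIn, Finset.mem_filter, Finset.mk_mem_sym2_iff] at he
          rw [edgeFactor_mk, hS₁ a he.1.1, hS₁ b he.1.2]
          simp only [edgeTerm, Sym2.lift_mk]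
          ring
      rw [he, ← card_edgesIn hG hcl ⟨o, ho⟩, pow_succ]
      simp only [Pi.zero_apply, mul_zero, Finset.sum_const_zero, Real.exp_zero, mul_one]
      unfold edgesIn
      field_simp
    · intro S hS hne
      have : ∃ v ∈ D₀, ¬ (v ∈ S ↔ v ∈ S₁) := by
        by_contra hcon
        push Not at hcon
        refine hne (Finset.ext fun v => ?_)
        by_cases hv : v ∈ D₀
        · exact hcon v hv
        · exact ⟨fun h => absurd (Finset.mem_powerset.1 hS h) hv,
            fun h => absurd (Finset.filter_subset _ _ h) hv⟩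
      obtain ⟨v, hv, hiff⟩ := this
      refine mul_eq_zero_of_right _ (Finset.prod_eq_zero hv ?_)
      unfold spin spinVal
      simp only [S₁, Finset.mem_filter, hv, true_and] at hiff
      cases hη : η v <;> by_cases hvS : v ∈ S <;> simp_all
  rw [hval, smul_eq_mul, mul_one] at hint
  rw [Measure.map_apply (measurable_factorMap hG hd hg) ?_]
  · change ilaw V A = _
    rw [← hint, ofReal_measureReal]
  · have : {σ : V → Bool | ∀ v ∈ D₀, σ v = η v} = ⋂ v ∈ D₀, (fun σ => σ v) ⁻¹' {η v} := by
      ext σ; simp
    rw [this]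
    exact D₀.measurableSet_biInter fun v _ => measurable_pi_apply v (measurableSet_singleton _)

include hG hd hg in
theorem isFreeIsing_factorMap :
    IsFreeIsing G θ ((ilaw V).map (factorMap hG hd hg)) :=
  ⟨Measure.isProbabilityMeasure_map (measurable_factorMap hG hd hg).aemeasurable,
    fun D hD η => factorMap_law hG hd hg D hD η⟩

include hG hd hg in
theorem isFreeIsing_unique {μ ν : Measure (V → Bool)} (hμ : IsFreeIsing G θ μ)
    (hν : IsFreeIsing G θ ν) : μ = ν := by
  have := hμ.1
  have := hν.1
  obtain ⟨o⟩ := hG.connected.nonempty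
  set P : (J : Finset V) → Measure (J → Bool) := fun J => μ.map J.restrict
  have : ∀ J, IsFiniteMeasure (P J) := fun J => Measure.isFiniteMeasure_map μ _
  refine IsProjectiveLimit.unique (P := P) (fun J => rfl) fun J => ?_
  set R := J.sup (fun v => G.dist o v)
  set B := ballF hG hd hg.deg o R
  have hJB : J ⊆ B := fun v hv => mem_ballF.2 (Finset.le_sup (f := fun v => G.dist o v) hv)
  have hB : ν.map B.restrict = μ.map B.restrict := by
    refine Measure.ext_of_singleton fun a => ?_
    rw [Measure.map_apply (by fun_prop) (measurableSet_singleton a),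
      Measure.map_apply (by fun_prop) (measurableSet_singleton a)]
    have : (B.restrict : (V → Bool) → (B → Bool)) ⁻¹' {a}
        = {σ : V → Bool | ∀ v ∈ B, σ v = if h : v ∈ B then a ⟨v, h⟩ else false} := by
      ext σ
      simp only [Set.mem_preimage, Set.mem_singleton_iff, Set.mem_ofPred_eq, funext_iff]
      exact ⟨fun h v hv => by rw [dif_pos hv]; exact h ⟨v, hv⟩,
        fun h v => by simpa using h v.1 v.2⟩
    rw [this, hν.2 B (connected_ballF o R), hμ.2 B (connected_ballF o R)]
  have e : (J.restrict : (V → Bool) → (J → Bool))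
      = Finset.restrict₂ (π := fun _ : V => Bool) hJB ∘ B.restrict := rfl
  change ν.map J.restrict = μ.map J.restrict
  rw [e, ← Measure.map_map (by fun_prop) (by fun_prop), hB,
    Measure.map_map (by fun_prop) (by fun_prop)]

include hG hd hg in
theorem isFactorOfIID_of_isFreeIsing {μ : Measure (V → Bool)} (hμ : IsFreeIsing G θ μ) :
    IsFactorOfIID G μ :=
  ⟨factorMap hG hd hg, measurable_factorMap hG hd hg,
    fun g => ae_of_all _ fun U => factorMap_equivariant hG hd hg g U,
    isFreeIsing_unique hG hd hg (isFreeIsing_factorMap hG hd hg) hμ⟩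

end

end Vale.Agent.P161
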