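import Vale.Agent.P161.Balls
import Vale.Agent.P161.Noise

/-!
Choice of the parameters, and the uniform error bound between a finite scheme and any
finer reference scheme, all driven by the same uniform labels.
-/

namespace Vale.Agent.P161

open MeasureTheory Finset Function Filter
open scoped NNReal ENNReal Classical unitInterval Topology

noncomputable section

/-- The law of the labels. -/
abbrev ilaw (V : Type*) : Measure (V → unitInterval) :=
  Measure.infinitePi fun _ : V => (volume : Measure unitInterval)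

variable {V : Type*}

/-- The level-`k` noise read from the labels. -/
def nz (k N : ℕ) (D : Finset V) (U : V → unitInterval) : Fin N → D → ℝ :=
  fun j u => noise k (U u) j

lemma nz_preserving (k N : ℕ) (D : Finset V) :
    MeasurePreserving (nz k N D) (ilaw V) (nlaw (hlev k) N D) :=
  noise_preserving k N D

lemma agg_nz {D D' : Finset V} (hsub : D ⊆ D') {k k' : ℕ} (hk : k ≤ k') {N N' : ℕ}
    (hN : N * 2 ^ (k' - k) ≤ N') (U : V → unitInterval) :
    agg D (2 ^ (k' - k)) N (nz k' N' D' U) = nz k N D U := by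
  funext j u
  unfold agg
  simp only [nz]
  rw [noise_refine hk]
  refine Finset.sum_congr rfl fun i hi => ?_
  have h1 : ((j:ℕ) + 1) * 2 ^ (k' - k) ≤ N * 2 ^ (k' - k) := Nat.mul_le_mul_right _ j.2
  rw [Nat.succ_mul] at h1
  have h2 := Finset.mem_range.1 hi
  rw [extN_apply _ (show (j:ℕ) * 2 ^ (k' - k) + i < N' by omega) (hsub u.2)]
  rfl

lemma agg_preserving {D D' : Finset V} (hsub : D ⊆ D') {k k' : ℕ} (hk : k ≤ k') {N N' : ℕ}
    (hN : N * 2 ^ (k' - k) ≤ N') :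
    MeasurePreserving (agg (N' := N') (D' := D') D (2 ^ (k' - k)) N)
      (nlaw (hlev k') N' D') (nlaw (hlev k) N D) := by
  refine ⟨measurable_agg _ _ _, ?_⟩
  rw [← (nz_preserving k' N' D').map_eq,
    Measure.map_map (measurable_agg _ _ _) (nz_preserving k' N' D').measurable,
    ← (nz_preserving k N D).map_eq]
  congr 1
  funext U
  exact agg_nz hsub hk hN U

lemma hlev_ne_zero (k : ℕ) : hlev k ≠ 0 := by simp [hlev]

lemma coe_hlev (k : ℕ) : (hlev k : ℝ) = ((2:ℝ) ^ k)⁻¹ := by simp [hlev]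

lemma hlev_pos (k : ℕ) : (0:ℝ) < hlev k := by rw [coe_hlev]; positivity

lemma hlev_le (k : ℕ) {k' : ℕ} (hk : k ≤ k') : (hlev k' : ℝ) ≤ hlev k := by
  rw [coe_hlev, coe_hlev]
  exact inv_anti₀ (by positivity) (pow_le_pow_right₀ one_le_two hk)

lemma mul_hlev (k : ℕ) (T : ℕ) : ((T * 2 ^ k : ℕ) : ℝ) * hlev k = T := by
  rw [coe_hlev]; push_cast; field_simp

lemma hlev_refine {k k' : ℕ} (hk : k ≤ k') :
    (hlev k : ℝ) = ((2 ^ (k' - k) : ℕ) : ℝ) * hlev k' := by
  obtain ⟨m, rfl⟩ := Nat.exists_eq_add_of_le hk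
  rw [Nat.add_sub_cancel_left, coe_hlev, coe_hlev, pow_add]
  push_cast
  field_simp

lemma exists_small (c : ℝ) {δ : ℝ} (hδ : 0 < δ) : ∃ K : ℕ, ∀ k ≥ K, c * hlev k ≤ δ := by
  obtain ⟨K, hK⟩ := exists_pow_lt_of_lt_one (show 0 < δ / (|c| + 1) by positivity)
    (show ((1:ℝ) / 2) < 1 by norm_num)
  refine ⟨K, fun k hk => ?_⟩
  have h1 : (hlev K : ℝ) < δ / (|c| + 1) := by
    rw [coe_hlev]; rwa [one_div, inv_pow] at hK
  rw [lt_div_iff₀ (by positivity)] at h1
  have h2 := hlev_le K hk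
  have h3 : (0:ℝ) < hlev k := hlev_pos k
  nlinarith [le_abs_self c, hlev_pos K, abs_nonneg c]

lemma chi_le {D : Finset V} {k T : ℕ} {c δ : ℝ} (hc : (D.card : ℝ) ≤ c)
    (hsmall : 32 * c ^ 2 * T * hlev k ≤ δ) (hδ : δ ≤ 1) :
    chi D (hlev k) (T * 2 ^ k) ≤ δ := by
  unfold chi
  set x := 16 * (D.card : ℝ) ^ 2 * (hlev k : ℝ) ^ 2 with hx
  have hx0 : 0 ≤ x := by positivity
  set y := ((T * 2 ^ k : ℕ) : ℝ) * x with hy
  have hyle : y ≤ 16 * c ^ 2 * T * hlev k := by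
    have : y = 16 * (D.card : ℝ) ^ 2 * T * hlev k := by
      rw [hy, hx]
      linear_combination (16 * (D.card : ℝ) ^ 2 * (hlev k : ℝ)) * mul_hlev k T
    rw [this]
    gcongr
  have h1 : (1 + x) ^ (T * 2 ^ k) ≤ Real.exp y := by
    rw [hy, Real.exp_nat_mul]
    exact pow_le_pow_left₀ (by positivity) (by linarith [Real.add_one_le_exp x]) _
  have hy0 : 0 ≤ y := by positivity
  have h2 := Real.abs_exp_sub_one_le (x := y) (by rw [abs_of_nonneg hy0]; linarith)
  rw [abs_of_nonneg hy0] at h2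
  linarith [(abs_le.1 h2).2]

/-! ### Parameters -/

section params

variable (d : ℕ) (θ : ℝ)

/-- The base of the super-solution. -/
def aOf : ℝ := (θ + (Real.sqrt ((d:ℝ) - 1))⁻¹) / 2

/-- The super-solution constant. -/
def kcOf : ℝ :=
  (d / (1 - ((d:ℝ) - 1) * (θ * aOf d θ))) * (aOf d θ / (aOf d θ - θ))

/-- The geometric ratio for the influence of distant noise. -/
def q1Of : ℝ := ((d:ℝ) - 1) * aOf d θ ^ 2

/-- The geometric ratio for the influence of distant observations. -/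
def q2Of : ℝ := ((d:ℝ) - 1) * θ ^ 2

/-- The error scale. -/
def epsN (n : ℕ) : ℝ := ((4:ℝ) ^ n)⁻¹

/-- The time horizon. -/
def timeN (n : ℕ) : ℕ := 16 ^ n

/-- The bound on the growth of perturbations. -/
def growN (n : ℕ) : ℝ := Real.exp (kcOf d θ * timeN n)

/-- The radius inside which noise matters. -/
def radN (n : ℕ) : ℕ :=
  Classical.epsilon fun r : ℕ =>
    2 * (d : ℝ) * growN d θ n ^ 2 / (1 - q1Of d θ) * q1Of d θ ^ r ≤ epsN n ^ 2

/-- The secondary error scale. -/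
def eps2N (n : ℕ) : ℝ := epsN n / (growN d θ n * (d:ℝ) ^ (radN d θ n + 2))

/-- The extra depth needed by the posterior means. -/
def depthN (n : ℕ) : ℕ :=
  Classical.epsilon fun s : ℕ =>
    4 * (d : ℝ) / (1 - q2Of d θ) * q2Of d θ ^ s ≤ eps2N d θ n ^ 2

/-- The domain radius. -/
def domN (n : ℕ) : ℕ := n + radN d θ n + depthN d θ n

/-- The dyadic level. -/
def levN (n : ℕ) : ℕ :=
  Classical.epsilon fun K : ℕ => ∀ k ≥ K,
    32 * ((d:ℝ) ^ (domN d θ n + 2)) ^ 2 * timeN n * hlev k ≤ epsN n ^ 2 ∧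
    4 * (d:ℝ) ^ (domN d θ n + 2) * hlev k ≤ 1 ∧
    2 * (d:ℝ) ^ (domN d θ n + 2) * Real.sqrt (hlev k) ≤ eps2N d θ n

/-- Hypotheses on the parameters. -/
structure Good : Prop where
  deg : 3 ≤ d
  nonneg : 0 ≤ θ
  lt : θ < (Real.sqrt ((d:ℝ) - 1))⁻¹

variable {d θ}

lemma Good.facts (hg : Good d θ) :
    θ < aOf d θ ∧ aOf d θ ≤ 1 ∧ q1Of d θ < 1 ∧ 0 ≤ q1Of d θ ∧ q2Of d θ < 1 ∧ 0 ≤ q2Of d θ ∧
      ((d:ℝ) - 1) * (θ * aOf d θ) < 1 ∧ 0 ≤ kcOf d θ ∧ θ < 1 ∧ 0 < aOf d θ := by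
  obtain ⟨hd, h0, hlt⟩ := hg
  have hd1 : (2:ℝ) ≤ (d:ℝ) - 1 := by
    have : (3:ℝ) ≤ d := by exact_mod_cast hd
    linarith
  set b := (Real.sqrt ((d:ℝ) - 1))⁻¹ with hb
  have hb2 : ((d:ℝ) - 1) * b ^ 2 = 1 := by
    rw [hb, inv_pow, Real.sq_sqrt (by linarith)]
    exact mul_inv_cancel₀ (by linarith)
  have hb0 : 0 < b := by rw [hb]; exact inv_pos.2 (Real.sqrt_pos.2 (by linarith))
  have hb1 : b < 1 := by nlinarith
  have ha : aOf d θ = (θ + b) / 2 := rfl
  have a1 : θ < aOf d θ := by rw [ha]; linarith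
  have a2 : aOf d θ < b := by rw [ha]; linarith
  have a0 : 0 < aOf d θ := lt_of_le_of_lt h0 a1
  have hθa : ((d:ℝ) - 1) * (θ * aOf d θ) < 1 := by
    have : θ * aOf d θ < b ^ 2 := by nlinarith
    nlinarith
  have s1 : aOf d θ ^ 2 < b ^ 2 := by nlinarith
  have s2 : θ ^ 2 < b ^ 2 := by nlinarith
  refine ⟨a1, by linarith, ?_, mul_nonneg (by linarith) (sq_nonneg _), ?_,
    mul_nonneg (by linarith) (sq_nonneg _), hθa, ?_, by linarith, a0⟩
  · unfold q1Of; nlinarith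
  · unfold q2Of; nlinarith
  · exact mul_nonneg (div_nonneg (Nat.cast_nonneg d) (by linarith))
      (div_nonneg a0.le (by linarith))

lemma Good.par (hg : Good d θ) : Par θ := ⟨hg.nonneg, hg.facts.2.2.2.2.2.2.2.2.1⟩

lemma epsN_pos (n : ℕ) : 0 < epsN n := by unfold epsN; positivity

lemma growN_pos (n : ℕ) : 0 < growN d θ n := Real.exp_pos _

lemma Good.eps2N_pos (hg : Good d θ) (n : ℕ) : 0 < eps2N d θ n := by
  have : 0 < (d:ℝ) := by exact_mod_cast (lt_of_lt_of_le (by norm_num) hg.deg)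
  exact div_pos (epsN_pos n) (mul_pos (growN_pos n) (pow_pos this _))

lemma exists_geom {C q δ : ℝ} (hC : 0 ≤ C) (hq : q < 1) (hδ : 0 < δ) :
    ∃ r : ℕ, C * q ^ r ≤ δ := by
  obtain ⟨r, hr⟩ := exists_pow_lt_of_lt_one (show 0 < δ / (C + 1) by positivity) hq
  refine ⟨r, ?_⟩
  rw [lt_div_iff₀ (by positivity)] at hr
  by_cases h : 0 ≤ q ^ r
  · nlinarith
  · push Not at h
    nlinarith

lemma Good.radN_spec (hg : Good d θ) (n : ℕ) :
    2 * (d : ℝ) * growN d θ n ^ 2 / (1 - q1Of d θ) * q1Of d θ ^ radN d θ n ≤ epsN n ^ 2 := by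
  refine Classical.epsilon_spec (p := fun r : ℕ =>
    2 * (d : ℝ) * growN d θ n ^ 2 / (1 - q1Of d θ) * q1Of d θ ^ r ≤ epsN n ^ 2) ?_
  have := hg.facts.2.2.1
  exact exists_geom (div_nonneg (by positivity) (by linarith)) this (pow_pos (epsN_pos n) 2)

lemma Good.depthN_spec (hg : Good d θ) (n : ℕ) :
    4 * (d : ℝ) / (1 - q2Of d θ) * q2Of d θ ^ depthN d θ n ≤ eps2N d θ n ^ 2 := by
  refine Classical.epsilon_spec (p := fun s : ℕ =>
    4 * (d : ℝ) / (1 - q2Of d θ) * q2Of d θ ^ s ≤ eps2N d θ n ^ 2) ?_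
  have := hg.facts.2.2.2.2.1
  exact exists_geom (div_nonneg (by positivity) (by linarith)) this (pow_pos (hg.eps2N_pos n) 2)

lemma Good.levN_spec (hg : Good d θ) (n : ℕ) : ∀ k ≥ levN d θ n,
    32 * ((d:ℝ) ^ (domN d θ n + 2)) ^ 2 * timeN n * hlev k ≤ epsN n ^ 2 ∧
    4 * (d:ℝ) ^ (domN d θ n + 2) * hlev k ≤ 1 ∧
    2 * (d:ℝ) ^ (domN d θ n + 2) * Real.sqrt (hlev k) ≤ eps2N d θ n := by
  refine Classical.epsilon_spec (p := fun K : ℕ => ∀ k ≥ K,
    32 * ((d:ℝ) ^ (domN d θ n + 2)) ^ 2 * timeN n * hlev k ≤ epsN n ^ 2 ∧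
    4 * (d:ℝ) ^ (domN d θ n + 2) * hlev k ≤ 1 ∧
    2 * (d:ℝ) ^ (domN d θ n + 2) * Real.sqrt (hlev k) ≤ eps2N d θ n) ?_
  have he := hg.eps2N_pos n
  obtain ⟨K1, h1⟩ := exists_small (32 * ((d:ℝ) ^ (domN d θ n + 2)) ^ 2 * timeN n)
    (pow_pos (epsN_pos n) 2)
  obtain ⟨K2, h2⟩ := exists_small (4 * (d:ℝ) ^ (domN d θ n + 2)) one_pos
  obtain ⟨K3, h3⟩ := exists_small ((2 * (d:ℝ) ^ (domN d θ n + 2)) ^ 2) (pow_pos he 2)
  refine ⟨max K1 (max K2 K3), fun k hk => ⟨h1 k (le_trans (le_max_left _ _) hk),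
    h2 k (le_trans (le_trans (le_max_left _ _) (le_max_right _ _)) hk), ?_⟩⟩
  have := h3 k (le_trans (le_trans (le_max_right _ _) (le_max_right _ _)) hk)
  calc 2 * (d:ℝ) ^ (domN d θ n + 2) * Real.sqrt (hlev k)
      = Real.sqrt ((2 * (d:ℝ) ^ (domN d θ n + 2)) ^ 2 * hlev k) := by
        rw [Real.sqrt_mul (sq_nonneg _), Real.sqrt_sq (by positivity)]
    _ ≤ Real.sqrt (eps2N d θ n ^ 2) := Real.sqrt_le_sqrt this
    _ = _ := Real.sqrt_sq he.le

lemma timeN_pos (n : ℕ) : 0 < timeN n := by unfold timeN; positivity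

lemma sqrt_timeN (n : ℕ) : 1 / Real.sqrt (timeN n) = epsN n := by
  unfold timeN epsN
  have : ((16 ^ n : ℕ) : ℝ) = ((4:ℝ) ^ n) ^ 2 := by
    push_cast; rw [← pow_mul, mul_comm, pow_mul]; norm_num
  rw [this, Real.sqrt_sq (by positivity), one_div]

end params

/-! ### The scheme at scale `n` -/

section scheme

variable {G : SimpleGraph V} {d : ℕ} (hG : G.IsTree) (hd : Regular G d) {θ : ℝ} (hg : Good d θ)

/-- The approximate spin at `v`, as a function of the labels. -/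
def approxSpin (n : ℕ) (v : V) (U : V → unitInterval) : ℝ :=
  out G θ (ballF hG hd hg.deg v (domN d θ n)) (hlev (levN d θ n))
    (timeN n * 2 ^ levN d θ n) v
    (nz (levN d θ n) (timeN n * 2 ^ levN d θ n) (ballF hG hd hg.deg v (domN d θ n)) U)

include hG hd hg in
lemma Good.super (A : Finset V) : Super G θ (aOf d θ) (kcOf d θ) A := by
  obtain ⟨h1, h2, -, -, -, -, h7, h8, -, h10⟩ := hg.facts
  exact ⟨h10.le, h2, h8, fun v w => kernel_supersolution hG hd hg.deg hg.nonneg h1 h7 A v w⟩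

include hd hg in
/-- The scheme at scale `n` is close to every finer reference scheme. -/
lemma approx_close (n : ℕ) (v : V) {D' : Finset V} (hD' : Closed G D')
    (hsub : ballF hG hd hg.deg v (domN d θ n) ⊆ D') {k' T' : ℕ} (hk : levN d θ n ≤ k')
    (hT : timeN n ≤ T') (hchi : chi D' (hlev k') (T' * 2 ^ k') ≤ epsN n ^ 2)
    (hs' : (hlev k' : ℝ) * (4 * D'.card) ≤ 1) :
    ∫ U, |approxSpin hG hd hg n v U
        - out G θ D' (hlev k') (T' * 2 ^ k') v (nz k' (T' * 2 ^ k') D' U)| ∂(ilaw V)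
      ≤ 20 * epsN n := by
  obtain ⟨-, -, hq1, hq10, hq2, hq20, -, hK, -, -⟩ := hg.facts
  set ε := epsN n with hε
  set ε₂ := eps2N d θ n with hε₂
  have εpos : 0 < ε := epsN_pos n
  have ε2pos : 0 < ε₂ := hg.eps2N_pos n
  set D := ballF hG hd hg.deg v (domN d θ n) with hDdef
  set B := ballF hG hd hg.deg v (radN d θ n) with hBdef
  set k := levN d θ n
  set N := timeN n * 2 ^ k with hN
  set N' := T' * 2 ^ k' with hN'
  set M := 2 ^ (k' - k) with hM
  have hNM : N * M ≤ N' := by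
    rw [hN, hM, hN', mul_assoc, ← pow_add, Nat.add_sub_cancel' hk]
    exact Nat.mul_le_mul_right _ hT
  obtain ⟨sp1, sp2, sp3⟩ := hg.levN_spec n k le_rfl
  have hBD : B ⊆ D := ballF_mono (by simp [domN]; omega)
  have hcD : (D.card : ℝ) ≤ (d:ℝ) ^ (domN d θ n + 2) := card_ballF _ _
  have hcB : (B.card : ℝ) ≤ (d:ℝ) ^ (radN d θ n + 2) := card_ballF _ _
  have hsD : (hlev k : ℝ) * (4 * D.card) ≤ 1 := by
    have := mul_le_mul_of_nonneg_left hcD (hlev_pos k).le
    linarith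
  have hchiD : chi D (hlev k) N ≤ ε ^ 2 :=
    chi_le hcD sp1 (pow_le_one₀ εpos.le (by
      rw [hε]; unfold epsN
      exact inv_le_one_of_one_le₀ (one_le_pow₀ (by norm_num))))
  have hτ : ∀ u ∈ B, 4 * ∑ w ∈ D' \ D, (θ ^ 2) ^ G.dist u w ≤ ε₂ ^ 2 := by
    intro u hu
    refine le_trans ?_ (hg.depthN_spec n)
    have hs := sum_pow_dist_le hG hd hg.deg u (D' \ D) (sq_nonneg θ) hq2 (depthN d θ n)
      (fun w hw => by
        have h1 := mem_ballF.1 hu
        have h2 : ¬ G.dist v w ≤ domN d θ n := fun h =>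
          (Finset.mem_sdiff.1 hw).2 (mem_ballF.2 h)
        have h3 := hG.connected.dist_triangle (u := v) (v := u) (w := w)
        unfold domN at h2
        omega)
    rw [div_mul_eq_mul_div]
    calc 4 * ∑ w ∈ D' \ D, (θ ^ 2) ^ G.dist u w
        ≤ 4 * ((d:ℝ) * q2Of d θ ^ depthN d θ n / (1 - q2Of d θ)) :=
          mul_le_mul_of_nonneg_left hs (by norm_num)
      _ = _ := by ring
  have main := compare hG hg.par (h := hlev k) (h' := hlev k') (N := N) (N' := N') (M := M)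
    (closed_ballF (hG := hG) (hd := hd) (hd3 := hg.deg) v (domN d θ n)) hD' hsub hBD
    (self_mem_ballF v (radN d θ n)) (hg.super hG hd D)
    (hlev_ne_zero k') (by positivity) (by rw [hN]; exact Nat.mul_pos (timeN_pos n) (by positivity))
    (hlev_refine hk) hNM (agg_preserving hsub hk hNM) hsD hs' hτ εpos ε2pos
  have hNh : (N:ℝ) * hlev k = timeN n := mul_hlev k _
  have hN'h : (N':ℝ) * hlev k' = T' := mul_hlev k' _
  have hgrow : (1 + (hlev k : ℝ) * kcOf d θ) ^ N ≤ growN d θ n := by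
    unfold growN
    rw [← hNh, show kcOf d θ * ((N:ℝ) * hlev k) = (N:ℝ) * ((hlev k : ℝ) * kcOf d θ) by ring,
      Real.exp_nat_mul]
    exact pow_le_pow_left₀ (by have := hlev_pos k; positivity)
      (by linarith [Real.add_one_le_exp ((hlev k : ℝ) * kcOf d θ)]) _
  have heta : eta G D (hlev k) N v B (aOf d θ) (kcOf d θ) ≤ ε ^ 2 := by
    refine le_trans ?_ (hg.radN_spec n)
    unfold eta
    have hsum := sum_pow_dist_le hG hd hg.deg v (D \ B) (sq_nonneg (aOf d θ)) hq1 (radN d θ n)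
      (fun w hw => by
        by_contra h
        exact (Finset.mem_sdiff.1 hw).2 (mem_ballF.2 (by omega)))
    have hT0 : (1:ℝ) ≤ timeN n := by exact_mod_cast timeN_pos n
    have hfac : 2 * (hlev k : ℝ) * N * ((1 + hlev k * kcOf d θ) ^ N / (N * hlev k)) ^ 2
        ≤ 2 * growN d θ n ^ 2 := by
      rw [mul_assoc 2, mul_comm (hlev k : ℝ) (N:ℝ), hNh, div_pow, ← mul_div_assoc,
        div_le_iff₀ (by positivity)]
      have h0 : 0 ≤ (1 + (hlev k : ℝ) * kcOf d θ) ^ N := by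
        have := hlev_pos k; positivity
      have hsq := pow_le_pow_left₀ h0 hgrow 2
      have hsq0 : 0 ≤ growN d θ n ^ 2 := sq_nonneg _
      nlinarith [mul_le_mul_of_nonneg_left hsq (show (0:ℝ) ≤ timeN n by linarith),
        mul_le_mul_of_nonneg_left hT0 (mul_nonneg hsq0 (show (0:ℝ) ≤ timeN n by linarith))]
    calc _ ≤ 2 * growN d θ n ^ 2 * ((d:ℝ) * q1Of d θ ^ radN d θ n / (1 - q1Of d θ)) :=
          mul_le_mul hfac hsum (Finset.sum_nonneg fun u _ => pow_nonneg (sq_nonneg _) _)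
            (by positivity)
      _ = _ := by ring
  have e1 : ∀ x : ℝ, x ≤ ε ^ 2 → x / ε + ε ≤ 2 * ε := fun x hx => by
    have := div_le_div_of_nonneg_right hx εpos.le
    rw [sq, mul_div_assoc, div_self εpos.ne', mul_one] at this
    linarith
  have emid : (1 + (hlev k : ℝ) * kcOf d θ) ^ N * B.card *
      (ε₂ ^ 2 / ε₂ + ε₂ + D.card * ((hlev k : ℝ) + Real.sqrt (hlev k))) ≤ 3 * ε := by
    have h1 : (hlev k : ℝ) ≤ Real.sqrt (hlev k) := by
      have hle1 : (hlev k : ℝ) ≤ 1 := by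
        rw [coe_hlev]; exact inv_le_one_of_one_le₀ (one_le_pow₀ one_le_two)
      calc (hlev k : ℝ) = Real.sqrt (hlev k) * Real.sqrt (hlev k) :=
            (Real.mul_self_sqrt (hlev_pos k).le).symm
        _ ≤ Real.sqrt (hlev k) * 1 :=
            mul_le_mul_of_nonneg_left (Real.sqrt_le_one.2 hle1) (Real.sqrt_nonneg _)
        _ = _ := mul_one _
    have h2 : (D.card : ℝ) * ((hlev k : ℝ) + Real.sqrt (hlev k)) ≤ ε₂ := by
      refine le_trans ?_ sp3
      calc (D.card : ℝ) * ((hlev k : ℝ) + Real.sqrt (hlev k))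
          ≤ (d:ℝ) ^ (domN d θ n + 2) * (2 * Real.sqrt (hlev k)) :=
            mul_le_mul hcD (by linarith) (by have := hlev_pos k; positivity) (by positivity)
        _ = _ := by ring
    have h3 : ε₂ ^ 2 / ε₂ = ε₂ := by field_simp
    have h4 : (1 + (hlev k : ℝ) * kcOf d θ) ^ N * B.card
        ≤ growN d θ n * (d:ℝ) ^ (radN d θ n + 2) :=
      mul_le_mul hgrow hcB (Nat.cast_nonneg _) (growN_pos n).le
    calc _ ≤ (growN d θ n * (d:ℝ) ^ (radN d θ n + 2)) * (3 * ε₂) :=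
          mul_le_mul h4 (by linarith) (by have := hlev_pos k; positivity)
            (mul_nonneg (growN_pos n).le (by positivity))
      _ = 3 * ε := by
          rw [hε₂, eps2N]
          have h0 : growN d θ n * (d:ℝ) ^ (radN d θ n + 2) ≠ 0 := by
            have : 0 < (d:ℝ) := by exact_mod_cast (lt_of_lt_of_le (by norm_num) hg.deg)
            exact (mul_pos (growN_pos n) (pow_pos this _)).ne'
          rw [mul_left_comm, mul_div_cancel₀ _ h0]
  have eT : 1 / Real.sqrt (T' : ℝ) ≤ ε := by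
    rw [hε, ← sqrt_timeN]
    have : (0:ℝ) < timeN n := by exact_mod_cast timeN_pos n
    exact one_div_le_one_div_of_le (Real.sqrt_pos.2 this) (Real.sqrt_le_sqrt (by exact_mod_cast hT))
  rw [hNh, hN'h, sqrt_timeN] at main
  have hm : ∫ U, |approxSpin hG hd hg n v U
        - out G θ D' (hlev k') N' v (nz k' N' D' U)| ∂(ilaw V)
      = ∫ z, |out G θ D (hlev k) N v (agg D M N z) - out G θ D' (hlev k') N' v z|
          ∂(nlaw (hlev k') N' D') := by
    have hfm : Measurable fun z : Fin N' → D' → ℝ =>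
        |out G θ D (hlev k) N v (agg D M N z) - out G θ D' (hlev k') N' v z| :=
      (((measurable_out hg.par D (hlev k) N v).comp (measurable_agg D M N)).sub
        (measurable_out hg.par D' (hlev k') N' v)).abs
    rw [← (nz_preserving k' N' D').map_eq,
      integral_map (nz_preserving k' N' D').measurable.aemeasurable hfm.aestronglyMeasurable]
    refine integral_congr_ae (ae_of_all _ fun U => ?_)
    simp only [hM, agg_nz hsub hk hNM]
    rfl
  rw [hm]
  have a1 := e1 _ hchi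
  have a2 := e1 _ hchiD
  have a3 := e1 _ heta
  linarith

end scheme

end

end Vale.Agent.P161
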