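import Vale.Agent.P161.Gauss

/-!
Translating a Gaussian product measure: the density is an exponential tilt.
-/

namespace Vale.Agent.P161

open MeasureTheory ProbabilityTheory
open scoped NNReal ENNReal

noncomputable section

/-- The density of `N(h a, h)` with respect to `N(0, h)`. -/
def tiltExp (h a z : ℝ) : ℝ := Real.exp (a * z - h * a ^ 2 / 2)

lemma integrable_tiltExp (h : ℝ≥0) (a : ℝ) : Integrable (fun z => tiltExp h a z) (gl h) := by
  unfold tiltExp
  simp_rw [sub_eq_add_neg, Real.exp_add]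
  exact (integrable_exp_mul_gaussianReal a).mul_const _

lemma integral_exp_mul_gl (h : ℝ≥0) (a : ℝ) :
    ∫ z, Real.exp (a * z) ∂(gl h) = Real.exp (h * a ^ 2 / 2) := by
  have := mgf_gaussianReal (p := gl h) (X := id) (μ := 0) (v := h) (by simp) a
  simpa [mgf] using this

lemma gaussianReal_eq_tilt {h : ℝ≥0} (hh : h ≠ 0) (a : ℝ) :
    gaussianReal (h * a) h = (gl h).withDensity (fun z => ENNReal.ofReal (tiltExp h a z)) := by
  have hm : Measurable fun z => ENNReal.ofReal (tiltExp h a z) := by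
    unfold tiltExp; fun_prop
  unfold gl
  rw [gaussianReal_of_var_ne_zero _ hh, gaussianReal_of_var_ne_zero _ hh,
    ← withDensity_mul _ (measurable_gaussianPDF _ _) hm]
  congr 1
  funext z
  simp only [Pi.mul_apply, gaussianPDF_def]
  rw [← ENNReal.ofReal_mul (gaussianPDFReal_nonneg _ _ _)]
  congr 1
  unfold gaussianPDFReal tiltExp
  rw [mul_assoc (_ : ℝ)⁻¹, ← Real.exp_add]
  congr 2
  have : (h : ℝ) ≠ 0 := by exact_mod_cast hh
  field_simp
  ring

variable {ι : Type*} [Fintype ι]

/-- The product of the tilting densities. -/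
def tiltProd (h : ℝ) (a z : ι → ℝ) : ℝ := ∏ i, tiltExp h (a i) (z i)

lemma tiltProd_pos (h : ℝ) (a z : ι → ℝ) : 0 < tiltProd h a z :=
  Finset.prod_pos fun _ _ => Real.exp_pos _

lemma integrable_tiltProd (h : ℝ≥0) (a : ι → ℝ) :
    Integrable (tiltProd (h : ℝ) a) (Measure.pi fun _ : ι => gl h) :=
  Integrable.fintype_prod (f := fun i z => tiltExp h (a i) z) fun i => integrable_tiltExp h (a i)

lemma pi_gl_map_add {h : ℝ≥0} (hh : h ≠ 0) (a : ι → ℝ) :
    (Measure.pi fun _ : ι => gl h).map (fun z i => z i + h * a i)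
      = (Measure.pi fun _ : ι => gl h).withDensity
          (fun z => ENNReal.ofReal (tiltProd h a z)) := by
  rw [Measure.pi_map_pi (f := fun i z => z + h * a i) (fun i => by fun_prop)]
  refine Measure.pi_eq fun s hs => ?_
  rw [withDensity_apply _ (MeasurableSet.univ_pi hs)]
  rw [← ofReal_integral_eq_lintegral_ofReal (integrable_tiltProd h a).restrict
    (ae_of_all _ fun z => (tiltProd_pos _ _ z).le)]
  rw [Measure.restrict_pi_pi]
  unfold tiltProd
  rw [integral_fintype_prod_eq_prod (fun i z => tiltExp h (a i) z),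
    ENNReal.ofReal_prod_of_nonneg (f := fun i => ∫ z in s i, tiltExp h (a i) z ∂(gl h))
      (fun i _ => integral_nonneg fun z => (Real.exp_pos _).le)]
  refine Finset.prod_congr rfl fun i _ => ?_
  rw [gaussianReal_map_add_const, zero_add, gaussianReal_eq_tilt hh,
    withDensity_apply _ (hs i)]
  exact ofReal_integral_eq_lintegral_ofReal (integrable_tiltExp h (a i)).restrict
    (ae_of_all _ fun z => (Real.exp_pos _).le)

lemma lintegral_shift {h : ℝ≥0} (hh : h ≠ 0) (a : ι → ℝ) {f : (ι → ℝ) → ℝ≥0∞}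
    (hf : Measurable f) :
    ∫⁻ z, f (fun i => z i + h * a i) ∂(Measure.pi fun _ : ι => gl h)
      = ∫⁻ z, ENNReal.ofReal (tiltProd h a z) * f z ∂(Measure.pi fun _ : ι => gl h) := by
  have hm : Measurable fun z : ι → ℝ => ENNReal.ofReal (tiltProd (h:ℝ) a z) := by
    unfold tiltProd tiltExp; fun_prop
  rw [← lintegral_map hf (by fun_prop : Measurable fun (z : ι → ℝ) i => z i + h * a i),
    pi_gl_map_add hh, lintegral_withDensity_eq_lintegral_mul _ hm hf]
  rfl

lemma lintegral_tiltProd_mul {h : ℝ≥0} (hh : h ≠ 0) (a b : ι → ℝ) :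
    ∫⁻ z, ENNReal.ofReal (tiltProd h a z * tiltProd h b z) ∂(Measure.pi fun _ : ι => gl h)
      = ENNReal.ofReal (Real.exp (h * ∑ i, a i * b i)) := by
  have hm : Measurable fun z : ι → ℝ => ENNReal.ofReal (tiltProd (h:ℝ) b z) := by
    unfold tiltProd tiltExp; fun_prop
  simp_rw [ENNReal.ofReal_mul (tiltProd_pos _ a _).le]
  rw [← lintegral_shift hh a hm]
  have hsplit : ∀ z : ι → ℝ, ENNReal.ofReal (tiltProd h b fun i => z i + h * a i)
      = ENNReal.ofReal (Real.exp (h * ∑ i, a i * b i)) * ENNReal.ofReal (tiltProd h b z) := by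
    intro z
    rw [← ENNReal.ofReal_mul (Real.exp_pos _).le]
    congr 1
    unfold tiltProd tiltExp
    rw [Finset.mul_sum, Real.exp_sum, ← Finset.prod_mul_distrib]
    refine Finset.prod_congr rfl fun i _ => ?_
    rw [← Real.exp_add]
    ring_nf
  simp_rw [hsplit]
  rw [lintegral_const_mul _ hm]
  have h1 := lintegral_shift (ι := ι) hh b (f := fun _ => 1) measurable_const
  simp at h1
  rw [← h1, mul_one]

end

end Vale.Agent.P161
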