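import Vale.Agent.P161.Marginal

/-!
Stochastic localisation of an arbitrary finite prior by finitely many linear observations:
the Euler scheme, the posterior, the innovations and their likelihood.
-/

namespace Vale.Agent.P161.Feat

open MeasureTheory ProbabilityTheory Finset Function
open scoped NNReal ENNReal

noncomputable section

/-- A finite prior together with the features that are observed. -/
structure Sys (ι Ω : Type*) where
  /-- prior weights -/
  p : Ω → ℝ
  /-- observed features -/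
  f : ι → Ω → ℝ
  p_pos : ∀ ω, 0 < p ω

variable {ι Ω : Type*} [Fintype ι] [Fintype Ω] (M : Sys ι Ω)

/-- Unnormalised posterior weight at time `t` given the observation `y`. -/
def fw (t : ℝ) (y : ι → ℝ) (ω : Ω) : ℝ :=
  M.p ω * Real.exp (∑ i, (y i * M.f i ω - t * M.f i ω ^ 2 / 2))

/-- The posterior. -/
def post (t : ℝ) (y : ι → ℝ) (ω : Ω) : ℝ := fw M t y ω / ∑ ω', fw M t y ω'

/-- Posterior expectation. -/
def pm (t : ℝ) (y : ι → ℝ) (g : Ω → ℝ) : ℝ := ∑ ω, post M t y ω * g ω

/-- Posterior mean of the features. -/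
def pmean (t : ℝ) (y : ι → ℝ) (i : ι) : ℝ := pm M t y (M.f i)

/-- One step of the scheme. -/
def next (h t : ℝ) (y z : ι → ℝ) (i : ι) : ℝ := y i + h * pmean M t y i + z i

/-- The Euler scheme started at time `t` from `y`. -/
def path (h t : ℝ) (y : ι → ℝ) (z : ℕ → ι → ℝ) : ℕ → ι → ℝ
  | 0 => y
  | j + 1 => next M h (t + j * h) (path h t y z j) (z j)

/-- The planted observation after `j` steps. -/
def planted (h : ℝ) (y : ι → ℝ) (ω : Ω) (ξ : ℕ → ι → ℝ) (j : ℕ) (i : ι) : ℝ :=
  y i + j * h * M.f i ω + ∑ k ∈ Finset.range j, ξ k i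

/-- The innovations of the planted observation. -/
def innov (h t : ℝ) (y : ι → ℝ) (ω : Ω) (ξ : ℕ → ι → ℝ) (j : ℕ) (i : ι) : ℝ :=
  ξ j i + h * (M.f i ω - pmean M (t + j * h) (planted M h y ω ξ j) i)

/-- The one-step likelihood ratio. -/
def qstep (h t : ℝ) (y z : ι → ℝ) : ℝ :=
  ∑ ω, post M t y ω * tiltProd h (fun i => M.f i ω - pmean M t y i) z

/-- The likelihood ratio of the innovations. -/
def lik (h : ℝ) : (N : ℕ) → ℝ → (ι → ℝ) → (Fin N → ι → ℝ) → ℝ
  | 0, _, _, _ => 1
  | N + 1, t, y, z =>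
      qstep M h t y (z 0) * lik h N (t + h) (next M h t y (z 0)) (fun k => z k.succ)

/-- Extension by zero from `Fin N`. -/
def ext {N : ℕ} (z : Fin N → ι → ℝ) (j : ℕ) : ι → ℝ := if h : j < N then z ⟨j, h⟩ else 0

/-- The law of the noise. -/
def nl (h : ℝ≥0) (N : ℕ) (ι : Type*) [Fintype ι] : Measure (Fin N → ι → ℝ) :=
  Measure.pi fun _ => Measure.pi fun _ => gl h

instance (h : ℝ≥0) (N : ℕ) : IsProbabilityMeasure (nl h N ι) := by
  unfold nl; infer_instance

/-- The restriction to the first `k` steps. -/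
def first {k N : ℕ} (hk : k ≤ N) (z : Fin N → ι → ℝ) : Fin k → ι → ℝ :=
  fun j => z (Fin.castLE hk j)

variable {M}

omit [Fintype ι] [Fintype Ω] in
lemma ext_apply {N : ℕ} (z : Fin N → ι → ℝ) {j : ℕ} (hj : j < N) : ext z j = z ⟨j, hj⟩ := by
  simp [ext, hj]

omit [Fintype ι] [Fintype Ω] in
lemma ext_val {N : ℕ} (z : Fin N → ι → ℝ) (j : Fin N) : ext z j.1 = z j := ext_apply z j.2

omit [Fintype ι] [Fintype Ω] in
lemma ext_succ {N : ℕ} (z : Fin (N + 1) → ι → ℝ) (j : ℕ) :
    ext (fun k : Fin N => z k.succ) j = ext z (j + 1) := by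
  unfold ext
  by_cases h : j < N
  · rw [dif_pos h, dif_pos (by omega)]; rfl
  · rw [dif_neg h, dif_neg (by omega)]

omit [Fintype ι] [Fintype Ω] in
lemma ext_first {k N : ℕ} (hk : k ≤ N) (z : Fin N → ι → ℝ) {j : ℕ} (hj : j < k) :
    ext (first hk z) j = ext z j := by
  rw [ext_apply _ hj, ext_apply _ (lt_of_lt_of_le hj hk)]
  rfl

omit [Fintype ι] [Fintype Ω] in
lemma measurable_ext {N : ℕ} (j : ℕ) (i : ι) : Measurable fun z : Fin N → ι → ℝ => ext z j i := by
  unfold ext
  split_ifs with h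
  · exact (measurable_pi_apply i).comp (measurable_pi_apply (⟨j, h⟩ : Fin N))
  · exact measurable_const

omit [Fintype ι] [Fintype Ω] in
lemma measurable_first {k N : ℕ} (hk : k ≤ N) :
    Measurable (first (ι := ι) hk) := by
  unfold first; fun_prop

omit [Fintype Ω] in
lemma first_preserving {k N : ℕ} (hk : k ≤ N) (h : ℝ≥0) :
    MeasurePreserving (first (ι := ι) hk) (nl h N ι) (nl h k ι) :=
  pi_comp_inj _ (Fin.castLE_injective hk)

omit [Fintype Ω] in
lemma fw_pos (t : ℝ) (y : ι → ℝ) (ω : Ω) : 0 < fw M t y ω :=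
  mul_pos (M.p_pos ω) (Real.exp_pos _)

lemma sum_fw_pos [Nonempty Ω] (t : ℝ) (y : ι → ℝ) : 0 < ∑ ω, fw M t y ω :=
  Finset.sum_pos (fun ω _ => fw_pos t y ω) Finset.univ_nonempty

lemma post_pos [Nonempty Ω] (t : ℝ) (y : ι → ℝ) (ω : Ω) : 0 < post M t y ω :=
  div_pos (fw_pos t y ω) (sum_fw_pos t y)

lemma post_nonneg [Nonempty Ω] (t : ℝ) (y : ι → ℝ) (ω : Ω) : 0 ≤ post M t y ω :=
  (post_pos t y ω).le

lemma sum_post [Nonempty Ω] (t : ℝ) (y : ι → ℝ) : ∑ ω, post M t y ω = 1 := by
  unfold post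
  rw [← Finset.sum_div, div_self (sum_fw_pos t y).ne']

lemma post_zero (ω : Ω) : post M 0 0 ω = M.p ω / ∑ ω', M.p ω' := by
  simp [post, fw]

lemma abs_pm_le [Nonempty Ω] (t : ℝ) (y : ι → ℝ) {g : Ω → ℝ} {B : ℝ} (hg : ∀ ω, |g ω| ≤ B) :
    |pm M t y g| ≤ B := by
  refine (Finset.abs_sum_le_sum_abs _ _).trans ?_
  calc ∑ ω, |post M t y ω * g ω| ≤ ∑ ω, post M t y ω * B :=
        Finset.sum_le_sum fun ω _ => by
          rw [abs_mul, abs_of_nonneg (post_nonneg t y ω)]
          exact mul_le_mul_of_nonneg_left (hg ω) (post_nonneg t y ω)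
    _ = B := by rw [← Finset.sum_mul, sum_post, one_mul]

lemma pm_const [Nonempty Ω] (t : ℝ) (y : ι → ℝ) (c : ℝ) : pm M t y (fun _ => c) = c := by
  rw [pm, ← Finset.sum_mul, sum_post, one_mul]

lemma continuous_post [Nonempty Ω] (ω : Ω) :
    Continuous fun p : ℝ × (ι → ℝ) => post M p.1 p.2 ω := by
  unfold post fw
  refine Continuous.div ?_ ?_ fun p => (sum_fw_pos (M := M) p.1 p.2).ne'
  · fun_prop
  · fun_prop

lemma measurable_post [Nonempty Ω] {α : Type*} [MeasurableSpace α] (t : ℝ) {Y : α → ι → ℝ}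
    (hY : Measurable Y) (ω : Ω) : Measurable fun a => post M t (Y a) ω :=
  ((continuous_post ω).comp (continuous_const.prodMk continuous_id)).measurable.comp hY

lemma measurable_pm [Nonempty Ω] {α : Type*} [MeasurableSpace α] (t : ℝ) {Y : α → ι → ℝ}
    (hY : Measurable Y) (g : Ω → ℝ) : Measurable fun a => pm M t (Y a) g :=
  Finset.measurable_sum _ fun ω _ => (measurable_post t hY ω).mul_const _

lemma measurable_next [Nonempty Ω] {α : Type*} [MeasurableSpace α] (h t : ℝ) {Y Z : α → ι → ℝ}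
    (hY : Measurable Y) (hZ : Measurable Z) : Measurable fun a => next M h t (Y a) (Z a) :=
  measurable_pi_lambda _ fun i =>
    (((measurable_pi_apply i).comp hY).add
      (measurable_const.mul (measurable_pm t hY (M.f i)))).add ((measurable_pi_apply i).comp hZ)

lemma measurable_qstep [Nonempty Ω] {α : Type*} [MeasurableSpace α] (h t : ℝ) {Y Z : α → ι → ℝ}
    (hY : Measurable Y) (hZ : Measurable Z) : Measurable fun a => qstep M h t (Y a) (Z a) := by
  unfold qstep
  refine Finset.measurable_sum _ fun ω _ => (measurable_post t hY ω).mul ?_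
  unfold tiltProd
  refine Finset.measurable_prod _ fun i _ => ?_
  have h1 : Measurable fun a => M.f i ω - pmean M t (Y a) i :=
    measurable_const.sub (measurable_pm t hY _)
  unfold tiltExp
  exact ((h1.mul ((measurable_pi_apply i).comp hZ)).sub
    ((measurable_const.mul (h1.pow_const 2)).div_const 2)).exp

lemma measurable_lik [Nonempty Ω] (h : ℝ) :
    ∀ (N : ℕ) (t : ℝ) {α : Type*} [MeasurableSpace α] {Y : α → ι → ℝ}, Measurable Y →
      ∀ {Z : α → Fin N → ι → ℝ}, Measurable Z →
      Measurable fun a => lik M h N t (Y a) (Z a) := by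
  intro N
  induction N with
  | zero => intro t α _ Y _ Z _; exact measurable_const
  | succ N ih =>
    intro t α _ Y hY Z hZ
    have h0 : Measurable fun a => Z a 0 := (measurable_pi_apply _).comp hZ
    exact (measurable_qstep h t hY h0).mul
      (ih (t + h) (measurable_next h t hY h0)
        (measurable_pi_lambda _ fun i => (measurable_pi_apply i.succ).comp hZ))

lemma measurable_path [Nonempty Ω] {α : Type*} [MeasurableSpace α] (h t : ℝ) {Y : α → ι → ℝ}
    (hY : Measurable Y) {Z : α → ℕ → ι → ℝ} (hZ : ∀ j, Measurable fun a => Z a j) :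
    ∀ j, Measurable fun a => path M h t (Y a) (Z a) j := by
  intro j
  induction j with
  | zero => exact hY
  | succ j ih => exact measurable_next h _ ih (hZ j)

omit [Fintype ι] [Fintype Ω] in
lemma measurable_ext' {N : ℕ} (j : ℕ) : Measurable fun z : Fin N → ι → ℝ => ext z j :=
  measurable_pi_lambda _ fun i => measurable_ext j i

omit [Fintype ι] [Fintype Ω] in
lemma measurable_planted {N : ℕ} (h : ℝ) (y : ι → ℝ) (ω : Ω) (j : ℕ) :
    Measurable fun ξ : Fin N → ι → ℝ => planted M h y ω (ext ξ) j :=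
  measurable_pi_lambda _ fun i =>
    measurable_const.add (Finset.measurable_sum _ fun k _ => measurable_ext k i)

lemma measurable_innov [Nonempty Ω] {N : ℕ} (h t : ℝ) (y : ι → ℝ) (ω : Ω) (j : ℕ) :
    Measurable fun ξ : Fin N → ι → ℝ => innov M h t y ω (ext ξ) j :=
  measurable_pi_lambda _ fun i => (measurable_ext j i).add
    (measurable_const.mul (measurable_const.sub (measurable_pm _ (measurable_planted h y ω j) _)))

lemma path_congr (h t : ℝ) (y : ι → ℝ) {z z' : ℕ → ι → ℝ} :
    ∀ j, (∀ k < j, z k = z' k) → path M h t y z j = path M h t y z' j := by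
  intro j
  induction j with
  | zero => exact fun _ => rfl
  | succ j ih =>
    intro hz
    simp only [path]
    rw [ih fun k hk => hz k (by omega), hz j (by omega)]

lemma path_shift (h t : ℝ) (y : ι → ℝ) (z : ℕ → ι → ℝ) :
    ∀ j, path M h t y z (j + 1)
      = path M h (t + h) (next M h t y (z 0)) (fun k => z (k + 1)) j := by
  intro j
  induction j with
  | zero => simp [path]
  | succ j ih =>
    rw [path, ih, path]
    congr 1
    push_cast
    ring

lemma path_innov (h t : ℝ) (y : ι → ℝ) (ω : Ω) (ξ : ℕ → ι → ℝ) {z : ℕ → ι → ℝ} :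
    ∀ j, (∀ k < j, z k = innov M h t y ω ξ k) →
      path M h t y z j = planted M h y ω ξ j := by
  intro j
  induction j with
  | zero => intro _; funext i; simp [path, planted]
  | succ j ih =>
    intro hz
    simp only [path]
    rw [ih fun k hk => hz k (by omega), hz j (by omega)]
    funext i
    simp only [next, innov, planted, Finset.sum_range_succ]
    push_cast
    ring

lemma post_step [Nonempty Ω] (h t : ℝ) (y z : ι → ℝ) (ω : Ω) :
    post M t y ω * tiltProd h (fun i => M.f i ω - pmean M t y i) z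
      = qstep M h t y z * post M (t + h) (next M h t y z) ω := by
  set y1 := next M h t y z with hy1
  set K := Real.exp (∑ i, (-(pmean M t y i) * z i - h * pmean M t y i ^ 2 / 2)) with hK
  have key : ∀ ω', fw M t y ω' * tiltProd h (fun i => M.f i ω' - pmean M t y i) z
      = K * fw M (t + h) y1 ω' := by
    intro ω'
    unfold fw tiltProd tiltExp
    rw [← Real.exp_sum, mul_assoc, ← Real.exp_add, mul_left_comm, hK, ← Real.exp_add]
    congr 2
    rw [← Finset.sum_add_distrib, ← Finset.sum_add_distrib]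
    refine Finset.sum_congr rfl fun i _ => ?_
    rw [hy1, next]
    ring
  have hq : qstep M h t y z * (∑ ω', fw M t y ω') = K * ∑ ω', fw M (t + h) y1 ω' := by
    unfold qstep post
    rw [Finset.sum_mul, Finset.mul_sum]
    refine Finset.sum_congr rfl fun ω' _ => ?_
    rw [← key ω']
    have := (sum_fw_pos (M := M) t y).ne'
    field_simp
  have h1 := (sum_fw_pos (M := M) t y).ne'
  have h2 := (sum_fw_pos (M := M) (t + h) y1).ne'
  unfold post
  rw [div_mul_eq_mul_div, key ω, mul_div_assoc', div_eq_div_iff h1 h2]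
  linear_combination (-(fw M (t + h) y1 ω)) * hq

lemma qstep_nonneg [Nonempty Ω] (h t : ℝ) (y z : ι → ℝ) : 0 ≤ qstep M h t y z :=
  Finset.sum_nonneg fun ω _ => mul_nonneg (post_nonneg t y ω) (tiltProd_pos _ _ _).le

lemma qstep_pos [Nonempty Ω] (h t : ℝ) (y z : ι → ℝ) : 0 < qstep M h t y z :=
  Finset.sum_pos (fun ω _ => mul_pos (post_pos t y ω) (tiltProd_pos _ _ _)) Finset.univ_nonempty

lemma lik_pos [Nonempty Ω] (h : ℝ) :
    ∀ (N : ℕ) (t : ℝ) (y : ι → ℝ) (z : Fin N → ι → ℝ), 0 < lik M h N t y z := by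
  intro N
  induction N with
  | zero => intro t y z; exact zero_lt_one
  | succ N ih => exact fun t y z => mul_pos (qstep_pos h t y _) (ih _ _ _)

lemma lik_nonneg [Nonempty Ω] (h : ℝ) (N : ℕ) (t : ℝ) (y : ι → ℝ) (z : Fin N → ι → ℝ) :
    0 ≤ lik M h N t y z :=
  (lik_pos h N t y z).le

lemma lik_snoc (h : ℝ) :
    ∀ (N : ℕ) (t : ℝ) (y : ι → ℝ) (z : Fin (N + 1) → ι → ℝ),
      lik M h (N + 1) t y z = lik M h N t y (first (Nat.le_succ N) z)
        * qstep M h (t + N * h) (path M h t y (ext z) N) (z (Fin.last N)) := by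
  intro N
  induction N with
  | zero => intro t y z; simp [lik, path]
  | succ N ih =>
    intro t y z
    rw [lik, ih, lik, ← mul_assoc, path_shift]
    have e1 : (fun k => ext z (k + 1)) = ext (fun k : Fin (N + 1) => z k.succ) :=
      funext fun k => (ext_succ z k).symm
    rw [e1, ext_apply z (Nat.succ_pos _)]
    congr 1
    congr 1
    push_cast
    ring

/-- Change of variables from planted innovations to Gaussian noise, with the posterior. -/
theorem planted_change [Nonempty Ω] {h : ℝ≥0} (hh : h ≠ 0) :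
    ∀ (N : ℕ) (t : ℝ) (y : ι → ℝ) (F : Ω → (Fin N → ι → ℝ) → ℝ≥0∞),
      (∀ ω, Measurable (F ω)) →
      ∑ ω, ENNReal.ofReal (post M t y ω) *
          ∫⁻ ξ, F ω (fun k => innov M h t y ω (ext ξ) k) ∂(nl h N ι)
        = ∫⁻ z, ENNReal.ofReal (lik M h N t y z) *
            ∑ ω, ENNReal.ofReal (post M (t + N * h) (path M h t y (ext z) N) ω) * F ω z
            ∂(nl h N ι) := by
  intro N
  induction N with
  | zero =>
    intro t y F hF
    have : ∀ a b : Fin 0 → ι → ℝ, a = b := fun a b => funext fun i => i.elim0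
    simp only [lik, path, ENNReal.ofReal_one, one_mul, Nat.cast_zero, zero_mul, add_zero]
    rw [lintegral_finsetSum _ fun ω _ => (hF ω).const_mul _]
    refine Finset.sum_congr rfl fun ω _ => ?_
    rw [lintegral_const_mul _ (hF ω)]
    congr 1
    exact lintegral_congr fun ξ => congrArg (F ω) (this _ _)
  | succ N ih =>
    intro t y F hF
    set ρ := Measure.pi fun _ : ι => gl h with hρ
    set e := MeasurableEquiv.piFinSuccAbove (fun _ : Fin (N+1) => ι → ℝ) 0 with he
    have hmp : MeasurePreserving e (nl h (N+1) ι) (ρ.prod (nl h N ι)) := by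
      unfold nl; exact measurePreserving_piFinSuccAbove (fun _ => ρ) 0
    have hes : ∀ x r, e.symm (x, r) = Fin.cons x r := fun x r => by
      rw [he]; simp [MeasurableEquiv.piFinSuccAbove_symm_apply]
      rfl
    have cons_meas : Measurable fun p : (ι → ℝ) × (Fin N → ι → ℝ) =>
        (Fin.cons p.1 p.2 : Fin (N+1) → ι → ℝ) := by
      rw [show (fun p : (ι → ℝ) × (Fin N → ι → ℝ) => (Fin.cons p.1 p.2 : Fin (N+1) → ι → ℝ))
        = e.symm from funext fun p => (hes p.1 p.2).symm]
      exact e.symm.measurable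
    have split : ∀ Φ : (Fin (N+1) → ι → ℝ) → ℝ≥0∞, Measurable Φ →
        ∫⁻ z, Φ z ∂(nl h (N+1) ι) = ∫⁻ x, ∫⁻ r, Φ (Fin.cons x r) ∂(nl h N ι) ∂ρ := by
      intro Φ hΦ
      rw [← lintegral_prod (fun p => Φ (Fin.cons p.1 p.2))
        ((hΦ.comp cons_meas).aemeasurable)]
      rw [← hmp.lintegral_comp_emb e.measurableEmbedding (fun p => Φ (Fin.cons p.1 p.2))]
      refine lintegral_congr fun z => ?_
      have := hes (e z).1 (e z).2
      rw [Prod.mk.eta, e.symm_apply_apply] at this
      exact congrArg Φ this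
    set a : Ω → ι → ℝ := fun ω i => M.f i ω - pmean M t y i with ha
    set y1 : (ι → ℝ) → ι → ℝ := fun x => next M h t y x with hy1
    have my1 : Measurable y1 :=
      measurable_next (Y := fun _ => y) (h : ℝ) t measurable_const measurable_id
    set Gf : Ω → (ι → ℝ) → ℝ≥0∞ := fun ω x =>
      ∫⁻ r, F ω (Fin.cons x (fun k : Fin N => innov M h (t + h) (y1 x) ω (ext r) k)) ∂(nl h N ι)
      with hGf
    have minnov : ∀ ω, Measurable fun p : (ι → ℝ) × (Fin N → ι → ℝ) =>
        fun k : Fin N => innov M h (t + h) (y1 p.1) ω (ext p.2) k := by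
      intro ω
      refine measurable_pi_lambda _ fun k => measurable_pi_lambda _ fun i => ?_
      refine ((measurable_ext k.1 i).comp measurable_snd).add
        (measurable_const.mul (measurable_const.sub
          (measurable_pm _ (measurable_pi_lambda _ fun w => ?_) _)))
      exact ((((measurable_pi_apply w).comp my1).comp measurable_fst).add measurable_const).add
        (Finset.measurable_sum _ fun l _ => (measurable_ext l w).comp measurable_snd)
    have mGf : ∀ ω, Measurable (Gf ω) := fun ω =>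
      Measurable.lintegral_prod_right'
        (f := fun p : (ι → ℝ) × (Fin N → ι → ℝ) =>
          F ω (Fin.cons p.1 (fun k : Fin N => innov M h (t + h) (y1 p.1) ω (ext p.2) k)))
        ((hF ω).comp (cons_meas.comp (measurable_fst.prodMk (minnov ω))))
    have mres : ∀ ω, Measurable fun ξ : Fin (N+1) → ι → ℝ =>
        fun k : Fin (N+1) => innov M h t y ω (ext ξ) k := fun ω =>
      measurable_pi_lambda _ fun k => measurable_innov _ t y ω k
    have key : ∀ ω x r,
        (fun k : Fin (N+1) => innov M h t y ω (ext (Fin.cons x r : Fin (N+1) → ι → ℝ)) k)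
          = Fin.cons (fun i => x i + h * a ω i)
              (fun k : Fin N => innov M h (t + h) (y1 fun i => x i + h * a ω i) ω (ext r) k) := by
      intro ω x r
      funext k i
      have e0 : ext (Fin.cons x r : Fin (N+1) → ι → ℝ) 0 = x := by
        rw [ext_apply _ (Nat.succ_pos _)]; rfl
      have es : ∀ l, ext (Fin.cons x r : Fin (N+1) → ι → ℝ) (l + 1) = ext r l := fun l => by
        rw [← ext_succ]; simp
      induction k using Fin.cases with
      | zero =>
        simp only [Fin.cons_zero, Fin.val_zero, innov, ha, Nat.cast_zero, zero_mul, add_zero]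
        rw [e0]
        have : planted M (h:ℝ) y ω (ext (Fin.cons x r : Fin (N+1) → ι → ℝ)) 0 = y := by
          funext w; simp [planted]
        rw [this]
      | succ k =>
        simp only [Fin.cons_succ, Fin.val_succ, innov]
        rw [es]
        congr 3
        congr 1
        · push_cast; ring
        · funext w
          simp only [planted, hy1, next, ha]
          rw [Finset.sum_range_succ', e0]
          simp only [es]
          push_cast
          ring
    have lhs : ∀ ω,
        ∫⁻ ξ, F ω (fun k => innov M h t y ω (ext ξ) k) ∂(nl h (N+1) ι)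
          = ∫⁻ x, ENNReal.ofReal (tiltProd h (a ω) x) * Gf ω x ∂ρ := by
      intro ω
      rw [split (fun ξ => F ω (fun k => innov M h t y ω (ext ξ) k)) ((hF ω).comp (mres ω))]
      simp_rw [key ω]
      exact lintegral_shift (ι := ι) hh (a ω) (mGf ω)
    simp_rw [lhs]
    have mT : ∀ ω, Measurable fun x : ι → ℝ =>
        ENNReal.ofReal (tiltProd (h:ℝ) (a ω) x) * Gf ω x := fun ω => by
      refine Measurable.mul ?_ (mGf ω)
      unfold tiltProd tiltExp
      fun_prop
    calc ∑ ω, ENNReal.ofReal (post M t y ω) *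
          ∫⁻ x, ENNReal.ofReal (tiltProd h (a ω) x) * Gf ω x ∂ρ
        = ∫⁻ x, ∑ ω, ENNReal.ofReal (post M t y ω) *
            (ENNReal.ofReal (tiltProd h (a ω) x) * Gf ω x) ∂ρ := by
          rw [lintegral_finsetSum _ fun ω _ => (mT ω).const_mul _]
          exact Finset.sum_congr rfl fun ω _ => (lintegral_const_mul _ (mT ω)).symm
      _ = ∫⁻ x, ENNReal.ofReal (qstep M h t y x) *
            ∑ ω, ENNReal.ofReal (post M (t + h) (y1 x) ω) * Gf ω x ∂ρ := by
          refine lintegral_congr fun x => ?_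
          rw [Finset.mul_sum]
          refine Finset.sum_congr rfl fun ω _ => ?_
          rw [← mul_assoc, ← mul_assoc, ← ENNReal.ofReal_mul (post_nonneg t y ω),
            ← ENNReal.ofReal_mul (qstep_nonneg _ t y x), post_step (h : ℝ) t y x ω]
      _ = _ := ?_
    have mpath : Measurable fun z : Fin (N+1) → ι → ℝ => path M h t y (ext z) (N+1) :=
      measurable_path (Y := fun _ => y) (h : ℝ) t measurable_const
        (fun j => measurable_ext' j) (N+1)
    have mlik : Measurable fun z : Fin (N+1) → ι → ℝ => lik M h (N+1) t y z :=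
      measurable_lik (Y := fun _ : Fin (N+1) → ι → ℝ => y) (h : ℝ) (N+1) t
        measurable_const measurable_id
    have mrhs : Measurable fun z : Fin (N+1) → ι → ℝ =>
        ENNReal.ofReal (lik M h (N+1) t y z) * ∑ ω,
          ENNReal.ofReal (post M (t + (N+1 : ℕ) * h) (path M h t y (ext z) (N+1)) ω) * F ω z :=
      mlik.ennreal_ofReal.mul (Finset.measurable_sum _ fun ω _ =>
        (measurable_post _ mpath ω).ennreal_ofReal.mul (hF ω))
    rw [split _ mrhs]
    refine lintegral_congr fun x => ?_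
    rw [hGf]
    rw [ih (t + h) (y1 x) (fun ω r => F ω (Fin.cons x r))
      (fun ω => (hF ω).comp (cons_meas.comp measurable_prodMk_left)),
      ← lintegral_const_mul' _ _ ENNReal.ofReal_ne_top]
    refine lintegral_congr fun r => ?_
    have e0 : ext (Fin.cons x r : Fin (N+1) → ι → ℝ) 0 = x := by
      rw [ext_apply _ (Nat.succ_pos _)]; rfl
    have es : (fun l => ext (Fin.cons x r : Fin (N+1) → ι → ℝ) (l + 1)) = ext r := by
      funext l; rw [← ext_succ]; simp
    have et : t + ((N + 1 : ℕ) : ℝ) * h = t + h + N * h := by push_cast; ring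
    rw [path_shift, e0, es, et, ← mul_assoc, lik,
      ENNReal.ofReal_mul (qstep_nonneg _ t y _)]
    simp [hy1]

lemma lintegral_qstep_sq [Nonempty Ω] {h : ℝ≥0} (hh : h ≠ 0) {F : ℝ}
    (hF : ∀ i ω, |M.f i ω| ≤ F) (hsmall : (h : ℝ) * (4 * F ^ 2 * Fintype.card ι) ≤ 1)
    (t : ℝ) (y : ι → ℝ) :
    ∫⁻ z, ENNReal.ofReal (qstep M h t y z ^ 2) ∂(Measure.pi fun _ : ι => gl h)
      ≤ ENNReal.ofReal (1 + ((h : ℝ) * (4 * F ^ 2 * Fintype.card ι)) ^ 2) := by
  set a : Ω → ι → ℝ := fun ω i => M.f i ω - pmean M t y i with ha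
  set p := post M t y with hp
  have hexp : ∀ z, ENNReal.ofReal (qstep M h t y z ^ 2)
      = ∑ ω, ∑ ω', ENNReal.ofReal (p ω * p ω') *
          ENNReal.ofReal (tiltProd h (a ω) z * tiltProd h (a ω') z) := by
    intro z
    unfold qstep
    rw [sq, Finset.sum_mul_sum, ENNReal.ofReal_sum_of_nonneg fun ω _ =>
      Finset.sum_nonneg fun ω' _ => mul_nonneg
        (mul_nonneg (post_nonneg t y ω) (tiltProd_pos _ _ _).le)
        (mul_nonneg (post_nonneg t y ω') (tiltProd_pos _ _ _).le)]
    refine Finset.sum_congr rfl fun ω _ => ?_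
    rw [ENNReal.ofReal_sum_of_nonneg fun ω' _ => mul_nonneg
        (mul_nonneg (post_nonneg t y ω) (tiltProd_pos _ _ _).le)
        (mul_nonneg (post_nonneg t y ω') (tiltProd_pos _ _ _).le)]
    refine Finset.sum_congr rfl fun ω' _ => ?_
    rw [← ENNReal.ofReal_mul (mul_nonneg (post_nonneg t y ω) (post_nonneg t y ω'))]
    congr 1
    simp only [ha]
    ring
  simp_rw [hexp]
  have mt : ∀ b b' : ι → ℝ, Measurable fun z =>
      ENNReal.ofReal (tiltProd (h:ℝ) b z * tiltProd (h:ℝ) b' z) := fun b b' => by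
    unfold tiltProd tiltExp; fun_prop
  rw [lintegral_finsetSum _ fun ω _ => Finset.measurable_sum _ fun ω' _ =>
    (mt (a ω) (a ω')).const_mul _]
  simp_rw [lintegral_finsetSum _ fun ω' _ => (mt (a _) (a ω')).const_mul _,
    lintegral_const_mul _ (mt (a _) (a _)), lintegral_tiltProd_mul hh]
  have hp0 : ∀ ω, 0 ≤ p ω := post_nonneg t y
  simp_rw [← ENNReal.ofReal_mul (mul_nonneg (hp0 _) (hp0 _))]
  simp_rw [← ENNReal.ofReal_sum_of_nonneg (fun ω' _ =>
    mul_nonneg (mul_nonneg (hp0 _) (hp0 ω')) (Real.exp_pos _).le)]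
  rw [← ENNReal.ofReal_sum_of_nonneg (fun ω _ => Finset.sum_nonneg fun ω' _ =>
    mul_nonneg (mul_nonneg (hp0 ω) (hp0 ω')) (Real.exp_pos _).le)]
  refine ENNReal.ofReal_le_ofReal ?_
  set K := 4 * F ^ 2 * (Fintype.card ι : ℝ) with hK
  have hab : ∀ ω ω', |∑ i, a ω i * a ω' i| ≤ K := by
    intro ω ω'
    refine (Finset.abs_sum_le_sum_abs _ _).trans ?_
    refine (Finset.sum_le_sum (g := fun _ => 4 * F ^ 2) fun i _ => ?_).trans_eq
      (by simp [hK]; ring)
    have hb : ∀ ω, |a ω i| ≤ 2 * F := fun ω => by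
      refine (abs_sub _ _).trans ?_
      have h2 : |pmean M t y i| ≤ F := abs_pm_le t y (hF i)
      linarith [hF i ω]
    rw [abs_mul]
    nlinarith [hb ω, hb ω', abs_nonneg (a ω i), abs_nonneg (a ω' i)]
  calc ∑ ω, ∑ ω', p ω * p ω' * Real.exp (h * ∑ i, a ω i * a ω' i)
      ≤ ∑ ω, ∑ ω', (p ω * p ω' * (1 + ((h:ℝ) * K) ^ 2)
          + (h:ℝ) * ∑ i, (p ω * a ω i) * (p ω' * a ω' i)) := by
        refine Finset.sum_le_sum fun ω _ => Finset.sum_le_sum fun ω' _ => ?_
        have hx : |(h:ℝ) * ∑ i, a ω i * a ω' i| ≤ (h:ℝ) * K := by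
          rw [abs_mul, abs_of_nonneg h.coe_nonneg]
          exact mul_le_mul_of_nonneg_left (hab ω ω') h.coe_nonneg
        have he := exp_le_quadratic (hx.trans hsmall)
        have hsq : ((h:ℝ) * ∑ i, a ω i * a ω' i) ^ 2 ≤ ((h:ℝ) * K) ^ 2 := by
          rw [← sq_abs]
          exact pow_le_pow_left₀ (abs_nonneg _) hx 2
        have hs : ∑ i, (p ω * a ω i) * (p ω' * a ω' i)
            = p ω * p ω' * ∑ i, a ω i * a ω' i := by
          rw [Finset.mul_sum]; exact Finset.sum_congr rfl fun i _ => by ring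
        rw [hs]
        calc p ω * p ω' * Real.exp (h * ∑ i, a ω i * a ω' i)
            ≤ p ω * p ω' * (1 + (h:ℝ) * (∑ i, a ω i * a ω' i) + ((h:ℝ) * K) ^ 2) :=
              mul_le_mul_of_nonneg_left (by linarith) (mul_nonneg (hp0 ω) (hp0 ω'))
          _ = _ := by ring
    _ = _ := by
        have h1 : ∑ ω, p ω = 1 := sum_post t y
        have h2 : ∀ i, ∑ ω, p ω * a ω i = 0 := fun i => by
          simp only [ha, mul_sub, Finset.sum_sub_distrib]
          rw [← Finset.sum_mul, h1, one_mul]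
          exact sub_self _
        simp only [Finset.sum_add_distrib, ← Finset.sum_mul, ← Finset.mul_sum, h1, mul_one,
          one_mul]
        have h3 : ∑ ω, ∑ ω', ∑ i, p ω * a ω i * (p ω' * a ω' i) = 0 := by
          refine (Finset.sum_congr rfl fun ω _ => Finset.sum_comm).trans ?_
          refine Finset.sum_eq_zero fun ω _ => Finset.sum_eq_zero fun i _ => ?_
          rw [← Finset.mul_sum, h2 i, mul_zero]
        rw [h3]
        ring

theorem lintegral_lik_sq [Nonempty Ω] {h : ℝ≥0} (hh : h ≠ 0) {F : ℝ}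
    (hF : ∀ i ω, |M.f i ω| ≤ F) (hsmall : (h : ℝ) * (4 * F ^ 2 * Fintype.card ι) ≤ 1) :
    ∀ (N : ℕ) (t : ℝ) (y : ι → ℝ),
      ∫⁻ z, ENNReal.ofReal (lik M h N t y z ^ 2) ∂(nl h N ι)
        ≤ ENNReal.ofReal ((1 + ((h : ℝ) * (4 * F ^ 2 * Fintype.card ι)) ^ 2) ^ N) := by
  set K := (1 : ℝ) + ((h : ℝ) * (4 * F ^ 2 * Fintype.card ι)) ^ 2 with hK
  intro N
  induction N with
  | zero => intro t y; simp [lik]
  | succ N ih =>
    intro t y
    set ρ := Measure.pi fun _ : ι => gl h with hρ
    set e := MeasurableEquiv.piFinSuccAbove (fun _ : Fin (N+1) => ι → ℝ) 0 with he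
    have hmp : MeasurePreserving e (nl h (N+1) ι) (ρ.prod (nl h N ι)) := by
      unfold nl; exact measurePreserving_piFinSuccAbove (fun _ => ρ) 0
    have hes : ∀ z : Fin (N+1) → ι → ℝ, e z = (z 0, fun i => z i.succ) := fun z => by
      rw [he]; simp [MeasurableEquiv.piFinSuccAbove_apply]
      rfl
    set Φ : (ι → ℝ) × (Fin N → ι → ℝ) → ℝ≥0∞ := fun p =>
      ENNReal.ofReal ((qstep M h t y p.1
        * lik M h N (t + h) (next M h t y p.1) p.2) ^ 2) with hΦ
    have m1 : Measurable fun p : (ι → ℝ) × (Fin N → ι → ℝ) => qstep M h t y p.1 :=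
      measurable_qstep (Y := fun _ => y) (h : ℝ) t measurable_const measurable_fst
    have m2 : Measurable fun p : (ι → ℝ) × (Fin N → ι → ℝ) =>
        lik M h N (t + h) (next M h t y p.1) p.2 :=
      measurable_lik (h : ℝ) N (t + h)
        (measurable_next (Y := fun _ => y) (h : ℝ) t measurable_const measurable_fst) measurable_snd
    have mΦ : Measurable Φ := ((m1.mul m2).pow_const 2).ennreal_ofReal
    have : ∀ z, ENNReal.ofReal (lik M h (N+1) t y z ^ 2) = Φ (e z) := fun z => by
      rw [hes]; rfl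
    simp_rw [this]
    rw [hmp.lintegral_comp mΦ, lintegral_prod _ mΦ.aemeasurable]
    calc ∫⁻ x, ∫⁻ r, Φ (x, r) ∂(nl h N ι) ∂ρ
        ≤ ∫⁻ x, ENNReal.ofReal (qstep M h t y x ^ 2) * ENNReal.ofReal (K ^ N) ∂ρ := by
          refine lintegral_mono fun x => ?_
          simp only [hΦ, mul_pow, ENNReal.ofReal_mul (sq_nonneg (qstep M h t y x))]
          rw [lintegral_const_mul' _ _ ENNReal.ofReal_ne_top]
          exact mul_le_mul' le_rfl (ih _ _)
      _ = (∫⁻ x, ENNReal.ofReal (qstep M h t y x ^ 2) ∂ρ) * ENNReal.ofReal (K ^ N) :=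
          lintegral_mul_const' _ _ ENNReal.ofReal_ne_top
      _ ≤ _ := by
          rw [pow_succ' K, ENNReal.ofReal_mul (by positivity)]
          exact mul_le_mul' (lintegral_qstep_sq hh hF hsmall t y) le_rfl

end

end Vale.Agent.P161.Feat
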