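import Vale.Agent.P161.FeatPath

/-!
The planted model of a finite prior with linear observations: change of variables,
closeness of the innovations to noise, the tower property and the martingale identities.
-/

namespace Vale.Agent.P161.Feat

open MeasureTheory ProbabilityTheory Finset Function
open scoped NNReal ENNReal

noncomputable section

variable {ι Ω : Type*} [Fintype ι] [Fintype Ω] (M : Sys ι Ω)

/-- Expectation in the planted model with `N` noise increments. -/
def ex (h : ℝ≥0) (N : ℕ) (F : Ω → (Fin N → ι → ℝ) → ℝ) : ℝ :=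
  ∑ ω, post M 0 0 ω * ∫ ξ, F ω ξ ∂(nl h N ι)

/-- The innovations as a point of the noise space. -/
def inn (h : ℝ≥0) {N : ℕ} (ω : Ω) (ξ : Fin N → ι → ℝ) : Fin N → ι → ℝ :=
  fun k => innov M h 0 0 ω (ext ξ) k

/-- The observation after `j` steps. -/
def obs (h : ℝ≥0) {N : ℕ} (ω : Ω) (ξ : Fin N → ι → ℝ) (j : ℕ) : ι → ℝ :=
  planted M h 0 ω (ext ξ) j

/-- The Euler scheme driven by a point of the noise space. -/
def eul (h : ℝ≥0) {N : ℕ} (z : Fin N → ι → ℝ) (j : ℕ) : ι → ℝ := path M h 0 0 (ext z) j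

/-- The posterior expectation at step `j` along the planted observation. -/
def pmo (h : ℝ≥0) {N : ℕ} (g : Ω → ℝ) (ω : Ω) (ξ : Fin N → ι → ℝ) (j : ℕ) : ℝ :=
  pm M (j * h) (obs M h ω ξ j) g

variable {M} {h : ℝ≥0} {N : ℕ}

lemma measurable_inn [Nonempty Ω] (ω : Ω) :
    Measurable fun ξ : Fin N → ι → ℝ => inn M h ω ξ :=
  measurable_pi_lambda _ fun k => measurable_innov _ _ _ ω k

omit [Fintype ι] [Fintype Ω] in
lemma measurable_obs (ω : Ω) (j : ℕ) : Measurable fun ξ : Fin N → ι → ℝ => obs M h ω ξ j :=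
  measurable_planted _ _ ω j

lemma measurable_eul [Nonempty Ω] (j : ℕ) :
    Measurable fun z : Fin N → ι → ℝ => eul M h z j :=
  measurable_path (Y := fun _ => (0 : ι → ℝ)) (h : ℝ) 0 measurable_const
    (fun k => measurable_ext' k) j

lemma measurable_pmo [Nonempty Ω] (g : Ω → ℝ) (ω : Ω) (j : ℕ) :
    Measurable fun ξ : Fin N → ι → ℝ => pmo M h g ω ξ j :=
  measurable_pm _ (measurable_obs ω j) g

lemma abs_pmo_le [Nonempty Ω] {g : Ω → ℝ} {B : ℝ} (hg : ∀ ω, |g ω| ≤ B) (ω : Ω)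
    (ξ : Fin N → ι → ℝ) (j : ℕ) : |pmo M h g ω ξ j| ≤ B :=
  abs_pm_le _ _ hg

lemma eul_inn (ω : Ω) (ξ : Fin N → ι → ℝ) {j : ℕ} (hj : j ≤ N) :
    eul M h (inn M h ω ξ) j = obs M h ω ξ j :=
  path_innov (h : ℝ) 0 0 ω (ext ξ) j fun k hk => by
    rw [ext_apply _ (lt_of_lt_of_le hk hj)]; rfl

lemma eul_first {k : ℕ} (hk : k ≤ N) (z : Fin N → ι → ℝ) {j : ℕ} (hj : j ≤ k) :
    eul M h (first hk z) j = eul M h z j :=
  path_congr _ _ _ j fun _ hl => ext_first hk z (lt_of_lt_of_le hl hj)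

omit [Fintype ι] [Fintype Ω] in
lemma obs_first {k : ℕ} (hk : k ≤ N) (ω : Ω) (ξ : Fin N → ι → ℝ) {j : ℕ} (hj : j ≤ k) :
    obs M h ω (first hk ξ) j = obs M h ω ξ j := by
  funext i
  simp only [obs, planted]
  congr 1
  exact Finset.sum_congr rfl fun l hl => by
    rw [ext_first hk ξ (lt_of_lt_of_le (Finset.mem_range.1 hl) hj)]

lemma inn_first {k : ℕ} (hk : k ≤ N) (ω : Ω) (ξ : Fin N → ι → ℝ) :
    inn M h ω (first hk ξ) = first hk (inn M h ω ξ) := by
  funext j i
  have e : obs M h ω (first hk ξ) j.1 = obs M h ω ξ j.1 := obs_first hk ω ξ j.2.le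
  simp only [obs] at e
  show innov M h 0 0 ω (ext (first hk ξ)) j.1 i = innov M h 0 0 ω (ext ξ) (Fin.castLE hk j).1 i
  simp only [innov, Fin.val_castLE]
  rw [e, ext_first hk ξ j.2]

lemma ex_congr {F G : Ω → (Fin N → ι → ℝ) → ℝ} (hFG : ∀ ω ξ, F ω ξ = G ω ξ) :
    ex M h N F = ex M h N G := by
  rw [show F = G from funext fun ω => funext (hFG ω)]

lemma ex_mono [Nonempty Ω] {F G : Ω → (Fin N → ι → ℝ) → ℝ}
    (hF : ∀ ω, Integrable (F ω) (nl h N ι)) (hG : ∀ ω, Integrable (G ω) (nl h N ι))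
    (hle : ∀ ω ξ, F ω ξ ≤ G ω ξ) : ex M h N F ≤ ex M h N G :=
  Finset.sum_le_sum fun ω _ =>
    mul_le_mul_of_nonneg_left (integral_mono (hF ω) (hG ω) (hle ω)) (post_nonneg 0 0 ω)

lemma ex_nonneg [Nonempty Ω] {F : Ω → (Fin N → ι → ℝ) → ℝ} (hle : ∀ ω ξ, 0 ≤ F ω ξ) :
    0 ≤ ex M h N F :=
  Finset.sum_nonneg fun ω _ => mul_nonneg (post_nonneg 0 0 ω) (integral_nonneg (hle ω))

lemma ex_add {F G : Ω → (Fin N → ι → ℝ) → ℝ}
    (hF : ∀ ω, Integrable (F ω) (nl h N ι)) (hG : ∀ ω, Integrable (G ω) (nl h N ι)) :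
    ex M h N (fun ω ξ => F ω ξ + G ω ξ) = ex M h N F + ex M h N G := by
  unfold ex
  rw [← Finset.sum_add_distrib]
  exact Finset.sum_congr rfl fun ω _ => by rw [integral_add (hF ω) (hG ω), mul_add]

lemma ex_const_mul (c : ℝ) (F : Ω → (Fin N → ι → ℝ) → ℝ) :
    ex M h N (fun ω ξ => c * F ω ξ) = c * ex M h N F := by
  unfold ex
  rw [Finset.mul_sum]
  exact Finset.sum_congr rfl fun ω _ => by rw [integral_const_mul]; ring

lemma ex_sub {F G : Ω → (Fin N → ι → ℝ) → ℝ}
    (hF : ∀ ω, Integrable (F ω) (nl h N ι)) (hG : ∀ ω, Integrable (G ω) (nl h N ι)) :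
    ex M h N (fun ω ξ => F ω ξ - G ω ξ) = ex M h N F - ex M h N G := by
  unfold ex
  rw [← Finset.sum_sub_distrib]
  exact Finset.sum_congr rfl fun ω _ => by rw [integral_sub (hF ω) (hG ω), mul_sub]

lemma ex_const [Nonempty Ω] (c : ℝ) : ex M h N (fun _ _ => c) = c := by
  unfold ex
  simp [← Finset.sum_mul, sum_post]

lemma ex_sum {κ : Type*} (s : Finset κ) {F : κ → Ω → (Fin N → ι → ℝ) → ℝ}
    (hF : ∀ c ∈ s, ∀ ω, Integrable (F c ω) (nl h N ι)) :
    ex M h N (fun ω ξ => ∑ c ∈ s, F c ω ξ) = ∑ c ∈ s, ex M h N (F c) := by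
  unfold ex
  rw [Finset.sum_comm]
  refine Finset.sum_congr rfl fun ω _ => ?_
  rw [integral_finsetSum _ fun c hc => hF c hc ω, Finset.mul_sum]

/-- Only the first `k` increments matter for a functional of them. -/
lemma ex_first {k : ℕ} (hk : k ≤ N) {F : Ω → (Fin k → ι → ℝ) → ℝ}
    (hF : ∀ ω, Measurable (F ω)) :
    ex M h N (fun ω ξ => F ω (first hk ξ)) = ex M h k F := by
  unfold ex
  refine Finset.sum_congr rfl fun ω _ => ?_
  rw [← (first_preserving hk h).map_eq,
    integral_map (measurable_first hk).aemeasurable (hF ω).aestronglyMeasurable]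

lemma measurable_lik' [Nonempty Ω] :
    Measurable fun z : Fin N → ι → ℝ => lik M h N 0 0 z :=
  measurable_lik (Y := fun _ : Fin N → ι → ℝ => (0 : ι → ℝ)) (h : ℝ) N 0
    measurable_const measurable_id

lemma lintegral_lik [Nonempty Ω] (hh : h ≠ 0) :
    ∫⁻ z, ENNReal.ofReal (lik M h N 0 0 z) ∂(nl h N ι) = 1 := by
  have := planted_change (M := M) hh N 0 0 (fun _ _ => 1) (fun _ => measurable_const)
  simp only [lintegral_one, measure_univ, mul_one] at this
  have hs : ∀ t y, ∑ ω, ENNReal.ofReal (post M t y ω) = 1 := fun t y => by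
    rw [← ENNReal.ofReal_sum_of_nonneg fun ω _ => post_nonneg t y ω, sum_post,
      ENNReal.ofReal_one]
  simp only [hs, mul_one] at this
  exact this.symm

lemma integrable_lik [Nonempty Ω] (hh : h ≠ 0) :
    Integrable (fun z => lik M h N 0 0 z) (nl h N ι) :=
  ⟨measurable_lik'.aestronglyMeasurable, by
    rw [hasFiniteIntegral_iff_ofReal (ae_of_all _ fun z => lik_nonneg _ N 0 0 z),
      lintegral_lik hh]
    exact ENNReal.one_lt_top⟩

lemma integral_lik [Nonempty Ω] (hh : h ≠ 0) : ∫ z, lik M h N 0 0 z ∂(nl h N ι) = 1 := by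
  rw [integral_eq_lintegral_of_nonneg_ae (ae_of_all _ fun z => lik_nonneg _ N 0 0 z)
    measurable_lik'.aestronglyMeasurable, lintegral_lik hh]
  simp

lemma sum_post_mul_le [Nonempty Ω] (t : ℝ) (y : ι → ℝ) {g : Ω → ℝ} {B : ℝ}
    (hg : ∀ ω, |g ω| ≤ B) : |∑ ω, post M t y ω * g ω| ≤ B :=
  abs_pm_le t y hg

/-- Change of variables, for bounded real functions. -/
theorem planted_eq [Nonempty Ω] (hh : h ≠ 0) (F : Ω → (Fin N → ι → ℝ) → ℝ)
    (hF : ∀ ω, Measurable (F ω)) {B : ℝ} (hb : ∀ ω z, |F ω z| ≤ B) :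
    ex M h N (fun ω ξ => F ω (inn M h ω ξ))
      = ∫ z, lik M h N 0 0 z * pm M (N * h) (eul M h z N) (fun ω => F ω z) ∂(nl h N ι) := by
  have mpm : ∀ (G : Ω → (Fin N → ι → ℝ) → ℝ), (∀ ω, Measurable (G ω)) →
      Measurable fun z => pm M (N * h) (eul M h z N) (fun ω => G ω z) := fun G hG =>
    Finset.measurable_sum _ fun ω _ => (measurable_post _ (measurable_eul N) ω).mul (hG ω)
  have pos : ∀ (G : Ω → (Fin N → ι → ℝ) → ℝ), (∀ ω, Measurable (G ω)) →
      ∀ C : ℝ, (∀ ω z, 0 ≤ G ω z ∧ G ω z ≤ C) →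
      ex M h N (fun ω ξ => G ω (inn M h ω ξ))
        = ∫ z, lik M h N 0 0 z * pm M (N * h) (eul M h z N) (fun ω => G ω z) ∂(nl h N ι) := by
    intro G hG C hC
    have hgi : ∀ ω, Integrable (fun ξ => G ω (inn M h ω ξ)) (nl h N ι) := fun ω =>
      integrable_of_bdd (B := C) ((hG ω).comp (measurable_inn ω)) fun ξ => by
        rw [abs_of_nonneg (hC _ _).1]; exact (hC _ _).2
    have hsum0 : ∀ z, 0 ≤ pm M (N * h) (eul M h z N) (fun ω => G ω z) := fun z =>
      Finset.sum_nonneg fun ω _ => mul_nonneg (post_nonneg _ _ ω) (hC ω z).1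
    have key := planted_change (M := M) hh N 0 0 (fun ω z => ENNReal.ofReal (G ω z))
      (fun ω => (hG ω).ennreal_ofReal)
    simp only [zero_add] at key
    have l1 : ∀ ω, ENNReal.ofReal (post M 0 0 ω) *
        ∫⁻ ξ, ENNReal.ofReal (G ω (fun k => innov M h 0 0 ω (ext ξ) k)) ∂(nl h N ι)
        = ENNReal.ofReal (post M 0 0 ω * ∫ ξ, G ω (inn M h ω ξ) ∂(nl h N ι)) := fun ω => by
      rw [ENNReal.ofReal_mul (post_nonneg 0 0 ω),
        ofReal_integral_eq_lintegral_ofReal (hgi ω) (ae_of_all _ fun ξ => (hC _ _).1)]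
      rfl
    have l2 : ∀ z, ENNReal.ofReal (lik M h N 0 0 z) * ∑ ω,
        ENNReal.ofReal (post M (N * h) (path M h 0 0 (ext z) N) ω) * ENNReal.ofReal (G ω z)
        = ENNReal.ofReal (lik M h N 0 0 z *
            pm M (N * h) (eul M h z N) (fun ω => G ω z)) := fun z => by
      rw [ENNReal.ofReal_mul (lik_nonneg _ N 0 0 z), pm,
        ENNReal.ofReal_sum_of_nonneg fun ω _ => mul_nonneg (post_nonneg _ _ ω) (hC ω z).1]
      congr 1
      exact Finset.sum_congr rfl fun ω _ => (ENNReal.ofReal_mul (post_nonneg _ _ ω)).symm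
    simp only [l1, l2] at key
    have iR : Integrable (fun z => lik M h N 0 0 z *
        pm M (N * h) (eul M h z N) (fun ω => G ω z)) (nl h N ι) := by
      refine (integrable_lik (M := M) hh).mul_bdd (c := C) (mpm G hG).aestronglyMeasurable
        (ae_of_all _ fun z => ?_)
      rw [Real.norm_eq_abs]
      exact abs_pm_le _ _ fun ω => by rw [abs_of_nonneg (hC ω z).1]; exact (hC ω z).2
    rw [← ofReal_integral_eq_lintegral_ofReal iR
      (ae_of_all _ fun z => mul_nonneg (lik_nonneg _ N 0 0 z) (hsum0 z)),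
      ← ENNReal.ofReal_sum_of_nonneg fun ω _ => mul_nonneg (post_nonneg 0 0 ω)
        (integral_nonneg fun ξ => (hC _ _).1)] at key
    exact (ENNReal.ofReal_eq_ofReal_iff
      (ex_nonneg fun ω ξ => (hC _ _).1)
      (integral_nonneg fun z => mul_nonneg (lik_nonneg _ N 0 0 z) (hsum0 z))).1 key
  have hBf := pos (fun ω z => F ω z + B) (fun ω => (hF ω).add_const B) (B + B) fun ω z => by
    have := abs_le.1 (hb ω z); constructor <;> linarith
  have hfi : ∀ ω, Integrable (fun ξ => F ω (inn M h ω ξ)) (nl h N ι) := fun ω =>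
    integrable_of_bdd (B := B) ((hF ω).comp (measurable_inn ω)) fun ξ => hb _ _
  rw [ex_add (F := fun ω ξ => F ω (inn M h ω ξ)) (G := fun _ _ => B) hfi
    (fun _ => integrable_const _), ex_const] at hBf
  have hs : ∀ z, pm M (N * h) (eul M h z N) (fun ω => F ω z + B)
      = pm M (N * h) (eul M h z N) (fun ω => F ω z) + B := fun z => by
    simp only [pm, mul_add, Finset.sum_add_distrib, ← Finset.sum_mul, sum_post, one_mul]
  simp only [hs, mul_add (lik M (h:ℝ) N 0 0 _)] at hBf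
  have i1 : Integrable (fun z => lik M h N 0 0 z *
      pm M (N * h) (eul M h z N) (fun ω => F ω z)) (nl h N ι) :=
    (integrable_lik (M := M) hh).mul_bdd (c := B) (mpm F hF).aestronglyMeasurable
      (ae_of_all _ fun z => by rw [Real.norm_eq_abs]; exact abs_pm_le _ _ fun ω => hb ω z)
  rw [integral_add i1 ((integrable_lik hh).mul_const B), integral_mul_const, integral_lik hh]
    at hBf
  linarith

/-- Change of variables, for a functional of the innovations alone. -/
theorem planted_eq' [Nonempty Ω] (hh : h ≠ 0) {ψ : (Fin N → ι → ℝ) → ℝ} (hψ : Measurable ψ)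
    {B : ℝ} (hb : ∀ z, |ψ z| ≤ B) :
    ex M h N (fun ω ξ => ψ (inn M h ω ξ)) = ∫ z, lik M h N 0 0 z * ψ z ∂(nl h N ι) := by
  rw [planted_eq hh (fun _ z => ψ z) (fun _ => hψ) (fun _ z => hb z)]
  simp only [pm_const]

/-- The `χ²` budget. -/
def chi (ι : Type*) [Fintype ι] (F : ℝ) (h : ℝ≥0) (N : ℕ) : ℝ :=
  (1 + ((h : ℝ) * (4 * F ^ 2 * Fintype.card ι)) ^ 2) ^ N - 1

/-- The planted innovations are close to Gaussian noise. -/
theorem planted_close [Nonempty Ω] (hh : h ≠ 0) {F : ℝ} (hF : ∀ i ω, |M.f i ω| ≤ F)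
    (hsmall : (h : ℝ) * (4 * F ^ 2 * Fintype.card ι) ≤ 1)
    {ψ : (Fin N → ι → ℝ) → ℝ} (hψ : Measurable ψ) (hb : ∀ z, |ψ z| ≤ 2) {ε : ℝ} (hε : 0 < ε) :
    |ex M h N (fun ω ξ => ψ (inn M h ω ξ)) - ∫ z, ψ z ∂(nl h N ι)|
      ≤ chi ι F h N / ε + ε := by
  rw [planted_eq' hh hψ hb]
  have iψ : Integrable ψ (nl h N ι) := integrable_of_bdd hψ hb
  have iL := integrable_lik (M := M) (N := N) hh
  have iLψ : Integrable (fun z => lik M h N 0 0 z * ψ z) (nl h N ι) :=
    iL.mul_bdd (c := 2) hψ.aestronglyMeasurable (ae_of_all _ hb)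
  have mL2 : Measurable fun z : Fin N → ι → ℝ => lik M h N 0 0 z ^ 2 :=
    measurable_lik'.pow_const 2
  have hl2 := lintegral_lik_sq (M := M) hh hF hsmall N 0 0
  have iL2 : Integrable (fun z => lik M h N 0 0 z ^ 2) (nl h N ι) :=
    ⟨mL2.aestronglyMeasurable, by
      rw [hasFiniteIntegral_iff_ofReal (ae_of_all _ fun z => sq_nonneg _)]
      exact lt_of_le_of_lt hl2 ENNReal.ofReal_lt_top⟩
  have hL2 : ∫ z, lik M h N 0 0 z ^ 2 ∂(nl h N ι) ≤ 1 + chi ι F h N := by
    rw [chi, add_sub_cancel,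
      integral_eq_lintegral_of_nonneg_ae (ae_of_all _ fun z => sq_nonneg _)
        mL2.aestronglyMeasurable]
    exact ENNReal.toReal_le_of_le_ofReal (by positivity) hl2
  rw [← integral_sub iLψ iψ]
  refine abs_integral_le_integral_abs.trans ?_
  have iA : Integrable (fun z => lik M h N 0 0 z ^ 2 / ε) (nl h N ι) := iL2.div_const ε
  have iB : Integrable (fun z => 2 * lik M h N 0 0 z / ε) (nl h N ι) :=
    (iL.const_mul 2).div_const ε
  have iAB : Integrable (fun z => lik M h N 0 0 z ^ 2 / ε - 2 * lik M h N 0 0 z / ε)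
      (nl h N ι) := iA.sub iB
  calc ∫ z, |lik M h N 0 0 z * ψ z - ψ z| ∂(nl h N ι)
      ≤ ∫ z, (lik M h N 0 0 z ^ 2 / ε - 2 * lik M h N 0 0 z / ε + (1 / ε + ε))
          ∂(nl h N ι) := by
        refine integral_mono (iLψ.sub iψ).abs (iAB.add (integrable_const _)) fun z => ?_
        simp only
        set L := lik M h N 0 0 z
        rw [show L * ψ z - ψ z = (L - 1) * ψ z by ring, abs_mul]
        have e : L ^ 2 / ε - 2 * L / ε + (1 / ε + ε) = (|L - 1| ^ 2 + ε ^ 2) / ε := by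
          rw [sq_abs]; field_simp; ring
        rw [e, le_div_iff₀ hε]
        nlinarith [hb z, sq_nonneg (|L - 1| - ε), abs_nonneg (L - 1),
          mul_nonneg (abs_nonneg (L - 1)) hε.le]
    _ = (∫ z, lik M h N 0 0 z ^ 2 ∂(nl h N ι)) / ε
          - 2 * (∫ z, lik M h N 0 0 z ∂(nl h N ι)) / ε + (1 / ε + ε) := by
        rw [integral_add iAB (integrable_const _), integral_sub iA iB, integral_div,
          integral_div, integral_const_mul]
        simp
    _ ≤ chi ι F h N / ε + ε := by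
        rw [integral_lik hh]
        have : (∫ z, lik M h N 0 0 z ^ 2 ∂(nl h N ι)) / ε ≤ (1 + chi ι F h N) / ε :=
          div_le_div_of_nonneg_right hL2 hε.le
        rw [add_div] at this
        have e2 : 2 * (1:ℝ) / ε = 1 / ε + 1 / ε := by ring
        rw [e2]
        linarith

/-- The posterior at step `k` is the conditional law given the first `k` innovations. -/
theorem planted_tower [Nonempty Ω] (hh : h ≠ 0) {k : ℕ} (hk : k ≤ N) (g : Ω → ℝ)
    {Φ : (Fin k → ι → ℝ) → ℝ} (hΦ : Measurable Φ) {B : ℝ} (hb : ∀ z, |Φ z| ≤ B) :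
    ex M h N (fun ω ξ => g ω * Φ (first hk (inn M h ω ξ)))
      = ex M h N (fun ω ξ => pmo M h g ω ξ k * Φ (first hk (inn M h ω ξ))) := by
  obtain ⟨C, hC⟩ : ∃ C, ∀ ω, |g ω| ≤ C :=
    ⟨∑ ω, |g ω|, fun ω =>
      Finset.single_le_sum (fun ω _ => abs_nonneg (g ω)) (Finset.mem_univ ω)⟩
  have l : ex M h N (fun ω ξ => g ω * Φ (first hk (inn M h ω ξ)))
      = ex M h k (fun ω ξ => g ω * Φ (inn M h ω ξ)) := by
    rw [← ex_first hk (F := fun ω ξ => g ω * Φ (inn M h ω ξ))
      fun ω => measurable_const.mul (hΦ.comp (measurable_inn ω))]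
    simp only [inn_first]
  have r : ex M h N (fun ω ξ => pmo M h g ω ξ k * Φ (first hk (inn M h ω ξ)))
      = ex M h k (fun ω ξ => pmo M h g ω ξ k * Φ (inn M h ω ξ)) := by
    rw [← ex_first hk (F := fun ω ξ => pmo M h g ω ξ k * Φ (inn M h ω ξ))
      fun ω => (measurable_pmo g ω k).mul (hΦ.comp (measurable_inn ω))]
    simp only [inn_first, pmo, obs_first hk _ _ le_rfl]
  have r2 : ex M h k (fun ω ξ => pmo M h g ω ξ k * Φ (inn M h ω ξ))
      = ex M h k (fun ω ξ => (fun z => pm M (k * h) (eul M h z k) g * Φ z) (inn M h ω ξ)) :=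
    ex_congr fun ω ξ => by simp only [eul_inn ω ξ le_rfl, pmo]
  have CB : ∀ {a : ℝ}, |a| ≤ C → ∀ z, |a * Φ z| ≤ C * B := fun {a} ha z => by
    rw [abs_mul]
    exact mul_le_mul ha (hb z) (abs_nonneg _) ((abs_nonneg a).trans ha)
  rw [l, r, r2,
    planted_eq hh (fun ω z => g ω * Φ z) (fun ω => measurable_const.mul hΦ)
      (fun ω z => CB (hC ω) z),
    planted_eq' hh (ψ := fun z => pm M (k * h) (eul M h z k) g * Φ z)
      ((measurable_pm _ (measurable_eul k) g).mul hΦ) (fun z => CB (abs_pm_le _ _ hC) z)]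
  refine integral_congr_ae (ae_of_all _ fun z => ?_)
  simp only [pm, ← mul_assoc (post M _ _ _), ← Finset.sum_mul]

/-- The tower property for functionals of the observation at an earlier step. -/
theorem planted_tower_obs [Nonempty Ω] (hh : h ≠ 0) {j k : ℕ} (hjk : j ≤ k) (hk : k ≤ N)
    (g : Ω → ℝ) {φ : (ι → ℝ) → ℝ} (hφ : Measurable φ) {B : ℝ} (hb : ∀ y, |φ y| ≤ B) :
    ex M h N (fun ω ξ => g ω * φ (obs M h ω ξ j))
      = ex M h N (fun ω ξ => pmo M h g ω ξ k * φ (obs M h ω ξ j)) := by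
  have := planted_tower (M := M) hh hk g (Φ := fun z => φ (eul M h z j))
    (hφ.comp (measurable_eul j)) fun z => hb _
  have e : ∀ ω (ξ : Fin N → ι → ℝ), eul M h (first hk (inn M h ω ξ)) j = obs M h ω ξ j :=
    fun ω ξ => by rw [eul_first hk _ hjk, eul_inn ω ξ (hjk.trans hk)]
  simpa only [e] using this

/-- The posterior expectation is a martingale. -/
theorem pmo_martingale [Nonempty Ω] (hh : h ≠ 0) {j k : ℕ} (hjk : j ≤ k) (hk : k ≤ N)
    (g : Ω → ℝ) {φ : (ι → ℝ) → ℝ} (hφ : Measurable φ) {B : ℝ} (hb : ∀ y, |φ y| ≤ B) :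
    ex M h N (fun ω ξ => pmo M h g ω ξ k * φ (obs M h ω ξ j))
      = ex M h N (fun ω ξ => pmo M h g ω ξ j * φ (obs M h ω ξ j)) := by
  rw [← planted_tower_obs hh hjk hk g hφ hb, ← planted_tower_obs hh le_rfl (hjk.trans hk) g hφ hb]

/-- Orthogonality of the increments of the posterior expectation. -/
theorem pmo_sq_diff [Nonempty Ω] (hh : h ≠ 0) {j k : ℕ} (hjk : j ≤ k) (hk : k ≤ N)
    {g : Ω → ℝ} {B : ℝ} (hg : ∀ ω, |g ω| ≤ B) :
    ex M h N (fun ω ξ => (pmo M h g ω ξ k - pmo M h g ω ξ j) ^ 2)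
      = ex M h N (fun ω ξ => pmo M h g ω ξ k ^ 2)
        - ex M h N (fun ω ξ => pmo M h g ω ξ j ^ 2) := by
  have i : ∀ (a b : ℕ) ω, Integrable (fun ξ => pmo M h g ω ξ a * pmo M h g ω ξ b) (nl h N ι) :=
    fun a b ω => integrable_of_bdd (B := B * B) ((measurable_pmo g ω a).mul (measurable_pmo g ω b))
      fun ξ => by
        rw [abs_mul]
        exact mul_le_mul (abs_pmo_le hg ω ξ a) (abs_pmo_le hg ω ξ b) (abs_nonneg _)
          ((abs_nonneg _).trans (hg ω))
  have e : ex M h N (fun ω ξ => pmo M h g ω ξ k * pmo M h g ω ξ j)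
      = ex M h N (fun ω ξ => pmo M h g ω ξ j * pmo M h g ω ξ j) :=
    pmo_martingale hh hjk hk g (φ := fun y => pm M (j * h) y g)
      (measurable_pm _ measurable_id g) (fun y => abs_pm_le _ _ hg)
  have s : ∀ ω (ξ : Fin N → ι → ℝ), (pmo M h g ω ξ k - pmo M h g ω ξ j) ^ 2
      = pmo M h g ω ξ k * pmo M h g ω ξ k + pmo M h g ω ξ j * pmo M h g ω ξ j
        - 2 * (pmo M h g ω ξ k * pmo M h g ω ξ j) := fun ω ξ => by ring
  simp only [s, pow_two (pmo M h g _ _ _)]
  rw [ex_sub (F := fun ω ξ => pmo M h g ω ξ k * pmo M h g ω ξ k + pmo M h g ω ξ j * pmo M h g ω ξ j)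
      (fun ω => (i k k ω).add (i j j ω)) (fun ω => (i k j ω).const_mul 2),
    ex_add (i k k) (i j j), ex_const_mul, e]
  ring

lemma integral_tiltProd (hh : h ≠ 0) (a : ι → ℝ) :
    ∫ x, tiltProd (h : ℝ) a x ∂(Measure.pi fun _ : ι => gl h) = 1 := by
  have h1 := lintegral_shift (ι := ι) hh a (f := fun _ => 1) measurable_const
  simp only [lintegral_one, measure_univ, mul_one] at h1
  rw [integral_eq_lintegral_of_nonneg_ae (ae_of_all _ fun z => (tiltProd_pos _ a z).le)
    (integrable_tiltProd h a).aestronglyMeasurable, ← h1]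
  simp

lemma integrable_qstep (t : ℝ) (y : ι → ℝ) :
    Integrable (fun x => qstep M h t y x) (Measure.pi fun _ : ι => gl h) :=
  integrable_finsetSum _ fun _ _ => (integrable_tiltProd h _).const_mul _

lemma qstep_mul_pm [Nonempty Ω] (t : ℝ) (y x : ι → ℝ) (g : Ω → ℝ) :
    qstep M h t y x * pm M (t + h) (next M h t y x) g
      = ∑ ω, post M t y ω * g ω * tiltProd (h : ℝ) (fun i => M.f i ω - pmean M t y i) x := by
  rw [pm, Finset.mul_sum]
  refine Finset.sum_congr rfl fun ω _ => ?_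
  rw [← mul_assoc, ← post_step (h : ℝ) t y x ω]
  ring

/-- One step of the martingale property, conditionally on the past. -/
lemma integral_qstep_mul_pm [Nonempty Ω] (hh : h ≠ 0) (t : ℝ) (y : ι → ℝ) (g : Ω → ℝ) :
    ∫ x, qstep M h t y x * pm M (t + h) (next M h t y x) g ∂(Measure.pi fun _ : ι => gl h)
      = pm M t y g := by
  simp only [qstep_mul_pm]
  rw [integral_finsetSum _ fun ω _ => (integrable_tiltProd h _).const_mul _]
  simp only [integral_const_mul, integral_tiltProd hh, mul_one]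
  rfl

/-- Disintegration of the last innovation. -/
theorem planted_step [Nonempty Ω] (hh : h ≠ 0) {F : (Fin N → ι → ℝ) → (ι → ℝ) → ℝ}
    (hF : Measurable fun p : (Fin N → ι → ℝ) × (ι → ℝ) => F p.1 p.2) {B : ℝ}
    (hb : ∀ z x, |F z x| ≤ B) :
    ex M h (N + 1)
        (fun ω ξ => F (first (Nat.le_succ N) (inn M h ω ξ)) (inn M h ω ξ (Fin.last N)))
      = ex M h N (fun ω ξ => ∫ x, qstep M h (N * h) (obs M h ω ξ N) x
          * F (inn M h ω ξ) x ∂(Measure.pi fun _ : ι => gl h)) := by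
  set ρ := Measure.pi fun _ : ι => gl h with hρ
  set P : (Fin N → ι → ℝ) → ℝ := fun z =>
    ∫ x, qstep M h (N * h) (eul M h z N) x * F z x ∂ρ with hP
  have mq : Measurable fun p : (Fin N → ι → ℝ) × (ι → ℝ) =>
      qstep M h (N * h) (eul M h p.1 N) p.2 :=
    measurable_qstep _ _ ((measurable_eul N).comp measurable_fst) measurable_snd
  have mP : Measurable P :=
    ((mq.mul hF).stronglyMeasurable.integral_prod_right' (ν := ρ)).measurable
  have bP : ∀ z, |P z| ≤ B := fun z => by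
    have hint := integrable_qstep (M := M) (h := h) (N * h) (eul M h z N)
    have hz : Measurable (F z) := hF.comp measurable_prodMk_left
    refine abs_integral_le_integral_abs.trans ?_
    calc ∫ x, |qstep M h (N * h) (eul M h z N) x * F z x| ∂ρ
        ≤ ∫ x, qstep M h (N * h) (eul M h z N) x * B ∂ρ := by
          refine integral_mono (hint.mul_bdd (c := B) hz.aestronglyMeasurable
            (ae_of_all _ fun x => by rw [Real.norm_eq_abs]; exact hb z x)).abs
            (hint.mul_const B) fun x => ?_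
          simp only
          rw [abs_mul, abs_of_nonneg (qstep_nonneg _ _ _ x)]
          exact mul_le_mul_of_nonneg_left (hb z x) (qstep_nonneg _ _ _ x)
      _ = B := by
          rw [integral_mul_const]
          have h1 := integral_qstep_mul_pm (M := M) hh (N * h) (eul M h z N) (fun _ => (1:ℝ))
          simp only [pm_const, mul_one] at h1
          rw [h1, one_mul]
  set ψ : (Fin (N + 1) → ι → ℝ) → ℝ := fun z => F (first (Nat.le_succ N) z) (z (Fin.last N))
    with hψ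
  have mψ : Measurable ψ :=
    hF.comp ((measurable_first _).prodMk (measurable_pi_apply (Fin.last N)))
  have lhs : ex M h (N + 1)
        (fun ω ξ => F (first (Nat.le_succ N) (inn M h ω ξ)) (inn M h ω ξ (Fin.last N)))
      = ∫ z, lik M h (N + 1) 0 0 z * ψ z ∂(nl h (N + 1) ι) :=
    planted_eq' hh mψ fun z => hb _ _
  have rhs : ex M h N (fun ω ξ => ∫ x, qstep M h (N * h) (obs M h ω ξ N) x
      * F (inn M h ω ξ) x ∂ρ) = ∫ z, lik M h N 0 0 z * P z ∂(nl h N ι) := by
    rw [← planted_eq' hh mP bP]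
    exact ex_congr fun ω ξ => by simp only [hP, eul_inn ω ξ le_rfl]
  rw [lhs, rhs]
  set e := MeasurableEquiv.piFinSuccAbove (fun _ : Fin (N+1) => ι → ℝ) (Fin.last N) with he
  have hmp : MeasurePreserving e (nl h (N+1) ι) (ρ.prod (nl h N ι)) := by
    unfold nl; exact measurePreserving_piFinSuccAbove (fun _ => ρ) (Fin.last N)
  have hes : ∀ z : Fin (N+1) → ι → ℝ, e z = (z (Fin.last N), first (Nat.le_succ N) z) := fun z => by
    rw [he]; simp [MeasurableEquiv.piFinSuccAbove_apply]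
    funext i
    simp [first, Fin.init]
    rfl
  set Φ : (ι → ℝ) × (Fin N → ι → ℝ) → ℝ := fun p =>
    lik M h N 0 0 p.2 * (qstep M h (N * h) (eul M h p.2 N) p.1 * F p.2 p.1) with hΦ
  have hΦe : ∀ z, lik M h (N + 1) 0 0 z * ψ z = Φ (e z) := fun z => by
    rw [hes, lik_snoc]
    simp only [hΦ, hψ, zero_add, eul_first (Nat.le_succ N) z le_rfl]
    simp only [eul]
    ring
  have iΦ : Integrable (fun z => Φ (e z)) (nl h (N + 1) ι) := by
    simp only [← hΦe]
    exact (integrable_lik hh).mul_bdd (c := B) mψ.aestronglyMeasurable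
      (ae_of_all _ fun z => by rw [Real.norm_eq_abs]; exact hb _ _)
  simp only [hΦe]
  rw [hmp.integral_comp e.measurableEmbedding Φ]
  have iΦ' : Integrable Φ (ρ.prod (nl h N ι)) :=
    (hmp.integrable_comp_emb e.measurableEmbedding).1 iΦ
  rw [integral_prod_symm _ iΦ']
  simp only [hΦ, hP, integral_const_mul]

end

end Vale.Agent.P161.Feat
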