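import Mathlib.Probability.Distributions.Gaussian.Real
import Mathlib.Probability.Moments.Variance
import Mathlib.MeasureTheory.Constructions.Pi
import Mathlib.MeasureTheory.Integral.Prod
import Mathlib.MeasureTheory.Integral.Pi
import Mathlib.Tactic

/-!
Gaussian product measures: the variance bound for coordinatewise Lipschitz functions
(Efron-Stein), resampling, and elementary moments.
-/

namespace Vale.Agent.P161

open MeasureTheory ProbabilityTheory
open scoped NNReal ENNReal

noncomputable section

/-- The centred Gaussian law with variance `h`. -/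
abbrev gl (h : ℝ≥0) : Measure ℝ := gaussianReal 0 h

lemma integrable_id_gl (h : ℝ≥0) : Integrable (fun x : ℝ => x) (gl h) :=
  (memLp_id_gaussianReal' 1 (by simp)).integrable le_rfl

lemma integrable_sq_gl (h : ℝ≥0) : Integrable (fun x : ℝ => x ^ 2) (gl h) :=
  (memLp_id_gaussianReal' 2 (by simp)).integrable_sq

lemma integral_sq_gl (h : ℝ≥0) : ∫ x, x ^ 2 ∂(gl h) = h := by
  have := variance_id_gaussianReal (μ := 0) (v := h)
  rwa [variance_eq_sub (memLp_id_gaussianReal' 2 (by simp)),
    show ∫ x, id x ∂(gaussianReal 0 h) = 0 from integral_id_gaussianReal, zero_pow two_ne_zero,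
    sub_zero] at this

variable {Ω : Type*} [MeasurableSpace Ω] {μ : Measure Ω} [IsProbabilityMeasure μ]

/-- The variance of a bounded function. -/
def qv (μ : Measure Ω) (F : Ω → ℝ) : ℝ := ∫ x, F x ^ 2 ∂μ - (∫ x, F x ∂μ) ^ 2

lemma integrable_of_bdd {F : Ω → ℝ} (hF : Measurable F) {B : ℝ} (hb : ∀ x, |F x| ≤ B) :
    Integrable F μ :=
  Integrable.of_bound hF.aestronglyMeasurable B (ae_of_all _ fun x => by
    rw [Real.norm_eq_abs]; exact hb x)

lemma integrable_sq_of_bdd {F : Ω → ℝ} (hF : Measurable F) {B : ℝ} (hb : ∀ x, |F x| ≤ B) :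
    Integrable (fun x => F x ^ 2) μ :=
  integrable_of_bdd (B := B ^ 2) (hF.pow_const 2) fun x => by
    rw [abs_pow]; exact pow_le_pow_left₀ (abs_nonneg _) (hb x) 2

lemma integral_diff_sq {F : Ω → ℝ} (hF : Measurable F) {B : ℝ} (hb : ∀ x, |F x| ≤ B) :
    ∫ x, ∫ y, (F x - F y) ^ 2 ∂μ ∂μ = 2 * qv μ F := by
  have i1 : Integrable F μ := integrable_of_bdd hF hb
  have i2 : Integrable (fun x => F x ^ 2) μ := integrable_sq_of_bdd hF hb
  have inner : ∀ x, ∫ y, (F x - F y) ^ 2 ∂μ
      = F x ^ 2 - 2 * (∫ y, F y ∂μ) * F x + ∫ y, F y ^ 2 ∂μ := by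
    intro x
    simp only [sub_sq]
    have iA : Integrable (fun y => 2 * F x * F y) μ := i1.const_mul _
    have iB : Integrable (fun y => F x ^ 2 - 2 * F x * F y) μ :=
      Integrable.sub (integrable_const _) iA
    rw [integral_add iB i2, integral_sub (integrable_const _) iA, integral_const_mul]
    simp
    ring
  simp_rw [inner]
  have iA : Integrable (fun x => 2 * (∫ y, F y ∂μ) * F x) μ := i1.const_mul _
  have iB : Integrable (fun x => F x ^ 2 - 2 * (∫ y, F y ∂μ) * F x) μ := i2.sub iA
  rw [integral_add iB (integrable_const _), integral_sub i2 iA, integral_const_mul]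
  simp [qv]
  ring

lemma qv_le_of_lipschitz (h : ℝ≥0) {F : ℝ → ℝ} (hF : Measurable F) {B : ℝ} (hb : ∀ x, |F x| ≤ B)
    {L : ℝ} (hL : ∀ a b, |F a - F b| ≤ L * |a - b|) : qv (gl h) F ≤ L ^ 2 * h := by
  have i1 := integrable_id_gl h
  have i2 := integrable_sq_gl h
  have inner : ∀ x : ℝ, ∫ y, L ^ 2 * (x - y) ^ 2 ∂(gl h) = L ^ 2 * (x ^ 2 + h) := by
    intro x
    rw [integral_const_mul]
    simp only [sub_sq]
    have iA : Integrable (fun y : ℝ => 2 * x * y) (gl h) := i1.const_mul _
    have iB : Integrable (fun y : ℝ => x ^ 2 - 2 * x * y) (gl h) :=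
      Integrable.sub (integrable_const _) iA
    rw [integral_add iB i2, integral_sub (integrable_const _) iA, integral_const_mul,
      integral_sq_gl, integral_id_gaussianReal]
    simp
  have hint : ∀ x : ℝ, Integrable (fun y : ℝ => L ^ 2 * (x - y) ^ 2) (gl h) := fun x => by
    refine Integrable.const_mul ?_ _
    simp only [sub_sq]
    exact ((integrable_const _).sub (i1.const_mul _)).add i2
  have hpt : ∀ x y, (F x - F y) ^ 2 ≤ L ^ 2 * (x - y) ^ 2 := by
    intro x y
    rw [← sq_abs (F x - F y), ← sq_abs (x - y), ← mul_pow]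
    exact pow_le_pow_left₀ (abs_nonneg _) (hL x y) 2
  have hd : ∫ x, ∫ y, (F x - F y) ^ 2 ∂(gl h) ∂(gl h) ≤ 2 * (L ^ 2 * h) := by
    calc ∫ x, ∫ y, (F x - F y) ^ 2 ∂(gl h) ∂(gl h)
        ≤ ∫ x, L ^ 2 * (x ^ 2 + h) ∂(gl h) := by
          refine integral_mono_of_nonneg (ae_of_all _ fun x => integral_nonneg fun y => sq_nonneg _)
            ((i2.add (integrable_const _)).const_mul _) (ae_of_all _ fun x => ?_)
          simp only
          rw [← inner x]
          exact integral_mono_of_nonneg (ae_of_all _ fun y => sq_nonneg _) (hint x)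
            (ae_of_all _ (hpt x))
      _ = 2 * (L ^ 2 * h) := by
          rw [integral_const_mul, integral_add i2 (integrable_const _), integral_sq_gl]
          simp; ring
  rw [integral_diff_sq hF hb] at hd
  linarith

/-- Efron-Stein for coordinatewise Lipschitz functions of independent Gaussians, `Fin n` case. -/
lemma qv_pi_fin (h : ℝ≥0) : ∀ (n : ℕ) {F : (Fin n → ℝ) → ℝ}, Measurable F → ∀ {B : ℝ},
    (∀ x, |F x| ≤ B) → ∀ {L : Fin n → ℝ},
    (∀ i z a b, |F (Function.update z i a) - F (Function.update z i b)| ≤ L i * |a - b|) →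
      qv (Measure.pi fun _ : Fin n => gl h) F ≤ h * ∑ i, L i ^ 2 := by
  intro n
  induction n with
  | zero =>
    intro F _ B _ L _
    have : ∀ x, F x = F default := fun x => congrArg F (Subsingleton.elim _ _)
    simp [qv, this]
  | succ n ih =>
    intro F hF B hb L hL
    set e := MeasurableEquiv.piFinSuccAbove (fun _ : Fin (n+1) => ℝ) 0 with he
    have hmp : MeasurePreserving e (Measure.pi fun _ : Fin (n+1) => gl h)
        ((gl h).prod (Measure.pi fun _ : Fin n => gl h)) :=
      measurePreserving_piFinSuccAbove (fun _ => gl h) 0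
    set ρ := Measure.pi fun _ : Fin n => gl h with hρ
    set G : ℝ → (Fin n → ℝ) → ℝ := fun x r => F (e.symm (x, r)) with hG
    have hes : ∀ x r, e.symm (x, r) = Fin.cons x r := fun x r => by
      rw [he]; simp [MeasurableEquiv.piFinSuccAbove_symm_apply, Fin.insertNth_zero]
      rfl
    have hGm : Measurable fun p : ℝ × (Fin n → ℝ) => G p.1 p.2 := hF.comp e.symm.measurable
    have hGx : ∀ x, Measurable (G x) := fun x => hGm.comp measurable_prodMk_left
    have tr : ∀ Φ : ℝ → ℝ, Measurable Φ → ∀ C : ℝ, (∀ x, |Φ (F x)| ≤ C) →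
        ∫ z, Φ (F z) ∂(Measure.pi fun _ : Fin (n+1) => gl h)
          = ∫ x, ∫ r, Φ (G x r) ∂ρ ∂(gl h) := by
      intro Φ hΦ C hC
      rw [← integral_prod (fun p => Φ (G p.1 p.2))
        (integrable_of_bdd (hΦ.comp hGm) fun p => hC _)]
      rw [← hmp.integral_comp e.measurableEmbedding (fun p => Φ (G p.1 p.2))]
      simp [G]
    set H : ℝ → ℝ := fun x => ∫ r, G x r ∂ρ with hH
    have hHm : Measurable H := (hGm.stronglyMeasurable.integral_prod_right').measurable
    have hHb : ∀ x, |H x| ≤ B := fun x => by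
      have := norm_integral_le_of_norm_le_const (μ := ρ)
        (ae_of_all _ fun r => show ‖G x r‖ ≤ B from hb _)
      simpa using this
    have hHL : ∀ a b, |H a - H b| ≤ L 0 * |a - b| := by
      intro a b
      have hpt : ∀ r, ‖G a r - G b r‖ ≤ L 0 * |a - b| := fun r => by
        have := hL 0 (Fin.cons a r) a b
        rw [Fin.update_cons_zero, Fin.update_cons_zero] at this
        simpa [G, hes] using this
      have := norm_integral_le_of_norm_le_const (μ := ρ) (ae_of_all _ hpt)
      rw [integral_sub (integrable_of_bdd (hGx a) fun r => hb _)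
        (integrable_of_bdd (hGx b) fun r => hb _)] at this
      simpa [H] using this
    have h1 : ∀ x, qv ρ (G x) ≤ h * ∑ i : Fin n, L i.succ ^ 2 := fun x => by
      refine ih (hGx x) (fun r => hb _) fun i z a b => ?_
      have := hL i.succ (Fin.cons x z) a b
      rw [← Fin.cons_update, ← Fin.cons_update] at this
      simpa [G, hes] using this
    have hsq : Measurable fun x => ∫ r, G x r ^ 2 ∂ρ :=
      ((hGm.pow_const 2).stronglyMeasurable.integral_prod_right').measurable
    have hsqb : ∀ x, |∫ r, G x r ^ 2 ∂ρ| ≤ B ^ 2 := fun x => by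
      have := norm_integral_le_of_norm_le_const (μ := ρ)
        (ae_of_all _ fun r => show ‖G x r ^ 2‖ ≤ B ^ 2 by
          rw [Real.norm_eq_abs, abs_pow]; exact pow_le_pow_left₀ (abs_nonneg _) (hb _) 2)
      simpa using this
    have idec : qv (Measure.pi fun _ : Fin (n+1) => gl h) F
        = ∫ x, qv ρ (G x) ∂(gl h) + qv (gl h) H := by
      unfold qv
      rw [tr (fun t => t ^ 2) (measurable_id.pow_const 2) (B ^ 2) (fun x => by
        rw [abs_pow]; exact pow_le_pow_left₀ (abs_nonneg _) (hb x) 2)]
      have := tr id measurable_id B hb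
      simp only [id] at this
      rw [this, integral_sub (integrable_of_bdd hsq hsqb) (integrable_sq_of_bdd hHm hHb)]
      ring
    have h2 : ∫ x, qv ρ (G x) ∂(gl h) ≤ h * ∑ i : Fin n, L i.succ ^ 2 := by
      calc ∫ x, qv ρ (G x) ∂(gl h) ≤ ∫ _x, h * ∑ i : Fin n, L i.succ ^ 2 ∂(gl h) :=
            integral_mono (μ := gl h)
              (show Integrable (fun x => qv ρ (G x)) (gl h) from
                (integrable_of_bdd hsq hsqb).sub (integrable_sq_of_bdd hHm hHb))
              (integrable_const _) h1
        _ = _ := by simp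
    have h3 := qv_le_of_lipschitz h hHm hHb hHL
    rw [idec, Fin.sum_univ_succ]
    linarith

/-- Efron-Stein: the mean squared difference of two independent copies. -/
theorem efron_stein {ι : Type*} [Fintype ι] [DecidableEq ι] (h : ℝ≥0) {F : (ι → ℝ) → ℝ} (hF : Measurable F)
    {B : ℝ} (hb : ∀ x, |F x| ≤ B) {L : ι → ℝ}
    (hL : ∀ i z a b, |F (Function.update z i a) - F (Function.update z i b)| ≤ L i * |a - b|) :
    ∫ z, ∫ z', (F z - F z') ^ 2 ∂(Measure.pi fun _ : ι => gl h) ∂(Measure.pi fun _ : ι => gl h)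
      ≤ 2 * h * ∑ i, L i ^ 2 := by
  rw [integral_diff_sq hF hb, mul_assoc]
  refine mul_le_mul_of_nonneg_left ?_ zero_le_two
  set e := Fintype.equivFin ι
  set T := MeasurableEquiv.piCongrLeft (fun _ : ι => ℝ) e.symm
  have hT : MeasurePreserving T (Measure.pi fun _ : Fin (Fintype.card ι) => gl h)
      (Measure.pi fun _ : ι => gl h) := measurePreserving_piCongrLeft (fun _ => gl h) e.symm
  have happ : ∀ x i, T x i = x (e i) := fun x i => by
    have : i = e.symm (e i) := (e.symm_apply_apply i).symm
    conv_lhs => rw [this]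
    exact MeasurableEquiv.piCongrLeft_apply_apply (e := e.symm) (β := fun _ : ι => ℝ) x (e i)
  have hq : qv (Measure.pi fun _ : ι => gl h) F
      = qv (Measure.pi fun _ : Fin (Fintype.card ι) => gl h) (F ∘ T) := by
    unfold qv
    rw [← hT.integral_comp T.measurableEmbedding (fun x => F x ^ 2),
      ← hT.integral_comp T.measurableEmbedding F]
    rfl
  rw [hq]
  refine (qv_pi_fin h _ (hF.comp T.measurable) (fun x => hb _) (L := fun j => L (e.symm j))
    fun j z a b => ?_).trans_eq ?_
  · have hu : ∀ c, T (Function.update z j c) = Function.update (T z) (e.symm j) c := by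
      intro c
      funext i
      rw [happ]
      by_cases hi : i = e.symm j
      · subst hi; simp
      · have : e i ≠ j := fun hh => hi (by rw [← hh, e.symm_apply_apply])
        rw [Function.update_of_ne this, Function.update_of_ne hi, happ]
    simp only [Function.comp_apply, hu]
    exact hL _ _ a b
  · rw [Equiv.sum_comp e.symm (fun i => L i ^ 2)]

/-- Resampling some of the coordinates preserves a product law. -/
lemma mix_preserving {ι : Type*} [Fintype ι] {X : ι → Type*} [∀ i, MeasurableSpace (X i)]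
    (μ : ∀ i, Measure (X i)) [∀ i, IsProbabilityMeasure (μ i)] (keep : ι → Prop) [DecidablePred keep] :
    MeasurePreserving (fun p : (∀ i, X i) × (∀ i, X i) => fun i => if keep i then p.1 i else p.2 i)
      ((Measure.pi μ).prod (Measure.pi μ)) (Measure.pi μ) := by
  have hm : Measurable
      (fun p : (∀ i, X i) × (∀ i, X i) => fun i => if keep i then p.1 i else p.2 i) :=
    measurable_pi_lambda _ fun i => by split_ifs <;> fun_prop
  refine ⟨hm, (Measure.pi_eq fun s hs => ?_).symm⟩
  rw [Measure.map_apply hm (MeasurableSet.univ_pi hs)]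
  have : (fun p : (∀ i, X i) × (∀ i, X i) => fun i => if keep i then p.1 i else p.2 i)
        ⁻¹' Set.univ.pi s
      = (Set.univ.pi fun i => if keep i then s i else Set.univ)
        ×ˢ (Set.univ.pi fun i => if keep i then Set.univ else s i) := by
    ext p
    simp only [Set.mem_preimage, Set.mem_univ_pi, Set.mem_prod]
    constructor
    · intro hp
      constructor <;> intro i <;> have := hp i <;> by_cases hk : keep i <;> simp_all
    · rintro ⟨h1, h2⟩ i
      have := h1 i; have := h2 i
      by_cases hk : keep i <;> simp_all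
  rw [this, Measure.prod_prod, Measure.pi_pi, Measure.pi_pi, ← Finset.prod_mul_distrib]
  refine Finset.prod_congr rfl fun i _ => ?_
  split_ifs <;> simp

end

end Vale.Agent.P161
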