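import Vale.Agent.P161.Ising
import Vale.Agent.P161.Shift

/-!
The Euler scheme for stochastic localisation on a finite closed set, and the likelihood
of the planted innovations with respect to Gaussian noise.
-/

namespace Vale.Agent.P161

open MeasureTheory ProbabilityTheory Finset Function
open scoped NNReal ENNReal Classical

noncomputable section

variable {V : Type*} (G : SimpleGraph V) (θ : ℝ)

/-- Extension by zero from `D`. -/
def ext0 {D : Finset V} (z : D → ℝ) (u : V) : ℝ := if h : u ∈ D then z ⟨u, h⟩ else 0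

/-- Extension by zero from `Fin N × D`. -/
def extN {N : ℕ} {D : Finset V} (z : Fin N → D → ℝ) (j : ℕ) : V → ℝ :=
  if h : j < N then ext0 (z ⟨j, h⟩) else 0

/-- Restriction to `Fin N × D`. -/
def resN (N : ℕ) (D : Finset V) (ξ : ℕ → V → ℝ) : Fin N → D → ℝ := fun j u => ξ j u

/-- The law of the noise on `Fin N × D`. -/
def nlaw (h : ℝ≥0) (N : ℕ) (D : Finset V) : Measure (Fin N → D → ℝ) :=
  Measure.pi fun _ => Measure.pi fun _ => gl h

instance (h : ℝ≥0) (N : ℕ) (D : Finset V) : IsProbabilityMeasure (nlaw h N D) := by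
  unfold nlaw; infer_instance

/-- One step of the scheme. -/
def next (D : Finset V) (h : ℝ) (y z : V → ℝ) (u : V) : ℝ := y u + h * mf G θ D y u + z u

/-- The Euler scheme. -/
def path (D : Finset V) (h : ℝ) (y₀ : V → ℝ) (z : ℕ → V → ℝ) : ℕ → V → ℝ
  | 0 => y₀
  | j + 1 => next G θ D h (path D h y₀ z j) (z j)

/-- The planted observation after `j` steps. -/
def planted (h : ℝ) (y₀ : V → ℝ) (S : Finset V) (ξ : ℕ → V → ℝ) (j : ℕ) (u : V) : ℝ :=
  y₀ u + j * h * spin S u + ∑ i ∈ Finset.range j, ξ i u

/-- The innovations of the planted observation. -/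
def innov (D : Finset V) (h : ℝ) (y₀ : V → ℝ) (S : Finset V) (ξ : ℕ → V → ℝ) (j : ℕ) (u : V) : ℝ :=
  ξ j u + h * (spin S u - mf G θ D (planted h y₀ S ξ j) u)

/-- The exponential weight. -/
def ew (D : Finset V) (y : V → ℝ) (S : Finset V) : ℝ :=
  wt G θ D (spin S) * Real.exp (∑ v ∈ D, spin S v * y v)

/-- The tilted probability of a configuration. -/
def post (D : Finset V) (y : V → ℝ) (S : Finset V) : ℝ :=
  ew G θ D y S / ∑ S' ∈ D.powerset, ew G θ D y S'

/-- The one-step likelihood ratio. -/
def qstep (D : Finset V) (h : ℝ) (y : V → ℝ) (z : D → ℝ) : ℝ :=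
  ∑ S ∈ D.powerset, post G θ D y S * tiltProd h (fun u : D => spin S u - mf G θ D y u) z

/-- The likelihood ratio of the innovations. -/
def lik (D : Finset V) (h : ℝ) : (N : ℕ) → (V → ℝ) → (Fin N → D → ℝ) → ℝ
  | 0, _, _ => 1
  | N + 1, y, z => qstep G θ D h y (z 0) * lik D h N (next G θ D h y (ext0 (z 0))) (fun i => z i.succ)

variable {G θ}

lemma ext0_apply {D : Finset V} (z : D → ℝ) {u : V} (h : u ∈ D) : ext0 z u = z ⟨u, h⟩ := by
  simp [ext0, h]

lemma extN_apply {N : ℕ} {D : Finset V} (z : Fin N → D → ℝ) {j : ℕ} (hj : j < N) {u : V}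
    (hu : u ∈ D) : extN z j u = z ⟨j, hj⟩ ⟨u, hu⟩ := by
  simp [extN, hj, ext0, hu]

lemma resN_extN {N : ℕ} {D : Finset V} (z : Fin N → D → ℝ) : resN N D (extN z) = z := by
  funext j u
  exact extN_apply z j.2 u.2

lemma extN_succ {N : ℕ} {D : Finset V} (z : Fin (N + 1) → D → ℝ) (j : ℕ) :
    extN (fun i : Fin N => z i.succ) j = extN z (j + 1) := by
  unfold extN
  by_cases h : j < N
  · rw [dif_pos h, dif_pos (by omega)]; rfl
  · rw [dif_neg h, dif_neg (by omega)]

lemma measurable_ext0 {D : Finset V} (u : V) : Measurable fun z : D → ℝ => ext0 z u := by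
  unfold ext0
  split_ifs with h
  · exact measurable_pi_apply (⟨u, h⟩ : D)
  · exact measurable_const

lemma measurable_extN {N : ℕ} {D : Finset V} (j : ℕ) (u : V) :
    Measurable fun z : Fin N → D → ℝ => extN z j u := by
  unfold extN
  split_ifs with h
  · exact (measurable_ext0 u).comp (measurable_pi_apply _)
  · exact measurable_const

lemma measurable_mf_comp (hθ : Par θ) {α : Type*} [MeasurableSpace α] (D : Finset V)
    {Y : α → V → ℝ} (hY : ∀ u, Measurable fun a => Y a u) (v : V) :
    Measurable fun a => mf G θ D (Y a) v := by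
  have e : ∀ a, mf G θ D (Y a) v = mf G θ D (ext0 fun u : D => Y a u) v := fun a =>
    mf_congr (fun u hu => (ext0_apply (fun u : D => Y a u) hu).symm) v
  simp_rw [e]
  have hc : Continuous fun r : D → ℝ => mf G θ D (ext0 r) v := by
    refine (continuous_mf hθ D v).comp (continuous_pi fun u => ?_)
    unfold ext0
    split_ifs with h
    · exact continuous_apply (⟨u, h⟩ : D)
    · exact continuous_const
  exact hc.measurable.comp (measurable_pi_lambda _ fun u => hY u)

lemma sum_ew_pos (hθ : Par θ) (D : Finset V) (y : V → ℝ) :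
    0 < ∑ S' ∈ D.powerset, ew G θ D y S' :=
  Finset.sum_pos (fun S _ => mul_pos (wt_pos hθ D S) (Real.exp_pos _)) ⟨∅, by simp⟩

lemma post_nonneg (hθ : Par θ) (D : Finset V) (y : V → ℝ) (S : Finset V) :
    0 ≤ post G θ D y S :=
  div_nonneg (mul_pos (wt_pos hθ D S) (Real.exp_pos _)).le (sum_ew_pos hθ D y).le

lemma sum_post (hθ : Par θ) (D : Finset V) (y : V → ℝ) :
    ∑ S ∈ D.powerset, post G θ D y S = 1 := by
  unfold post
  rw [← Finset.sum_div, div_self (sum_ew_pos hθ D y).ne']

lemma avg_eq_sum_post (hθ : Par θ) (D : Finset V) (y : V → ℝ) (f : (V → ℝ) → ℝ) :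
    avg G θ D (fun v => Real.tanh (y v)) f
      = ∑ S ∈ D.powerset, post G θ D y S * f (spin S) := by
  have hc : ∀ S, ew G θ D y S = (∏ v ∈ D, Real.cosh (y v)) *
      (wt G θ D (spin S) * ∏ v ∈ D, (1 + Real.tanh (y v) * spin S v)) := by
    intro S
    unfold ew
    rw [Real.exp_sum, mul_left_comm, ← Finset.prod_mul_distrib]
    congr 1
    refine Finset.prod_congr rfl fun v _ => ?_
    rw [Real.tanh_eq_sinh_div_cosh, mul_add, mul_one, ← mul_assoc,
      mul_div_cancel₀ _ (Real.cosh_pos (y v)).ne']
    unfold spin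
    split_ifs
    · rw [one_mul, mul_one, Real.cosh_add_sinh]
    · rw [neg_one_mul, mul_neg_one, ← sub_eq_add_neg, Real.cosh_sub_sinh]
  have hp : (∏ v ∈ D, Real.cosh (y v)) ≠ 0 :=
    (Finset.prod_pos fun v _ => Real.cosh_pos (y v)).ne'
  unfold post avg Sm
  simp_rw [div_mul_eq_mul_div, ← Finset.sum_div, hc, mul_assoc (∏ v ∈ D, Real.cosh (y v)),
    ← Finset.mul_sum]
  rw [mul_div_mul_left _ _ hp]
  simp

lemma mf_eq_sum_post (hθ : Par θ) {D : Finset V} (y : V → ℝ) {v : V} (hv : v ∈ D) :
    mf G θ D y v = ∑ S ∈ D.powerset, post G θ D y S * spin S v := by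
  rw [mf, if_pos hv, mean, avg_eq_sum_post hθ]

lemma post_congr {D : Finset V} {y y' : V → ℝ} (h : ∀ u ∈ D, y u = y' u) (S : Finset V) :
    post G θ D y S = post G θ D y' S := by
  have : ∀ S, ew G θ D y S = ew G θ D y' S := fun S => by
    unfold ew
    rw [Finset.sum_congr rfl fun v hv => by rw [h v hv]]
  simp [post, this]

lemma continuous_post (hθ : Par θ) (D : Finset V) (S : Finset V) :
    Continuous fun y => post G θ D y S := by
  unfold post ew
  refine Continuous.div ?_ ?_ fun y => (sum_ew_pos hθ D y).ne'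
  · fun_prop
  · fun_prop

lemma measurable_post_comp (hθ : Par θ) {α : Type*} [MeasurableSpace α] (D : Finset V)
    {Y : α → V → ℝ} (hY : ∀ u, Measurable fun a => Y a u) (S : Finset V) :
    Measurable fun a => post G θ D (Y a) S := by
  have e : ∀ a, post G θ D (Y a) S = post G θ D (ext0 fun u : D => Y a u) S := fun a =>
    post_congr (fun u hu => (ext0_apply (fun u : D => Y a u) hu).symm) S
  simp_rw [e]
  have hc : Continuous fun r : D → ℝ => post G θ D (ext0 r) S := by
    refine (continuous_post hθ D S).comp (continuous_pi fun u => ?_)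
    unfold ext0
    split_ifs with h
    · exact continuous_apply (⟨u, h⟩ : D)
    · exact continuous_const
  exact hc.measurable.comp (measurable_pi_lambda _ fun u => hY u)

lemma measurable_qstep (hθ : Par θ) {α : Type*} [MeasurableSpace α] (D : Finset V) (h : ℝ)
    {Y : α → V → ℝ} (hY : ∀ u, Measurable fun a => Y a u) {Z : α → D → ℝ} (hZ : Measurable Z) :
    Measurable fun a => qstep G θ D h (Y a) (Z a) := by
  unfold qstep
  refine Finset.measurable_sum _ fun S _ => (measurable_post_comp hθ D hY S).mul ?_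
  unfold tiltProd
  refine Finset.measurable_prod _ fun u _ => ?_
  have h1 : Measurable fun a => spin S u.1 - mf G θ D (Y a) u.1 :=
    measurable_const.sub (measurable_mf_comp hθ D hY u.1)
  unfold tiltExp
  exact ((h1.mul ((measurable_pi_apply u).comp hZ)).sub
    ((measurable_const.mul (h1.pow_const 2)).div_const 2)).exp

lemma measurable_next (hθ : Par θ) {α : Type*} [MeasurableSpace α] (D : Finset V) (h : ℝ)
    {Y Z : α → V → ℝ} (hY : ∀ u, Measurable fun a => Y a u) (hZ : ∀ u, Measurable fun a => Z a u)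
    (u : V) : Measurable fun a => next G θ D h (Y a) (Z a) u :=
  ((hY u).add (measurable_const.mul (measurable_mf_comp hθ D hY u))).add (hZ u)

lemma measurable_lik (hθ : Par θ) (D : Finset V) (h : ℝ) :
    ∀ (N : ℕ) {α : Type*} [MeasurableSpace α] {Y : α → V → ℝ},
      (∀ u, Measurable fun a => Y a u) → ∀ {Z : α → Fin N → D → ℝ}, Measurable Z →
      Measurable fun a => lik G θ D h N (Y a) (Z a) := by
  intro N
  induction N with
  | zero => intro α _ Y _ Z _; exact measurable_const
  | succ N ih =>
    intro α _ Y hY Z hZ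
    have h0 : Measurable fun a => Z a 0 := (measurable_pi_apply _).comp hZ
    exact (measurable_qstep hθ D h hY h0).mul
      (ih (measurable_next hθ D h hY fun u => (measurable_ext0 u).comp h0)
        (measurable_pi_lambda _ fun i => (measurable_pi_apply i.succ).comp hZ))

lemma measurable_path (hθ : Par θ) {α : Type*} [MeasurableSpace α] (D : Finset V) (h : ℝ)
    {Y : α → V → ℝ} (hY : ∀ u, Measurable fun a => Y a u) {Z : α → ℕ → V → ℝ}
    (hZ : ∀ j u, Measurable fun a => Z a j u) :
    ∀ (j : ℕ) (u : V), Measurable fun a => path G θ D h (Y a) (Z a) j u := by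
  intro j
  induction j with
  | zero => exact hY
  | succ j ih => exact fun u => measurable_next hθ D h ih (hZ j) u

lemma path_congr {D : Finset V} (h : ℝ) {y y' : V → ℝ} {z z' : ℕ → V → ℝ}
    (hy : ∀ u ∈ D, y u = y' u) :
    ∀ j, (∀ i < j, ∀ u ∈ D, z i u = z' i u) →
      ∀ u ∈ D, path G θ D h y z j u = path G θ D h y' z' j u := by
  intro j
  induction j with
  | zero => exact fun _ => hy
  | succ j ih =>
    intro hz u hu
    have e := ih fun i hi => hz i (by omega)
    simp only [path, next]
    rw [e u hu, mf_congr e u, hz j (by omega) u hu]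

lemma path_shift (D : Finset V) (h : ℝ) (y : V → ℝ) (z : ℕ → V → ℝ) :
    ∀ j, path G θ D h y z (j + 1)
      = path G θ D h (next G θ D h y (z 0)) (fun i => z (i + 1)) j := by
  intro j
  induction j with
  | zero => rfl
  | succ j ih => rw [path, ih, path]

lemma path_innov {D : Finset V} (h : ℝ) {y y' : V → ℝ} (S : Finset V) (ξ : ℕ → V → ℝ)
    {z : ℕ → V → ℝ} (hy : ∀ u ∈ D, y' u = y u) :
    ∀ j, (∀ i < j, ∀ u ∈ D, z i u = innov G θ D h y S ξ i u) →
      ∀ u ∈ D, path G θ D h y' z j u = planted h y S ξ j u := by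
  intro j
  induction j with
  | zero => intro _ u hu; simp [path, planted, hy u hu]
  | succ j ih =>
    intro hz u hu
    have e := ih fun i hi => hz i (by omega)
    simp only [path, next]
    rw [e u hu, mf_congr e u, hz j (by omega) u hu]
    simp only [innov, planted, Finset.sum_range_succ]
    push_cast
    ring

lemma post_step (hθ : Par θ) (D : Finset V) (h : ℝ) (y : V → ℝ) (z : D → ℝ) {S : Finset V}
    (hS : S ∈ D.powerset) :
    post G θ D y S * tiltProd h (fun u : D => spin S u - mf G θ D y u) z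
      = qstep G θ D h y z * post G θ D (next G θ D h y (ext0 z)) S := by
  set y1 := next G θ D h y (ext0 z) with hy1
  set K := Real.exp (∑ u : D, (-(mf G θ D y u) * z u - h * (1 + mf G θ D y u ^ 2) / 2)) with hK
  have key : ∀ S', ew G θ D y S' * tiltProd h (fun u : D => spin S' u - mf G θ D y u) z
      = K * ew G θ D y1 S' := by
    intro S'
    unfold ew tiltProd tiltExp
    rw [← Real.exp_sum, mul_assoc, ← Real.exp_add, mul_left_comm, hK, ← Real.exp_add]
    congr 2
    rw [← Finset.sum_coe_sort D (fun v => spin S' v * y v),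
      ← Finset.sum_coe_sort D (fun v => spin S' v * y1 v), ← Finset.sum_add_distrib,
      ← Finset.sum_add_distrib]
    refine Finset.sum_congr rfl fun u _ => ?_
    rw [hy1, next, ext0_apply z u.2]
    have := spin_sq S' u.1
    linear_combination (-h / 2) * this
  have hq : qstep G θ D h y z * (∑ S' ∈ D.powerset, ew G θ D y S')
      = K * ∑ S' ∈ D.powerset, ew G θ D y1 S' := by
    unfold qstep post
    rw [Finset.sum_mul, Finset.mul_sum]
    refine Finset.sum_congr rfl fun S' _ => ?_
    rw [← key S']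
    have := (sum_ew_pos (G := G) hθ D y).ne'
    field_simp
  have h1 := (sum_ew_pos (G := G) hθ D y).ne'
  have h2 := (sum_ew_pos (G := G) hθ D y1).ne'
  unfold post
  rw [div_mul_eq_mul_div, key S, mul_div_assoc', div_eq_div_iff h1 h2]
  linear_combination (-(ew G θ D y1 S)) * hq

lemma qstep_nonneg (hθ : Par θ) (D : Finset V) (h : ℝ) (y : V → ℝ) (z : D → ℝ) :
    0 ≤ qstep G θ D h y z :=
  Finset.sum_nonneg fun S _ => mul_nonneg (post_nonneg hθ D y S) (tiltProd_pos _ _ _).le

lemma lik_nonneg (hθ : Par θ) (D : Finset V) (h : ℝ) :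
    ∀ (N : ℕ) (y : V → ℝ) (z : Fin N → D → ℝ), 0 ≤ lik G θ D h N y z := by
  intro N
  induction N with
  | zero => intro y z; exact zero_le_one
  | succ N ih => exact fun y z => mul_nonneg (qstep_nonneg hθ D h y _) (ih _ _)

/-- Change of variables from planted innovations to Gaussian noise, with the posterior. -/
theorem planted_change (hθ : Par θ) (D : Finset V) {h : ℝ≥0} (hh : h ≠ 0) :
    ∀ (N : ℕ) (y : V → ℝ) (f : Finset V → (Fin N → D → ℝ) → ℝ≥0∞),
      (∀ S, Measurable (f S)) →
      ∑ S ∈ D.powerset, ENNReal.ofReal (post G θ D y S) *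
          ∫⁻ ξ, f S (resN N D (innov G θ D h y S (extN ξ))) ∂(nlaw h N D)
        = ∫⁻ z, ENNReal.ofReal (lik G θ D h N y z) *
            ∑ S ∈ D.powerset,
              ENNReal.ofReal (post G θ D (path G θ D h y (extN z) N) S) * f S z
            ∂(nlaw h N D) := by
  intro N
  induction N with
  | zero =>
    intro y f hf
    have : ∀ a b : Fin 0 → D → ℝ, a = b := fun a b => funext fun i => i.elim0
    simp only [lik, path, ENNReal.ofReal_one, one_mul]
    rw [lintegral_finsetSum _ fun S _ => (hf S).const_mul _]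
    refine Finset.sum_congr rfl fun S _ => ?_
    rw [lintegral_const_mul _ (hf S)]
    congr 1
    exact lintegral_congr fun ξ => congrArg (f S) (this _ _)
  | succ N ih =>
    intro y f hf
    set ρ := Measure.pi fun _ : D => gl h with hρ
    set e := MeasurableEquiv.piFinSuccAbove (fun _ : Fin (N+1) => D → ℝ) 0 with he
    have hmp : MeasurePreserving e (nlaw h (N+1) D) (ρ.prod (nlaw h N D)) := by
      unfold nlaw; exact measurePreserving_piFinSuccAbove (fun _ => ρ) 0
    have hes : ∀ x r, e.symm (x, r) = Fin.cons x r := fun x r => by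
      rw [he]; simp [MeasurableEquiv.piFinSuccAbove_symm_apply]
      rfl
    have cons_meas : Measurable fun p : (D → ℝ) × (Fin N → D → ℝ) =>
        (Fin.cons p.1 p.2 : Fin (N+1) → D → ℝ) := by
      rw [show (fun p : (D → ℝ) × (Fin N → D → ℝ) => (Fin.cons p.1 p.2 : Fin (N+1) → D → ℝ))
        = e.symm from funext fun p => (hes p.1 p.2).symm]
      exact e.symm.measurable
    have split : ∀ Φ : (Fin (N+1) → D → ℝ) → ℝ≥0∞, Measurable Φ →
        ∫⁻ z, Φ z ∂(nlaw h (N+1) D) = ∫⁻ x, ∫⁻ r, Φ (Fin.cons x r) ∂(nlaw h N D) ∂ρ := by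
      intro Φ hΦ
      rw [← lintegral_prod (fun p => Φ (Fin.cons p.1 p.2))
        ((hΦ.comp cons_meas).aemeasurable)]
      rw [← hmp.lintegral_comp_emb e.measurableEmbedding (fun p => Φ (Fin.cons p.1 p.2))]
      refine lintegral_congr fun z => ?_
      have := hes (e z).1 (e z).2
      rw [Prod.mk.eta, e.symm_apply_apply] at this
      exact congrArg Φ this
    set a : Finset V → D → ℝ := fun S u => spin S u - mf G θ D y u with ha
    set y1 : (D → ℝ) → V → ℝ := fun x => next G θ D h y (ext0 x) with hy1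
    have my1 : ∀ u, Measurable fun x : D → ℝ => y1 x u :=
      measurable_next hθ D h (fun u => measurable_const) measurable_ext0
    set Gf : Finset V → (D → ℝ) → ℝ≥0∞ := fun S x =>
      ∫⁻ r, f S (Fin.cons x (resN N D (innov G θ D h (y1 x) S (extN r)))) ∂(nlaw h N D) with hGf
    have minnov : ∀ S, Measurable fun p : (D → ℝ) × (Fin N → D → ℝ) =>
        resN N D (innov G θ D h (y1 p.1) S (extN p.2)) := by
      intro S
      refine measurable_pi_lambda _ fun j => measurable_pi_lambda _ fun u => ?_
      refine ((measurable_extN j.1 u.1).comp measurable_snd).add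
        (measurable_const.mul (measurable_const.sub (measurable_mf_comp hθ D (fun w => ?_) u.1)))
      exact ((((my1 w).comp measurable_fst).add measurable_const).add
        (Finset.measurable_sum _ fun i _ => (measurable_extN i w).comp measurable_snd))
    have mGf : ∀ S, Measurable (Gf S) := fun S =>
      Measurable.lintegral_prod_right'
        (f := fun p : (D → ℝ) × (Fin N → D → ℝ) =>
          f S (Fin.cons p.1 (resN N D (innov G θ D h (y1 p.1) S (extN p.2)))))
        ((hf S).comp (cons_meas.comp (measurable_fst.prodMk (minnov S))))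
    have mres : ∀ S, Measurable fun ξ : Fin (N+1) → D → ℝ =>
        resN (N+1) D (innov G θ D h y S (extN ξ)) := by
      intro S
      refine measurable_pi_lambda _ fun j => measurable_pi_lambda _ fun u => ?_
      refine (measurable_extN j.1 u.1).add
        (measurable_const.mul (measurable_const.sub (measurable_mf_comp hθ D (fun w => ?_) u.1)))
      exact (measurable_const.add (Finset.measurable_sum _ fun i _ => measurable_extN i w))
    have key : ∀ S x r,
        resN (N+1) D (innov G θ D h y S (extN (Fin.cons x r : Fin (N+1) → D → ℝ)))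
          = Fin.cons (fun u : D => x u + h * a S u)
              (resN N D (innov G θ D h (y1 fun u => x u + h * a S u) S (extN r))) := by
      intro S x r
      funext j u
      have e0 : ∀ w, extN (Fin.cons x r : Fin (N+1) → D → ℝ) 0 w = ext0 x w := fun w => by
        simp [extN]
      have es : ∀ i, extN (Fin.cons x r : Fin (N+1) → D → ℝ) (i + 1) = extN r i := fun i => by
        rw [← extN_succ]; simp
      induction j using Fin.cases with
      | zero =>
        simp only [Fin.cons_zero, resN, Fin.val_zero, innov, ha]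
        rw [e0, ext0_apply x u.2]
        have : planted (h:ℝ) y S (extN (Fin.cons x r : Fin (N+1) → D → ℝ)) 0 = y := by
          funext w; simp [planted]
        rw [this]
      | succ j =>
        simp only [Fin.cons_succ, resN, Fin.val_succ, innov]
        rw [es]
        congr 2
        congr 1
        refine mf_congr (fun w hw => ?_) _
        simp only [planted, hy1, next, ha]
        rw [Finset.sum_range_succ', e0, ext0_apply x hw, ext0_apply _ hw]
        simp only [es]
        push_cast
        ring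
    have lhs : ∀ S,
        ∫⁻ ξ, f S (resN (N+1) D (innov G θ D h y S (extN ξ))) ∂(nlaw h (N+1) D)
          = ∫⁻ x, ENNReal.ofReal (tiltProd h (a S) x) * Gf S x ∂ρ := by
      intro S
      rw [split (fun ξ => f S (resN (N+1) D (innov G θ D h y S (extN ξ)))) ((hf S).comp (mres S))]
      simp_rw [key S]
      exact lintegral_shift (ι := D) hh (a S) (mGf S)
    simp_rw [lhs]
    have mT : ∀ S, Measurable fun x : D → ℝ =>
        ENNReal.ofReal (tiltProd (h:ℝ) (a S) x) * Gf S x := fun S => by
      refine Measurable.mul ?_ (mGf S)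
      unfold tiltProd tiltExp
      fun_prop
    calc ∑ S ∈ D.powerset, ENNReal.ofReal (post G θ D y S) *
          ∫⁻ x, ENNReal.ofReal (tiltProd h (a S) x) * Gf S x ∂ρ
        = ∫⁻ x, ∑ S ∈ D.powerset, ENNReal.ofReal (post G θ D y S) *
            (ENNReal.ofReal (tiltProd h (a S) x) * Gf S x) ∂ρ := by
          rw [lintegral_finsetSum _ fun S _ => (mT S).const_mul _]
          exact Finset.sum_congr rfl fun S _ => (lintegral_const_mul _ (mT S)).symm
      _ = ∫⁻ x, ENNReal.ofReal (qstep G θ D h y x) *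
            ∑ S ∈ D.powerset, ENNReal.ofReal (post G θ D (y1 x) S) * Gf S x ∂ρ := by
          refine lintegral_congr fun x => ?_
          rw [Finset.mul_sum]
          refine Finset.sum_congr rfl fun S hS => ?_
          rw [← mul_assoc, ← mul_assoc, ← ENNReal.ofReal_mul (post_nonneg hθ D y S),
            ← ENNReal.ofReal_mul (qstep_nonneg hθ D _ y x), post_step hθ D h y x hS]
      _ = _ := ?_
    have mpath : ∀ u, Measurable fun z : Fin (N+1) → D → ℝ =>
        path G θ D h y (extN z) (N+1) u :=
      measurable_path (Y := fun _ => y) hθ D h (fun u => measurable_const) (fun j u => measurable_extN j u) (N+1)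
    have mlik : Measurable fun z : Fin (N+1) → D → ℝ => lik G θ D h (N+1) y z :=
      measurable_lik (Y := fun _ : Fin (N+1) → D → ℝ => y) (Z := fun z => z) hθ D h (N+1)
        (fun u => measurable_const) measurable_id
    have mrhs : Measurable fun z : Fin (N+1) → D → ℝ =>
        ENNReal.ofReal (lik G θ D h (N+1) y z) * ∑ S ∈ D.powerset,
          ENNReal.ofReal (post G θ D (path G θ D h y (extN z) (N+1)) S) * f S z :=
      mlik.ennreal_ofReal.mul (Finset.measurable_sum _ fun S _ =>
        (measurable_post_comp hθ D mpath S).ennreal_ofReal.mul (hf S))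
    rw [split _ mrhs]
    refine lintegral_congr fun x => ?_
    rw [hGf]
    rw [ih (y1 x) (fun S r => f S (Fin.cons x r))
      (fun S => (hf S).comp (cons_meas.comp measurable_prodMk_left)),
      ← lintegral_const_mul' _ _ ENNReal.ofReal_ne_top]
    refine lintegral_congr fun r => ?_
    have e0 : extN (Fin.cons x r : Fin (N+1) → D → ℝ) 0 = ext0 x := by
      funext w; simp [extN]
    have es : (fun i => extN (Fin.cons x r : Fin (N+1) → D → ℝ) (i + 1)) = extN r := by
      funext i; rw [← extN_succ]; simp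
    rw [path_shift, e0, es, ← mul_assoc, lik, ENNReal.ofReal_mul (qstep_nonneg hθ D _ y _)]
    simp [hy1]

lemma exp_le_quadratic {x : ℝ} (hx : |x| ≤ 1) : Real.exp x ≤ 1 + x + x ^ 2 := by
  have := Real.abs_exp_sub_one_sub_id_le hx
  linarith [(abs_le.1 this).2]

lemma lintegral_qstep_sq (hθ : Par θ) (D : Finset V) {h : ℝ≥0} (hh : h ≠ 0)
    (hsmall : (h : ℝ) * (4 * D.card) ≤ 1) (y : V → ℝ) :
    ∫⁻ z, ENNReal.ofReal (qstep G θ D h y z ^ 2) ∂(Measure.pi fun _ : D => gl h)
      ≤ ENNReal.ofReal (1 + 16 * (D.card : ℝ) ^ 2 * (h : ℝ) ^ 2) := by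
  set a : Finset V → D → ℝ := fun S u => spin S u - mf G θ D y u with ha
  set p := post G θ D y with hp
  have hexp : ∀ z, ENNReal.ofReal (qstep G θ D h y z ^ 2)
      = ∑ S ∈ D.powerset, ∑ S' ∈ D.powerset, ENNReal.ofReal (p S * p S') *
          ENNReal.ofReal (tiltProd h (a S) z * tiltProd h (a S') z) := by
    intro z
    unfold qstep
    rw [sq, Finset.sum_mul_sum, ENNReal.ofReal_sum_of_nonneg fun S _ =>
      Finset.sum_nonneg fun S' _ => mul_nonneg
        (mul_nonneg (post_nonneg hθ D y S) (tiltProd_pos _ _ _).le)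
        (mul_nonneg (post_nonneg hθ D y S') (tiltProd_pos _ _ _).le)]
    refine Finset.sum_congr rfl fun S _ => ?_
    rw [ENNReal.ofReal_sum_of_nonneg fun S' _ => mul_nonneg
        (mul_nonneg (post_nonneg hθ D y S) (tiltProd_pos _ _ _).le)
        (mul_nonneg (post_nonneg hθ D y S') (tiltProd_pos _ _ _).le)]
    refine Finset.sum_congr rfl fun S' _ => ?_
    rw [← ENNReal.ofReal_mul (mul_nonneg (post_nonneg hθ D y S) (post_nonneg hθ D y S'))]
    congr 1
    simp only [p, ha]
    ring
  simp_rw [hexp]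
  have mt : ∀ b b' : D → ℝ, Measurable fun z =>
      ENNReal.ofReal (tiltProd (h:ℝ) b z * tiltProd (h:ℝ) b' z) := fun b b' => by
    unfold tiltProd tiltExp; fun_prop
  rw [lintegral_finsetSum _ fun S _ => Finset.measurable_sum _ fun S' _ =>
    (mt (a S) (a S')).const_mul _]
  simp_rw [lintegral_finsetSum _ fun S' _ => (mt (a _) (a S')).const_mul _,
    lintegral_const_mul _ (mt (a _) (a _)), lintegral_tiltProd_mul hh]
  have hp0 : ∀ S, 0 ≤ p S := post_nonneg hθ D y
  simp_rw [← ENNReal.ofReal_mul (mul_nonneg (hp0 _) (hp0 _))]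
  simp_rw [← ENNReal.ofReal_sum_of_nonneg (fun S' _ =>
    mul_nonneg (mul_nonneg (hp0 _) (hp0 S')) (Real.exp_pos _).le)]
  rw [← ENNReal.ofReal_sum_of_nonneg (fun S _ => Finset.sum_nonneg fun S' _ =>
    mul_nonneg (mul_nonneg (hp0 S) (hp0 S')) (Real.exp_pos _).le)]
  refine ENNReal.ofReal_le_ofReal ?_
  have hab : ∀ S S', |∑ u : D, a S u * a S' u| ≤ 4 * D.card := by
    intro S S'
    refine (Finset.abs_sum_le_sum_abs _ _).trans ?_
    refine (Finset.sum_le_sum (g := fun _ => (4:ℝ)) fun u _ => ?_).trans_eq (by simp; ring)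
    have hb : ∀ S, |a S u| ≤ 2 := fun S => by
      refine (abs_sub _ _).trans ?_
      rw [abs_spin]
      linarith [abs_mf_le (G := G) hθ D y u.1]
    rw [abs_mul]
    nlinarith [hb S, hb S', abs_nonneg (a S u), abs_nonneg (a S' u)]
  calc ∑ S ∈ D.powerset, ∑ S' ∈ D.powerset, p S * p S' * Real.exp (h * ∑ u, a S u * a S' u)
      ≤ ∑ S ∈ D.powerset, ∑ S' ∈ D.powerset, (p S * p S' * (1 + 16 * (D.card:ℝ)^2 * (h:ℝ)^2)
          + (h:ℝ) * ∑ u, (p S * a S u) * (p S' * a S' u)) := by
        refine Finset.sum_le_sum fun S _ => Finset.sum_le_sum fun S' _ => ?_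
        have hx : |(h:ℝ) * ∑ u, a S u * a S' u| ≤ (h:ℝ) * (4 * D.card) := by
          rw [abs_mul, abs_of_nonneg h.coe_nonneg]
          exact mul_le_mul_of_nonneg_left (hab S S') h.coe_nonneg
        have he := exp_le_quadratic (hx.trans hsmall)
        have hsq : ((h:ℝ) * ∑ u, a S u * a S' u) ^ 2 ≤ ((h:ℝ) * (4 * D.card)) ^ 2 := by
          rw [← sq_abs]
          exact pow_le_pow_left₀ (abs_nonneg _) hx 2
        have hs : ∑ u, (p S * a S u) * (p S' * a S' u)
            = p S * p S' * ∑ u, a S u * a S' u := by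
          rw [Finset.mul_sum]; exact Finset.sum_congr rfl fun u _ => by ring
        rw [hs]
        calc p S * p S' * Real.exp (h * ∑ u, a S u * a S' u)
            ≤ p S * p S' * (1 + (h:ℝ) * (∑ u, a S u * a S' u) + ((h:ℝ) * (4 * D.card)) ^ 2) :=
              mul_le_mul_of_nonneg_left (by linarith) (mul_nonneg (hp0 S) (hp0 S'))
          _ = _ := by ring
    _ = _ := by
        have h1 : ∑ S ∈ D.powerset, p S = 1 := sum_post hθ D y
        have h2 : ∀ u : D, ∑ S ∈ D.powerset, p S * a S u = 0 := fun u => by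
          simp only [ha, mul_sub, Finset.sum_sub_distrib]
          rw [← Finset.sum_mul, h1, mf_eq_sum_post hθ y u.2, one_mul, sub_self]
        simp only [Finset.sum_add_distrib, ← Finset.sum_mul, ← Finset.mul_sum, h1, mul_one,
          one_mul]
        have h3 : ∑ S ∈ D.powerset, ∑ S' ∈ D.powerset, ∑ u, p S * a S u * (p S' * a S' u) = 0 := by
          refine (Finset.sum_congr rfl fun S _ => Finset.sum_comm).trans ?_
          refine Finset.sum_eq_zero fun S _ => Finset.sum_eq_zero fun u _ => ?_
          rw [← Finset.mul_sum, h2 u, mul_zero]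
        rw [h3]
        ring

theorem lintegral_lik_sq (hθ : Par θ) (D : Finset V) {h : ℝ≥0} (hh : h ≠ 0)
    (hsmall : (h : ℝ) * (4 * D.card) ≤ 1) :
    ∀ (N : ℕ) (y : V → ℝ),
      ∫⁻ z, ENNReal.ofReal (lik G θ D h N y z ^ 2) ∂(nlaw h N D)
        ≤ ENNReal.ofReal ((1 + 16 * (D.card : ℝ) ^ 2 * (h : ℝ) ^ 2) ^ N) := by
  intro N
  induction N with
  | zero => intro y; simp [lik]
  | succ N ih =>
    intro y
    set ρ := Measure.pi fun _ : D => gl h with hρ
    set e := MeasurableEquiv.piFinSuccAbove (fun _ : Fin (N+1) => D → ℝ) 0 with he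
    have hmp : MeasurePreserving e (nlaw h (N+1) D) (ρ.prod (nlaw h N D)) := by
      unfold nlaw; exact measurePreserving_piFinSuccAbove (fun _ => ρ) 0
    have hes : ∀ z : Fin (N+1) → D → ℝ, e z = (z 0, fun i => z i.succ) := fun z => by
      rw [he]; simp [MeasurableEquiv.piFinSuccAbove_apply]
      rfl
    set Φ : (D → ℝ) × (Fin N → D → ℝ) → ℝ≥0∞ := fun p =>
      ENNReal.ofReal ((qstep G θ D h y p.1
        * lik G θ D h N (next G θ D h y (ext0 p.1)) p.2) ^ 2) with hΦ
    have mY : ∀ u, Measurable fun p : (D → ℝ) × (Fin N → D → ℝ) =>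
        next G θ D h y (ext0 p.1) u := fun u =>
      (measurable_next (Y := fun _ : D → ℝ => y) (Z := fun x => ext0 x) hθ D h
        (fun u => measurable_const) measurable_ext0 u).comp measurable_fst
    have m1 : Measurable fun p : (D → ℝ) × (Fin N → D → ℝ) => qstep G θ D h y p.1 :=
      measurable_qstep (Y := fun _ => y) hθ D h (fun u => measurable_const) measurable_fst
    have m2 : Measurable fun p : (D → ℝ) × (Fin N → D → ℝ) =>
        lik G θ D h N (next G θ D h y (ext0 p.1)) p.2 :=
      measurable_lik hθ D h N mY measurable_snd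
    have mΦ : Measurable Φ := ((m1.mul m2).pow_const 2).ennreal_ofReal
    have : ∀ z, ENNReal.ofReal (lik G θ D h (N+1) y z ^ 2) = Φ (e z) := fun z => by
      rw [hes]; rfl
    simp_rw [this]
    rw [hmp.lintegral_comp mΦ, lintegral_prod _ mΦ.aemeasurable]
    calc ∫⁻ x, ∫⁻ r, Φ (x, r) ∂(nlaw h N D) ∂ρ
        ≤ ∫⁻ x, ENNReal.ofReal (qstep G θ D h y x ^ 2) *
            ENNReal.ofReal ((1 + 16 * (D.card : ℝ) ^ 2 * (h : ℝ) ^ 2) ^ N) ∂ρ := by
          refine lintegral_mono fun x => ?_
          simp only [hΦ, mul_pow, ENNReal.ofReal_mul (sq_nonneg (qstep G θ D h y x))]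
          rw [lintegral_const_mul' _ _ ENNReal.ofReal_ne_top]
          exact mul_le_mul' le_rfl (ih _)
      _ = (∫⁻ x, ENNReal.ofReal (qstep G θ D h y x ^ 2) ∂ρ) *
            ENNReal.ofReal ((1 + 16 * (D.card : ℝ) ^ 2 * (h : ℝ) ^ 2) ^ N) :=
          lintegral_mul_const' _ _ ENNReal.ofReal_ne_top
      _ ≤ _ := by
          rw [pow_succ' (1 + 16 * (D.card : ℝ) ^ 2 * (h : ℝ) ^ 2),
            ENNReal.ofReal_mul (by positivity)]
          exact mul_le_mul' (lintegral_qstep_sq hθ D hh hsmall y) le_rfl

end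

end Vale.Agent.P161
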