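import Mathlib.Combinatorics.SimpleGraph.Acyclic
import Mathlib.Combinatorics.SimpleGraph.Metric
import Mathlib.Data.Real.Basic
import Mathlib.Algebra.BigOperators.Group.Finset.Basic
import Mathlib.Algebra.Order.BigOperators.Group.Finset
import Mathlib.Data.Set.Card
import Mathlib.Algebra.Order.Field.GeomSum
import Mathlib.Tactic

/-!
Geometry of regular trees: balls, spheres, and the radial super-solution bound.
-/

namespace Vale.Agent.P161

open Finset

variable {V : Type*} {G : SimpleGraph V}

/-- In a tree, a vertex has at most one neighbour one step closer to a given vertex. -/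
lemma closer_unique (hG : G.IsTree) {u x z₁ z₂ : V} (h₁ : G.Adj x z₁) (h₂ : G.Adj x z₂)
    (d₁ : G.dist u x = G.dist u z₁ + 1) (d₂ : G.dist u x = G.dist u z₂ + 1) : z₁ = z₂ := by
  classical
  obtain ⟨p, hp, hpl⟩ := hG.connected.exists_path_of_dist u z₁
  obtain ⟨q, hq, hql⟩ := hG.connected.exists_path_of_dist u z₂
  have hxp : x ∉ p.support := fun hx => by
    have h := SimpleGraph.dist_le (p.takeUntil x hx)
    have := p.length_takeUntil_le_length hx
    omega
  have hxq : x ∉ q.support := fun hx => by
    have h := SimpleGraph.dist_le (q.takeUntil x hx)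
    have := q.length_takeUntil_le_length hx
    omega
  have hp' : (p.concat h₁.symm).IsPath := hp.concat hxp h₁.symm
  have hq' : (q.concat h₂.symm).IsPath := hq.concat hxq h₂.symm
  have he : p.concat h₁.symm = q.concat h₂.symm := by
    have := (hG.isAcyclic.subsingleton_path _ _).elim ⟨_, hp'⟩ ⟨_, hq'⟩
    exact congrArg Subtype.val this
  have := congrArg SimpleGraph.Walk.penultimate he
  simpa using this

/-- Every vertex other than `u` has a neighbour one step closer to `u`. -/
lemma exists_closer (hG : G.IsTree) {u x : V} (h : x ≠ u) :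
    ∃ z, G.Adj x z ∧ G.dist u x = G.dist u z + 1 := by
  obtain ⟨p, hp⟩ := hG.connected.exists_walk_length_eq_dist x u
  cases p with
  | nil => exact absurd rfl h
  | @cons _ z _ hadj q =>
    refine ⟨z, hadj, ?_⟩
    have h1 : G.dist z u ≤ q.length := SimpleGraph.dist_le q
    have h2 := hG.dist_eq_dist_add_one_of_adj u hadj
    rw [SimpleGraph.Walk.length_cons] at hp
    rw [SimpleGraph.dist_comm (u := u) (v := x), SimpleGraph.dist_comm (u := u) (v := z)] at h2 ⊢
    omega

/-- A finite set of vertices containing every geodesic between two of its points. -/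
def Closed (G : SimpleGraph V) (D : Finset V) : Prop :=
  ∀ v ∈ D, ∀ x ∈ D, x ≠ v → ∃ p ∈ D, G.Adj x p ∧ G.dist v x = G.dist v p + 1

/-- A leaf of `D` lying outside the closed subset `A`. -/
lemma exists_leaf [DecidableEq V] (hG : G.IsTree) {A D : Finset V} (hD : Closed G D) (hA : Closed G A)
    (hAne : A.Nonempty) (hsub : A ⊆ D) (hne : A ≠ D) :
    ∃ x ∈ D, x ∉ A ∧ ∃ p ∈ D.erase x, G.Adj x p ∧ (∀ z ∈ D, G.Adj x z → z = p) ∧
      Closed G (D.erase x) := by
  obtain ⟨v, hv⟩ := hAne
  have hne' : (D \ A).Nonempty := by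
    rw [Finset.sdiff_nonempty]
    exact fun h => hne (Finset.Subset.antisymm hsub h)
  obtain ⟨x, hx, hmax⟩ := Finset.exists_max_image (D \ A) (fun z => G.dist v z) hne'
  rw [Finset.mem_sdiff] at hx
  have hxv : x ≠ v := fun h => hx.2 (h ▸ hv)
  obtain ⟨p, hp, hxp, hdp⟩ := hD v (hsub hv) x hx.1 hxv
  have huniq : ∀ z ∈ D, G.Adj x z → z = p := by
    intro z hz hxz
    rcases hG.dist_eq_dist_add_one_of_adj v hxz with h | h
    · exact closer_unique hG hxz hxp h hdp
    · exfalso
      by_cases hzA : z ∈ A
      · have hzv : z ≠ v := fun h' => by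
          rw [h', SimpleGraph.dist_self] at h
          omega
        obtain ⟨q, hq, hzq, hdq⟩ := hA v hv z hzA hzv
        exact hx.2 (closer_unique hG hzq hxz.symm hdq h ▸ hq)
      · have := hmax z (Finset.mem_sdiff.2 ⟨hz, hzA⟩)
        omega
  refine ⟨x, hx.1, hx.2, p, Finset.mem_erase.2 ⟨fun h => hxp.ne h.symm, hp⟩, hxp, huniq, ?_⟩
  intro v' hv' y hy hyv'
  rw [Finset.mem_erase] at hv' hy
  obtain ⟨q, hq, hyq, hdq⟩ := hD v' hv'.2 y hy.2 hyv'
  refine ⟨q, Finset.mem_erase.2 ⟨?_, hq⟩, hyq, hdq⟩
  rintro rfl
  obtain ⟨r, hr, hxr, hdr⟩ := hD v' hv'.2 q hq (fun h => hv'.1 h.symm)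
  have h1 : y = p := huniq y hy.2 hyq.symm
  have h2 : r = p := huniq r hr hxr
  subst h1; subst h2
  omega

/-- A finite set inducing a connected subgraph of a tree is closed. -/
lemma closed_of_connected (hG : G.IsTree) {D : Finset V}
    (hD : (G.induce (D : Set V)).Connected) : Closed G D := by
  intro v hv x hx hxv
  obtain ⟨p, hp⟩ := hD.exists_isPath (⟨x, hx⟩ : (D : Set V)) ⟨v, hv⟩
  set f := (SimpleGraph.Embedding.induce (G := G) (D : Set V)).toHom with hf
  have hpath : (p.map f).IsPath := hp.map Subtype.val_injective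
  obtain ⟨q, hq, hql⟩ := hG.connected.exists_path_of_dist x v
  have hlen : p.length = G.dist x v := by
    have := (hG.isAcyclic.subsingleton_path _ _).elim ⟨p.map f, hpath⟩ ⟨q, hq⟩
    have h' : (p.map f).length = q.length := congrArg (fun P : G.Path _ _ => P.1.length) this
    rw [SimpleGraph.Walk.length_map] at h'
    exact h'.trans hql
  cases p with
  | nil => exact absurd rfl hxv
  | @cons _ z _ hadj r =>
    have hadj' : G.Adj x z.1 := by simpa using hadj
    refine ⟨z.1, z.2, hadj', ?_⟩
    have h1 : G.dist z.1 v ≤ (r.map f).length := SimpleGraph.dist_le (r.map f)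
    rw [SimpleGraph.Walk.length_map] at h1
    rw [SimpleGraph.Walk.length_cons] at hlen
    have h2 := hG.dist_eq_dist_add_one_of_adj v hadj'
    rw [SimpleGraph.dist_comm (u := v) (v := x), SimpleGraph.dist_comm (u := v) (v := z.1)] at h2 ⊢
    omega

lemma closed_singleton (v : V) : Closed G ({v} : Finset V) := by
  intro a ha b hb hab
  rw [Finset.mem_singleton] at ha hb
  exact absurd (hb.trans ha.symm) hab

/-- `d`-regularity. -/
def Regular (G : SimpleGraph V) (d : ℕ) : Prop := ∀ v, (G.neighborSet v).ncard = d

lemma Regular.finite_nbr {d : ℕ} (hd : Regular G d) (hd3 : 3 ≤ d) (v : V) :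
    (G.neighborSet v).Finite :=
  Set.finite_of_ncard_pos (by rw [hd v]; omega)

lemma ball_finite {d : ℕ} (hG : G.IsTree) (hd : Regular G d) (hd3 : 3 ≤ d) (o : V) (n : ℕ) :
    {u | G.dist o u ≤ n}.Finite := by
  induction n with
  | zero =>
    refine (Set.finite_singleton o).subset fun u hu => ?_
    exact ((hG.connected.dist_eq_zero_iff).1 (Nat.le_zero.1 hu)).symm
  | succ n ih =>
    refine (ih.union (ih.biUnion fun u _ => hd.finite_nbr hd3 u)).subset fun u hu => ?_
    by_cases h : G.dist o u ≤ n
    · exact Or.inl h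
    · have huo : u ≠ o := fun e => h (by simp [e])
      obtain ⟨z, hz, hdz⟩ := exists_closer hG huo
      refine Or.inr (Set.mem_iUnion₂.2 ⟨z, ?_, hz.symm⟩)
      simp only [Set.mem_ofPred_eq] at hu ⊢
      omega

/-- Sphere sizes, in the bundled form that is used: `x`-weighted sums over finite sets. -/
lemma sum_pow_dist_le {d : ℕ} (hG : G.IsTree) (hd : Regular G d) (hd3 : 3 ≤ d) (o : V)
    (A : Finset V) {x : ℝ} (hx : 0 ≤ x) (hx1 : ((d:ℝ)-1) * x < 1) (R : ℕ)
    (hA : ∀ u ∈ A, R ≤ G.dist o u) :
    ∑ u ∈ A, x ^ G.dist o u ≤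
      d * (((d:ℝ)-1) * x) ^ R / (1 - ((d:ℝ)-1) * x) := by
  classical
  set y := ((d:ℝ)-1) * x with hy
  have hd1 : (1:ℝ) ≤ (d:ℝ) - 1 := by
    have : (3:ℝ) ≤ d := by exact_mod_cast hd3
    linarith
  have hy0 : 0 ≤ y := mul_nonneg (by linarith) hx
  have sphere : ∀ n, ∀ B : Finset V, (∀ u ∈ B, G.dist o u = n) →
      (B.card : ℝ) ≤ d * ((d:ℝ)-1) ^ n := by
    have strong : ∀ n, ∀ B : Finset V, (∀ u ∈ B, G.dist o u = n + 1) →
        B.card ≤ d * (d-1) ^ n := by
      intro n
      induction n with
      | zero =>
        intro B hB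
        calc B.card ≤ (hd.finite_nbr hd3 o).toFinset.card := by
              refine Finset.card_le_card fun u hu => ?_
              rw [Set.Finite.mem_toFinset]
              exact SimpleGraph.dist_eq_one_iff_adj.1 (by simpa using hB u hu)
          _ = d := by rw [← Set.ncard_eq_toFinset_card _ (hd.finite_nbr hd3 o)]; exact hd o
          _ = d * (d-1) ^ 0 := by simp
      | succ n ih =>
        intro B hB
        have hne : ∀ u ∈ B, ∃ z, G.Adj u z ∧ G.dist o u = G.dist o z + 1 := fun u hu =>
          exists_closer hG (fun h => by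
            have := hB u hu
            simp [h] at this)
        choose! par hpar using hne
        have hP : ∀ z ∈ B.image par, G.dist o z = n + 1 := by
          intro z hz
          obtain ⟨u, hu, rfl⟩ := Finset.mem_image.1 hz
          have := hB u hu
          have := (hpar u hu).2
          omega
        have hfib : ∀ z ∈ B.image par, (B.filter fun u => par u = z).card ≤ d - 1 := by
          intro z hz
          have hzo : z ≠ o := fun h => by
            have := hP z hz
            simp [h] at this
          obtain ⟨q, hq, hdq⟩ := exists_closer hG hzo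
          calc (B.filter fun u => par u = z).card
              ≤ ((hd.finite_nbr hd3 z).toFinset.erase q).card := by
                refine Finset.card_le_card fun u hu => ?_
                rw [Finset.mem_filter] at hu
                rw [Finset.mem_erase, Set.Finite.mem_toFinset]
                obtain ⟨h1, h2⟩ := hpar u hu.1
                rw [hu.2] at h1 h2
                refine ⟨?_, h1.symm⟩
                rintro rfl
                omega
            _ = d - 1 := by
                rw [Finset.card_erase_of_mem (by simpa using hq), ← Set.ncard_eq_toFinset_card _ (hd.finite_nbr hd3 z),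
                  hd z]
        calc B.card ≤ (d-1) * (B.image par).card :=
              Finset.card_le_mul_card_image B _ hfib
          _ ≤ (d-1) * (d * (d-1) ^ n) := Nat.mul_le_mul_left _ (ih _ hP)
          _ = d * (d-1) ^ (n+1) := by ring
    intro n B hB
    rcases n with _ | n
    · have : B.card ≤ 1 := Finset.card_le_one.2 fun a ha b hb => by
        rw [← (hG.connected.dist_eq_zero_iff).1 (hB a ha),
          ← (hG.connected.dist_eq_zero_iff).1 (hB b hb)]
      have : (B.card : ℝ) ≤ 1 := by exact_mod_cast this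
      simp only [pow_zero, mul_one]
      have : (3:ℝ) ≤ d := by exact_mod_cast hd3
      linarith
    · have := strong n B hB
      have h : (B.card : ℝ) ≤ d * ((d:ℝ)-1) ^ n := by
        have h' : ((B.card : ℕ) : ℝ) ≤ ((d * (d-1) ^ n : ℕ) : ℝ) := by exact_mod_cast this
        rw [Nat.cast_mul, Nat.cast_pow, Nat.cast_sub (by omega)] at h'
        simpa using h'
      refine h.trans ?_
      rw [pow_succ]
      have hp : (0:ℝ) ≤ d * ((d:ℝ)-1) ^ n := by positivity
      nlinarith
  set M := A.sup (fun u => G.dist o u) with hM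
  have hmap : ∀ u ∈ A, G.dist o u ∈ Finset.Ico R (M+1) := fun u hu => by
    have h1 : G.dist o u ≤ M := Finset.le_sup (f := fun u => G.dist o u) hu
    rw [Finset.mem_Ico]
    exact ⟨hA u hu, by omega⟩
  rw [← Finset.sum_fiberwise_of_maps_to hmap]
  calc ∑ n ∈ Finset.Ico R (M+1), ∑ u ∈ A.filter (fun u => G.dist o u = n), x ^ G.dist o u
      ≤ ∑ n ∈ Finset.Ico R (M+1), (d:ℝ) * y ^ n := by
        refine Finset.sum_le_sum fun n _ => ?_
        rw [Finset.sum_congr rfl (g := fun _ => x ^ n)
          (fun u hu => by rw [(Finset.mem_filter.1 hu).2]), Finset.sum_const, nsmul_eq_mul]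
        refine (mul_le_mul_of_nonneg_right (sphere n _ fun u hu => (Finset.mem_filter.1 hu).2)
          (pow_nonneg hx n)).trans_eq ?_
        rw [hy, mul_pow]
        ring
    _ = (d:ℝ) * ∑ n ∈ Finset.Ico R (M+1), y ^ n := (Finset.mul_sum _ _ _).symm
    _ ≤ (d:ℝ) * (y ^ R / (1 - y)) :=
        mul_le_mul_of_nonneg_left (geom_sum_Ico_le_of_lt_one hy0 hx1) (Nat.cast_nonneg d)
    _ = _ := by ring

/-- If the first step from `v` towards `w` is `p`, and `u` is on the `v`-side of that edge,
then `v` lies between `u` and `w`. -/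
lemma dist_add_of_split (hG : G.IsTree) : ∀ n : ℕ, ∀ {u v w p : V}, G.dist v w = n → G.Adj v p →
    G.dist w v = G.dist w p + 1 → G.dist u p = G.dist u v + 1 →
      G.dist u w = G.dist u v + n := by
  intro n
  induction n with
  | zero =>
    intro u v w p hn _ h1 _
    rw [SimpleGraph.dist_comm] at hn
    omega
  | succ n ih =>
    intro u v w p hn hvp h1 h2
    have hn' : G.dist w v = n + 1 := by rw [SimpleGraph.dist_comm]; exact hn
    have hpw : G.dist p w = n := by rw [SimpleGraph.dist_comm]; omega
    by_cases hp : p = w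
    · subst hp
      rw [SimpleGraph.dist_self] at hpw
      omega
    · obtain ⟨p', hp', hdp'⟩ := exists_closer hG hp
      have hne : p' ≠ v := fun h => by
        rw [h] at hdp'
        omega
      have h3 : G.dist u p' = G.dist u p + 1 := by
        rcases hG.dist_eq_dist_add_one_of_adj u hp' with h | h
        · exact absurd (closer_unique hG hp' hvp.symm h h2) hne
        · exact h
      have := ih hpw hp' hdp' h3
      omega

/-- The kernel `θ ^ dist` has the radial function `a ^ dist` as a super-solution. -/
lemma kernel_supersolution {d : ℕ} (hG : G.IsTree) (hd : Regular G d) (hd3 : 3 ≤ d)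
    {θ a : ℝ} (hθ : 0 ≤ θ) (hθa : θ < a) (hha : ((d:ℝ)-1) * (θ * a) < 1)
    (A : Finset V) (v w : V) :
    ∑ u ∈ A, θ ^ G.dist v u * a ^ G.dist u w ≤
      (d / (1 - ((d:ℝ)-1) * (θ * a))) * (a / (a - θ)) * a ^ G.dist v w := by
  classical
  have ha : 0 < a := lt_of_le_of_lt hθ hθa
  set B : ℝ := d / (1 - ((d:ℝ)-1) * (θ * a)) with hB
  have hB0 : 0 ≤ B := div_nonneg (Nat.cast_nonneg d) (by linarith)
  have hC : B ≤ B * (a / (a - θ)) := by
    refine le_mul_of_one_le_right hB0 ?_
    rw [le_div_iff₀ (by linarith)]
    linarith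
  have base : ∀ v, ∑ u ∈ A, (θ * a) ^ G.dist v u ≤ B := fun v => by
    have := sum_pow_dist_le hG hd hd3 v A (mul_nonneg hθ ha.le) hha 0 (fun _ _ => Nat.zero_le _)
    simpa [hB] using this
  induction h : G.dist v w generalizing v with
  | zero =>
    have hvw : v = w := (hG.connected.dist_eq_zero_iff).1 h
    subst hvw
    simp only [pow_zero, mul_one]
    refine le_trans (le_of_eq ?_) ((base v).trans hC)
    refine Finset.sum_congr rfl fun u _ => ?_
    rw [SimpleGraph.dist_comm (u := u) (v := v), mul_pow]
  | succ n ih =>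
    have hne : v ≠ w := fun e => by simp [e] at h
    obtain ⟨p, hp, hdp⟩ := exists_closer hG (u := w) hne
    have hpn : G.dist p w = n := by
      rw [SimpleGraph.dist_comm] at h ⊢
      omega
    rw [← Finset.sum_filter_add_sum_filter_not A (fun u => G.dist u p = G.dist u v + 1)]
    have e1 : ∑ u ∈ A.filter (fun u => G.dist u p = G.dist u v + 1),
        θ ^ G.dist v u * a ^ G.dist u w ≤ a ^ (n+1) * B := by
      calc _ = a ^ (n+1) * ∑ u ∈ A.filter (fun u => G.dist u p = G.dist u v + 1),
              (θ * a) ^ G.dist v u := by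
            rw [Finset.mul_sum]
            refine Finset.sum_congr rfl fun u hu => ?_
            rw [dist_add_of_split hG (n+1) h hp hdp (Finset.mem_filter.1 hu).2,
              SimpleGraph.dist_comm (u := u) (v := v), pow_add, mul_pow]
            ring
        _ ≤ _ := by
            refine mul_le_mul_of_nonneg_left ?_ (by positivity)
            exact le_trans (Finset.sum_le_sum_of_subset_of_nonneg (Finset.filter_subset _ _)
              (fun _ _ _ => by positivity)) (base v)
    have e2 : ∑ u ∈ A.filter (fun u => ¬ G.dist u p = G.dist u v + 1),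
        θ ^ G.dist v u * a ^ G.dist u w ≤ θ * (B * (a / (a - θ)) * a ^ n) := by
      calc _ ≤ θ * ∑ u ∈ A.filter (fun u => ¬ G.dist u p = G.dist u v + 1),
              θ ^ G.dist p u * a ^ G.dist u w := by
            rw [Finset.mul_sum]
            refine Finset.sum_le_sum fun u hu => le_of_eq ?_
            rcases hG.dist_eq_dist_add_one_of_adj u hp with h' | h'
            · rw [SimpleGraph.dist_comm (u := v) (v := u), h', SimpleGraph.dist_comm (u := u) (v := p),
                pow_succ]
              ring
            · exact absurd h' (Finset.mem_filter.1 hu).2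
        _ ≤ θ * ∑ u ∈ A, θ ^ G.dist p u * a ^ G.dist u w :=
            mul_le_mul_of_nonneg_left (Finset.sum_le_sum_of_subset_of_nonneg
              (Finset.filter_subset _ _) (fun _ _ _ => by positivity)) hθ
        _ ≤ _ := mul_le_mul_of_nonneg_left (ih p hpn) hθ
    refine (add_le_add e1 e2).trans_eq ?_
    have : a - θ ≠ 0 := by linarith
    field_simp
    ring

end Vale.Agent.P161
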