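import Mathlib.Data.Finset.Sym
import Mathlib.Analysis.SpecialFunctions.Trigonometric.DerivHyp
import Mathlib.Analysis.SpecialFunctions.Artanh
import Mathlib.Analysis.Calculus.MeanValue
import Vale.Agent.P161.Tree

/-!
The free Ising model on a finite closed subset of a tree, tilted by arbitrary fields:
leaf elimination, the influence bound, and consistency.
-/

namespace Vale.Agent.P161

open Finset Function
open scoped Classical

noncomputable section

variable {V : Type*}

/-- The spin configuration that is `+1` on `S` and `-1` elsewhere. -/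
def spin (S : Finset V) (v : V) : ℝ := if v ∈ S then 1 else -1

lemma spin_sq (S : Finset V) (v : V) : spin S v * spin S v = 1 := by
  unfold spin; split_ifs <;> norm_num

lemma abs_spin (S : Finset V) (v : V) : |spin S v| = 1 := by
  unfold spin; split_ifs <;> norm_num

lemma spin_insert_of_ne {S : Finset V} {x v : V} (h : v ≠ x) :
    spin (insert x S) v = spin S v := by
  simp [spin, h]

lemma spin_insert_self (S : Finset V) (x : V) : spin (insert x S) x = 1 := by
  simp [spin]

lemma spin_notMem {S : Finset V} {x : V} (h : x ∉ S) : spin S x = -1 := by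
  simp [spin, h]

/-- The factor `1 + θ s_u s_v` of an edge. -/
def edgeFactor (θ : ℝ) (s : V → ℝ) : Sym2 V → ℝ :=
  Sym2.lift ⟨fun u v => 1 + θ * s u * s v, fun u v => by ring⟩

@[simp] lemma edgeFactor_mk (θ : ℝ) (s : V → ℝ) (u v : V) :
    edgeFactor θ s s(u, v) = 1 + θ * s u * s v := rfl

/-- The edges of `G` inside `D`. -/
def edgesIn (G : SimpleGraph V) (D : Finset V) : Finset (Sym2 V) :=
  D.sym2.filter (· ∈ G.edgeSet)

variable (G : SimpleGraph V) (θ : ℝ)

/-- The weight of a configuration on `D`. -/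
def wt (D : Finset V) (s : V → ℝ) : ℝ := ∏ e ∈ edgesIn G D, edgeFactor θ s e

/-- The unnormalised sum of `f` over configurations on `D`, tilted by `g`. -/
def Sm (D : Finset V) (g : V → ℝ) (f : (V → ℝ) → ℝ) : ℝ :=
  ∑ S ∈ D.powerset, wt G θ D (spin S) * (∏ v ∈ D, (1 + g v * spin S v)) * f (spin S)

/-- The tilted expectation. -/
def avg (D : Finset V) (g : V → ℝ) (f : (V → ℝ) → ℝ) : ℝ :=
  Sm G θ D g f / Sm G θ D g (fun _ => 1)

/-- The tilted mean of a spin. -/
def mean (D : Finset V) (g : V → ℝ) (v : V) : ℝ := avg G θ D g (fun s => s v)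

/-- The tilted covariance of two spins. -/
def cv (D : Finset V) (g : V → ℝ) (v w : V) : ℝ :=
  avg G θ D g (fun s => s v * s w) - mean G θ D g v * mean G θ D g w

/-- `f` only looks at the spins in `A`. -/
def DepOn (f : (V → ℝ) → ℝ) (A : Finset V) : Prop :=
  ∀ s t : V → ℝ, (∀ v ∈ A, s v = t v) → f s = f t

/-- Admissible tilts. -/
def Fld (g : V → ℝ) : Prop := ∀ v, |g v| < 1

/-- Admissible interaction. -/
def Par (θ : ℝ) : Prop := 0 ≤ θ ∧ θ < 1

variable {G θ}

lemma Fld.update {g : V → ℝ} (h : Fld g) (x : V) {c : ℝ} (hc : |c| < 1) :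
    Fld (Function.update g x c) := by
  intro v
  by_cases e : v = x
  · subst e; simpa using hc
  · rw [Function.update_of_ne e]; exact h v

lemma Fld.zero : Fld (fun _ : V => (0:ℝ)) := fun _ => by simp

lemma edgesIn_peel {D : Finset V} {x p : V} (hx : x ∈ D) (hp : p ∈ D.erase x) (hxp : G.Adj x p)
    (hu : ∀ z ∈ D, G.Adj x z → z = p) :
    edgesIn G D = insert s(x, p) (edgesIn G (D.erase x)) ∧
      s(x, p) ∉ edgesIn G (D.erase x) := by
  refine ⟨?_, by simp [edgesIn]⟩
  have hp' := (Finset.mem_erase.1 hp).2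
  ext e
  induction e using Sym2.ind with
  | _ a b =>
    simp only [edgesIn, Finset.mem_filter, Finset.mem_insert, Finset.mk_mem_sym2_iff,
      Finset.mem_erase, SimpleGraph.mem_edgeSet]
    constructor
    · rintro ⟨⟨ha, hb⟩, hab⟩
      by_cases h1 : a = x
      · subst h1
        left
        rw [hu b hb hab]
      · by_cases h2 : b = x
        · subst h2
          left
          rw [hu a ha hab.symm, Sym2.eq_swap]
        · exact Or.inr ⟨⟨⟨h1, ha⟩, h2, hb⟩, hab⟩
    · rintro (h | ⟨⟨⟨_, ha⟩, _, hb⟩, hab⟩)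
      · rcases Sym2.eq_iff.1 h with ⟨rfl, rfl⟩ | ⟨rfl, rfl⟩
        · exact ⟨⟨hx, hp'⟩, hxp⟩
        · exact ⟨⟨hp', hx⟩, hxp.symm⟩
      · exact ⟨⟨ha, hb⟩, hab⟩

lemma wt_congr {D : Finset V} {s t : V → ℝ} (h : ∀ v ∈ D, s v = t v) :
    wt G θ D s = wt G θ D t := by
  refine Finset.prod_congr rfl fun e he => ?_
  induction e using Sym2.ind with
  | _ a b =>
    simp only [edgesIn, Finset.mem_filter, Finset.mk_mem_sym2_iff] at he
    simp [h a he.1.1, h b he.1.2]

section peel

variable {D : Finset V} {x p : V}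

/-- Leaf elimination. -/
lemma Sm_peel (hx : x ∈ D) (hp : p ∈ D.erase x) (hxp : G.Adj x p)
    (hu : ∀ z ∈ D, G.Adj x z → z = p) (g : V → ℝ) (f : (V → ℝ) → ℝ) :
    Sm G θ D g f = ∑ S ∈ (D.erase x).powerset,
      wt G θ (D.erase x) (spin S) * (∏ v ∈ D.erase x, (1 + g v * spin S v)) *
        ((1 + θ * spin S p) * (1 + g x) * f (spin (insert x S))
          + (1 - θ * spin S p) * (1 - g x) * f (spin S)) := by
  obtain ⟨he, hne⟩ := edgesIn_peel hx hp hxp hu
  have hpx : p ≠ x := (Finset.mem_erase.1 hp).1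
  have hnx : x ∉ D.erase x := Finset.notMem_erase x D
  unfold Sm
  conv_lhs => rw [← Finset.insert_erase hx, Finset.sum_powerset_insert hnx,
    ← Finset.sum_add_distrib]
  refine Finset.sum_congr rfl fun S hS => ?_
  rw [Finset.mem_powerset] at hS
  have hxS : x ∉ S := fun h => hnx (hS h)
  rw [Finset.insert_erase hx]
  have w1 : wt G θ D (spin S) = (1 - θ * spin S p) * wt G θ (D.erase x) (spin S) := by
    unfold wt
    rw [he, Finset.prod_insert hne, edgeFactor_mk, spin_notMem hxS]
    ring
  have w2 : wt G θ D (spin (insert x S))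
      = (1 + θ * spin S p) * wt G θ (D.erase x) (spin S) := by
    rw [← wt_congr (D := D.erase x) (s := spin (insert x S)) (t := spin S)
      (fun v hv => spin_insert_of_ne (Finset.mem_erase.1 hv).1)]
    unfold wt
    rw [he, Finset.prod_insert hne, edgeFactor_mk, spin_insert_self, spin_insert_of_ne hpx]
    ring
  have p1 : ∏ v ∈ D, (1 + g v * spin S v)
      = (1 - g x) * ∏ v ∈ D.erase x, (1 + g v * spin S v) := by
    rw [← Finset.mul_prod_erase D _ hx, spin_notMem hxS]
    ring
  have p2 : ∏ v ∈ D, (1 + g v * spin (insert x S) v)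
      = (1 + g x) * ∏ v ∈ D.erase x, (1 + g v * spin S v) := by
    rw [← Finset.mul_prod_erase D _ hx, spin_insert_self]
    rw [Finset.prod_congr rfl (fun v hv => by
      rw [spin_insert_of_ne (S := S) (Finset.mem_erase.1 hv).1])]
    ring
  rw [w1, w2, p1, p2]
  ring

lemma Sm_peel_dep (hx : x ∈ D) (hp : p ∈ D.erase x) (hxp : G.Adj x p)
    (hu : ∀ z ∈ D, G.Adj x z → z = p) (g : V → ℝ) {f : (V → ℝ) → ℝ}
    (hf : DepOn f (D.erase x)) :
    Sm G θ D g f = 2 * Sm G θ (D.erase x) g (fun s => (1 + θ * g x * s p) * f s) := by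
  rw [Sm_peel hx hp hxp hu]
  unfold Sm
  rw [Finset.mul_sum]
  refine Finset.sum_congr rfl fun S _ => ?_
  rw [hf (spin (insert x S)) (spin S) fun v hv => spin_insert_of_ne (Finset.mem_erase.1 hv).1]
  ring

lemma Sm_peel_mul (hx : x ∈ D) (hp : p ∈ D.erase x) (hxp : G.Adj x p)
    (hu : ∀ z ∈ D, G.Adj x z → z = p) (g : V → ℝ) {f : (V → ℝ) → ℝ}
    (hf : DepOn f (D.erase x)) :
    Sm G θ D g (fun s => f s * s x)
      = 2 * Sm G θ (D.erase x) g (fun s => (g x + θ * s p) * f s) := by
  rw [Sm_peel hx hp hxp hu]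
  unfold Sm
  rw [Finset.mul_sum]
  refine Finset.sum_congr rfl fun S hS => ?_
  rw [Finset.mem_powerset] at hS
  have hxS : x ∉ S := fun h => Finset.notMem_erase x D (hS h)
  rw [hf (spin (insert x S)) (spin S) fun v hv => spin_insert_of_ne (Finset.mem_erase.1 hv).1,
    spin_insert_self, spin_notMem hxS]
  ring

end peel

lemma Sm_add (D : Finset V) (g : V → ℝ) (f₁ f₂ : (V → ℝ) → ℝ) :
    Sm G θ D g (fun s => f₁ s + f₂ s) = Sm G θ D g f₁ + Sm G θ D g f₂ := by
  unfold Sm; rw [← Finset.sum_add_distrib]
  exact Finset.sum_congr rfl fun _ _ => by ring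

lemma Sm_smul (D : Finset V) (g : V → ℝ) (c : ℝ) (f : (V → ℝ) → ℝ) :
    Sm G θ D g (fun s => c * f s) = c * Sm G θ D g f := by
  unfold Sm; rw [Finset.mul_sum]
  exact Finset.sum_congr rfl fun _ _ => by ring

lemma Sm_congr {D : Finset V} {g g' : V → ℝ} {f f' : (V → ℝ) → ℝ} (hg : ∀ v ∈ D, g v = g' v)
    (hf : ∀ S ∈ D.powerset, f (spin S) = f' (spin S)) :
    Sm G θ D g f = Sm G θ D g' f' := by
  refine Finset.sum_congr rfl fun S hS => ?_
  rw [hf S hS, Finset.prod_congr rfl (fun v hv => by rw [hg v hv])]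

lemma wt_pos (hθ : Par θ) (D : Finset V) (S : Finset V) : 0 < wt G θ D (spin S) := by
  refine Finset.prod_pos fun e _ => ?_
  induction e using Sym2.ind with
  | _ a b =>
    rw [edgeFactor_mk]
    obtain ⟨h0, h1⟩ := hθ
    unfold spin
    split_ifs <;> linarith

lemma tilt_pos {g : V → ℝ} (hg : Fld g) (D S : Finset V) :
    0 < ∏ v ∈ D, (1 + g v * spin S v) := by
  refine Finset.prod_pos fun v _ => ?_
  have := abs_lt.1 (hg v)
  unfold spin
  split_ifs <;> linarith [this.1, this.2]

lemma Sm_one_pos (hθ : Par θ) (D : Finset V) {g : V → ℝ} (hg : Fld g) :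
    0 < Sm G θ D g (fun _ => 1) :=
  Finset.sum_pos (fun S _ => by
    rw [mul_one]; exact mul_pos (wt_pos hθ D S) (tilt_pos hg D S)) ⟨∅, by simp⟩

lemma avg_add (D : Finset V) (g : V → ℝ) (f₁ f₂ : (V → ℝ) → ℝ) :
    avg G θ D g (fun s => f₁ s + f₂ s) = avg G θ D g f₁ + avg G θ D g f₂ := by
  unfold avg; rw [Sm_add, add_div]

lemma avg_smul (D : Finset V) (g : V → ℝ) (c : ℝ) (f : (V → ℝ) → ℝ) :
    avg G θ D g (fun s => c * f s) = c * avg G θ D g f := by
  unfold avg; rw [Sm_smul, mul_div_assoc]

lemma avg_one (hθ : Par θ) (D : Finset V) {g : V → ℝ} (hg : Fld g) :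
    avg G θ D g (fun _ => 1) = 1 :=
  div_self (Sm_one_pos hθ D hg).ne'

lemma abs_avg_le (hθ : Par θ) (D : Finset V) {g : V → ℝ} (hg : Fld g) {f : (V → ℝ) → ℝ} {B : ℝ}
    (hf : ∀ S, |f (spin S)| ≤ B) : |avg G θ D g f| ≤ B := by
  have hpos := Sm_one_pos (G := G) hθ D hg
  unfold avg
  rw [abs_div, abs_of_pos hpos, div_le_iff₀ hpos]
  unfold Sm
  refine (Finset.abs_sum_le_sum_abs _ _).trans ?_
  rw [Finset.mul_sum]
  refine Finset.sum_le_sum fun S _ => ?_
  have := mul_pos (wt_pos (G := G) hθ D S) (tilt_pos hg D S)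
  rw [abs_mul, abs_of_pos this, mul_one, mul_comm B]
  exact mul_le_mul_of_nonneg_left (hf S) this.le

lemma abs_mean_le (hθ : Par θ) (D : Finset V) {g : V → ℝ} (hg : Fld g) (v : V) :
    |mean G θ D g v| ≤ 1 :=
  abs_avg_le hθ D hg fun S => (abs_spin S v).le

lemma one_add_mul_pos {a b : ℝ} (ha : |a| < 1) (hb : |b| ≤ 1) : 0 < 1 + a * b := by
  have : |a * b| < 1 := by
    rw [abs_mul]
    calc |a| * |b| ≤ |a| * 1 := mul_le_mul_of_nonneg_left hb (abs_nonneg a)
      _ < 1 := by simpa using ha
  linarith [(abs_lt.1 this).1]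

lemma Par.mul_abs_lt {θ : ℝ} (hθ : Par θ) {a : ℝ} (ha : |a| ≤ 1) : |θ * a| < 1 := by
  rw [abs_mul, abs_of_nonneg hθ.1]
  calc θ * |a| ≤ θ * 1 := mul_le_mul_of_nonneg_left ha hθ.1
    _ < 1 := by simpa using hθ.2

/-- Absorbing a factor `1 + a s_p` into the tilt at `p`. -/
lemma Sm_absorb {D : Finset V} {p : V} (hp : p ∈ D) {g : V → ℝ} (hg : Fld g) {a : ℝ}
    (ha : |a| < 1) (f : (V → ℝ) → ℝ) :
    Sm G θ D g (fun s => (1 + a * s p) * f s)
      = (1 + a * g p) * Sm G θ D (update g p ((g p + a) / (1 + a * g p))) f := by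
  have hne : 1 + a * g p ≠ 0 := (one_add_mul_pos ha (hg p).le).ne'
  unfold Sm
  rw [Finset.mul_sum]
  refine Finset.sum_congr rfl fun S _ => ?_
  have hprod : ∏ v ∈ D.erase p, (1 + update g p ((g p + a) / (1 + a * g p)) v * spin S v)
      = ∏ v ∈ D.erase p, (1 + g v * spin S v) :=
    Finset.prod_congr rfl fun v hv => by rw [update_of_ne (Finset.mem_erase.1 hv).1]
  rw [← Finset.mul_prod_erase D _ hp, ← Finset.mul_prod_erase D _ hp, update_self, hprod]
  have key : (1 + g p * spin S p) * (1 + a * spin S p)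
      = (1 + a * g p) * (1 + (g p + a) / (1 + a * g p) * spin S p) := by
    rw [mul_add (1 + a * g p), ← mul_assoc (1 + a * g p), mul_div_cancel₀ _ hne]
    linear_combination (a * g p) * spin_sq S p
  linear_combination (wt G θ D (spin S) *
    (∏ v ∈ D.erase p, (1 + g v * spin S v)) * f (spin S)) * key

lemma absorb_abs_lt {a b : ℝ} (ha : |a| < 1) (hb : |b| < 1) : |(b + a) / (1 + a * b)| < 1 := by
  have h := one_add_mul_pos ha hb.le
  rw [abs_div, abs_of_pos h, div_lt_one h, abs_lt]
  obtain ⟨a1, a2⟩ := abs_lt.1 ha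
  obtain ⟨b1, b2⟩ := abs_lt.1 hb
  constructor <;> nlinarith

lemma cv_self (hθ : Par θ) (D : Finset V) {g : V → ℝ} (hg : Fld g) (v : V) :
    cv G θ D g v v = 1 - mean G θ D g v ^ 2 := by
  unfold cv
  rw [sq]
  congr 1
  rw [← avg_one (G := G) hθ D hg]
  unfold avg
  rw [Sm_congr (fun _ _ => rfl) (fun S _ => spin_sq S v) (f := fun s : V → ℝ => s v * s v)
    (f' := fun _ => (1:ℝ))]

lemma one_sub_sq_mean_nonneg (hθ : Par θ) (D : Finset V) {g : V → ℝ} (hg : Fld g) (v : V) :
    0 ≤ 1 - mean G θ D g v ^ 2 := by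
  have := abs_le.1 (abs_mean_le (G := G) hθ D hg v)
  nlinarith [this.1, this.2]

set_option maxHeartbeats 1000000 in
/-- Influences decay at least like `θ ^ dist`, whatever the fields. -/
theorem cov_bound (hG : G.IsTree) (hθ : Par θ) :
    ∀ (D : Finset V), Closed G D → ∀ {g : V → ℝ}, Fld g → ∀ {v w : V}, v ∈ D → w ∈ D →
      |cv G θ D g v w| ≤ θ ^ G.dist v w * (1 - mean G θ D g w ^ 2) := by
  intro D
  induction D using Finset.strongInduction with
  | H D ih =>
    intro hD g hg v w hv hw
    by_cases hvw : v = w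
    · subst hvw
      rw [SimpleGraph.dist_self, pow_zero, one_mul, cv_self hθ D hg,
        abs_of_nonneg (one_sub_sq_mean_nonneg hθ D hg v)]
    · obtain ⟨x, hx, hxv, p, hp, hxp, hu, hD'⟩ := exists_leaf hG hD (closed_singleton v)
        ⟨v, by simp⟩ (by simpa using hv) (fun h => hvw (by
          have := h.symm ▸ hw
          exact (Finset.mem_singleton.1 this).symm))
      rw [Finset.mem_singleton] at hxv
      have hss : D.erase x ⊂ D := Finset.erase_ssubset hx
      have hv' : v ∈ D.erase x := Finset.mem_erase.2 ⟨Ne.symm hxv, hv⟩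
      by_cases hxw : x = w
      · subst hxw
        have IH := ih _ hss hD' hg hv' hp
        set a := g x with ha
        set A := mean G θ (D.erase x) g v with hA
        set m := mean G θ (D.erase x) g p with hm
        set B := avg G θ (D.erase x) g (fun s => s v * s p) with hB
        set Z := Sm G θ (D.erase x) g (fun _ => 1) with hZ
        have hZ0 : 0 < Z := Sm_one_pos hθ _ hg
        have hA' : Sm G θ (D.erase x) g (fun s => s v) = A * Z := by
          rw [hA]; unfold mean avg; rw [div_mul_cancel₀ _ hZ0.ne']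
        have hm' : Sm G θ (D.erase x) g (fun s => s p) = m * Z := by
          rw [hm]; unfold mean avg; rw [div_mul_cancel₀ _ hZ0.ne']
        have hB' : Sm G θ (D.erase x) g (fun s => s v * s p) = B * Z := by
          rw [hB]; unfold avg; rw [div_mul_cancel₀ _ hZ0.ne']
        have d1 : DepOn (fun _ : V → ℝ => (1:ℝ)) (D.erase x) := fun _ _ _ => rfl
        have dv : DepOn (fun s : V → ℝ => s v) (D.erase x) := fun s t h => h v hv'
        have e1 : Sm G θ D g (fun _ => 1) = 2 * ((1 + θ * a * m) * Z) := by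
          rw [Sm_peel_dep hx hp hxp hu g d1,
            show (fun s : V → ℝ => (1 + θ * g x * s p) * (1:ℝ))
              = (fun s => (fun _ => (1:ℝ)) s + (θ * a) * s p) from funext fun s => by
                simp only [← ha]; ring,
            Sm_add, Sm_smul, hm']
          ring
        have e2 : Sm G θ D g (fun s => s v) = 2 * ((A + θ * a * B) * Z) := by
          rw [Sm_peel_dep hx hp hxp hu g dv,
            show (fun s : V → ℝ => (1 + θ * g x * s p) * s v)
              = (fun s => s v + (θ * a) * (s v * s p)) from funext fun s => by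
                simp only [← ha]; ring,
            Sm_add, Sm_smul, hA', hB']
          ring
        have e3 : Sm G θ D g (fun s => s x) = 2 * ((a + θ * m) * Z) := by
          rw [show (fun s : V → ℝ => s x) = (fun s => (fun _ => (1:ℝ)) s * s x) from
              funext fun s => by simp,
            Sm_peel_mul hx hp hxp hu g d1,
            show (fun s : V → ℝ => (g x + θ * s p) * (1:ℝ))
              = (fun s => a * (fun _ => (1:ℝ)) s + θ * s p) from funext fun s => by
                simp only [← ha]; ring,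
            Sm_add, Sm_smul, Sm_smul, hm']
          ring
        have e4 : Sm G θ D g (fun s => s v * s x) = 2 * ((a * A + θ * B) * Z) := by
          rw [Sm_peel_mul hx hp hxp hu g dv,
            show (fun s : V → ℝ => (g x + θ * s p) * s v)
              = (fun s => a * s v + θ * (s v * s p)) from funext fun s => by
                simp only [← ha]; ring,
            Sm_add, Sm_smul, Sm_smul, hA', hB']
          ring
        have hma : |m| ≤ 1 := abs_mean_le hθ _ hg p
        have hden : 0 < 1 + θ * a * m := one_add_mul_pos (hθ.mul_abs_lt (hg x).le) hma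
        have m1 : mean G θ D g v = (A + θ * a * B) / (1 + θ * a * m) := by
          unfold mean avg
          rw [e1, e2, mul_div_mul_left _ _ two_ne_zero, mul_div_mul_right _ _ hZ0.ne']
        have m2 : mean G θ D g x = (a + θ * m) / (1 + θ * a * m) := by
          unfold mean avg
          rw [e1, e3, mul_div_mul_left _ _ two_ne_zero, mul_div_mul_right _ _ hZ0.ne']
        have m3 : avg G θ D g (fun s => s v * s x) = (a * A + θ * B) / (1 + θ * a * m) := by
          unfold avg
          rw [e1, e4, mul_div_mul_left _ _ two_ne_zero, mul_div_mul_right _ _ hZ0.ne']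
        have hd := hden.ne'
        have c1 : cv G θ D g v x
            = θ * (1 - a ^ 2) * (B - A * m) / (1 + θ * a * m) ^ 2 := by
          unfold cv
          rw [m1, m2, m3, div_mul_div_comm, div_sub_div _ _ hd (mul_ne_zero hd hd),
            div_eq_div_iff (mul_ne_zero hd (mul_ne_zero hd hd)) (pow_ne_zero 2 hd)]
          ring
        have c2 : 1 - mean G θ D g x ^ 2
            = (1 - a ^ 2) * (1 - θ ^ 2 * m ^ 2) / (1 + θ * a * m) ^ 2 := by
          rw [m2, div_pow, eq_div_iff (pow_ne_zero 2 hd), sub_mul,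
            div_mul_cancel₀ _ (pow_ne_zero 2 hd)]
          ring
        have hIH : |B - A * m| ≤ θ ^ G.dist v p * (1 - m ^ 2) := IH
        have ha2 : 0 ≤ 1 - a ^ 2 := sub_nonneg.2 ((sq_le_one_iff_abs_le_one a).2 (hg x).le)
        have hdist : G.dist v x ≤ G.dist v p + 1 := by
          refine (hG.connected.dist_triangle (v := p)).trans ?_
          rw [SimpleGraph.dist_eq_one_iff_adj.2 hxp.symm]
        rw [c1, c2, abs_div, abs_of_pos (pow_pos hden 2), ← mul_div_assoc]
        gcongr
        rw [abs_mul, abs_mul, abs_of_nonneg hθ.1, abs_of_nonneg ha2]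
        calc θ * (1 - a ^ 2) * |B - A * m|
            ≤ θ * (1 - a ^ 2) * (θ ^ G.dist v p * (1 - m ^ 2)) :=
              mul_le_mul_of_nonneg_left hIH (mul_nonneg hθ.1 ha2)
          _ = θ ^ (G.dist v p + 1) * ((1 - a ^ 2) * (1 - m ^ 2)) := by ring
          _ ≤ θ ^ G.dist v x * ((1 - a ^ 2) * (1 - θ ^ 2 * m ^ 2)) := by
              refine mul_le_mul (pow_le_pow_of_le_one hθ.1 hθ.2.le hdist) ?_ ?_ (by
                have := hθ.1; positivity)
              · exact mul_le_mul_of_nonneg_left (sub_le_sub_left (mul_le_of_le_one_left (sq_nonneg m)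
                  (pow_le_one₀ hθ.1 hθ.2.le)) 1) ha2
              · exact mul_nonneg ha2 (sub_nonneg.2 ((sq_le_one_iff_abs_le_one m).2 hma))
      · have hw' : w ∈ D.erase x := Finset.mem_erase.2 ⟨Ne.symm hxw, hw⟩
        have ht : |θ * g x| < 1 := hθ.mul_abs_lt (hg x).le
        set g' := update g p ((g p + θ * g x) / (1 + θ * g x * g p)) with hg'
        have hgf : Fld g' := hg.update p (absorb_abs_lt ht (hg p))
        have hSm : ∀ f : (V → ℝ) → ℝ, DepOn f (D.erase x) →
            avg G θ D g f = avg G θ (D.erase x) g' f := by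
          intro f hf
          unfold avg
          rw [Sm_peel_dep hx hp hxp hu g hf, Sm_peel_dep hx hp hxp hu g (fun _ _ _ => rfl),
            Sm_absorb hp hg ht, Sm_absorb hp hg ht, ← mul_assoc, ← mul_assoc,
            mul_div_mul_left _ _ (mul_pos two_pos (one_add_mul_pos ht (hg p).le)).ne']
        have e1 : cv G θ D g v w = cv G θ (D.erase x) g' v w := by
          unfold cv mean
          rw [hSm _ (fun s t h => by simp only [h v hv', h w hw']), hSm _ (fun s t h => h v hv'),
            hSm _ (fun s t h => h w hw')]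
        have e2 : mean G θ D g w = mean G θ (D.erase x) g' w := hSm _ (fun s t h => h w hw')
        rw [e1, e2]
        exact ih _ hss hD' hgf hv' hw'

/-- The effect of the tilt at one site. -/
lemma Sm_update {D : Finset V} {w : V} (hw : w ∈ D) (g : V → ℝ) (c : ℝ) (f : (V → ℝ) → ℝ) :
    Sm G θ D (update g w c) f
      = Sm G θ D (update g w 0) f + c * Sm G θ D (update g w 0) (fun s => f s * s w) := by
  unfold Sm
  rw [Finset.mul_sum, ← Finset.sum_add_distrib]
  refine Finset.sum_congr rfl fun S _ => ?_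
  have hprod : ∀ r, ∏ v ∈ D, (1 + update g w r v * spin S v)
      = (1 + r * spin S w) * ∏ v ∈ D.erase w, (1 + g v * spin S v) := fun r => by
    rw [← Finset.mul_prod_erase D _ hw, update_self]
    congr 1
    exact Finset.prod_congr rfl fun v hv => by rw [update_of_ne (Finset.mem_erase.1 hv).1]
  rw [hprod, hprod]
  ring

lemma avg_update (hθ : Par θ) {D : Finset V} {w : V} (hw : w ∈ D) {g : V → ℝ} (hg : Fld g)
    (c : ℝ) (f : (V → ℝ) → ℝ) :
    avg G θ D (update g w c) f =
      (avg G θ D (update g w 0) f + c * avg G θ D (update g w 0) (fun s => f s * s w))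
        / (1 + c * mean G θ D (update g w 0) w) := by
  have hZ := (Sm_one_pos (G := G) hθ D (hg.update w (c := 0) (by simp))).ne'
  unfold mean avg
  rw [Sm_update hw, Sm_update hw g c (fun _ => 1)]
  rw [show (fun s : V → ℝ => (1:ℝ) * s w) = (fun s => s w) from funext fun s => one_mul _]
  field_simp

/-- Changing the tilt at `w` moves the mean at `v` at most `θ ^ dist` times what it moves
the mean at `w`. -/
lemma mean_update_bound (hG : G.IsTree) (hθ : Par θ) {D : Finset V} (hD : Closed G D)
    {g : V → ℝ} (hg : Fld g) {v w : V} (hv : v ∈ D) (hw : w ∈ D) {c c' : ℝ}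
    (hc : |c| < 1) (hc' : |c'| < 1) :
    |mean G θ D (update g w c) v - mean G θ D (update g w c') v| ≤
      θ ^ G.dist v w *
        |mean G θ D (update g w c) w - mean G θ D (update g w c') w| := by
  have h0 : Fld (update g w 0) := hg.update w (by simp)
  set m := mean G θ D (update g w 0) w with hm
  have hm1 : |m| ≤ 1 := abs_mean_le hθ _ h0 w
  have d1 : 0 < 1 + c * m := one_add_mul_pos hc hm1
  have d2 : 0 < 1 + c' * m := one_add_mul_pos hc' hm1
  have main : ∀ u, mean G θ D (update g w c) u - mean G θ D (update g w c') u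
      = (c - c') * cv G θ D (update g w 0) u w / ((1 + c * m) * (1 + c' * m)) := by
    intro u
    have hu : ∀ r, mean G θ D (update g w r) u =
        (mean G θ D (update g w 0) u + r * avg G θ D (update g w 0) (fun s => s u * s w))
          / (1 + r * m) := fun r => by
      conv_lhs => unfold mean
      rw [avg_update hθ hw hg]
      rfl
    unfold cv
    rw [← hm, hu c, hu c', div_sub_div _ _ d1.ne' d2.ne']
    congr 1
    ring
  rw [main, main, cv_self hθ _ h0, ← hm]
  simp only [abs_div, abs_mul]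
  rw [← mul_div_assoc]
  refine div_le_div_of_nonneg_right ?_ (by positivity)
  rw [mul_left_comm, abs_of_nonneg (one_sub_sq_mean_nonneg hθ D h0 w)]
  exact mul_le_mul_of_nonneg_left (cov_bound hG hθ D hD h0 hv hw) (abs_nonneg _)

/-- Consistency: sites with no tilt outside a closed subset can be summed out. -/
lemma Sm_consistent (hG : G.IsTree) {A : Finset V} (hA : Closed G A) (hAne : A.Nonempty)
    {f : (V → ℝ) → ℝ} (hf : DepOn f A) :
    ∀ (D : Finset V), Closed G D → A ⊆ D → ∀ {g : V → ℝ}, (∀ v ∈ D, v ∉ A → g v = 0) →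
      Sm G θ D g f = 2 ^ (D.card - A.card) * Sm G θ A g f := by
  intro D
  induction D using Finset.strongInduction with
  | H D ih =>
    intro hD hsub g hg
    by_cases hAD : A = D
    · subst hAD; simp
    · obtain ⟨x, hx, hxA, p, hp, hxp, hu, hD'⟩ := exists_leaf hG hD hA hAne hsub hAD
      have hsub' : A ⊆ D.erase x := fun y hy =>
        Finset.mem_erase.2 ⟨fun e => hxA (e ▸ hy), hsub hy⟩
      rw [Sm_peel_dep hx hp hxp hu g (fun s t h => hf s t fun v hv => h v (hsub' hv)),
        show (fun s : V → ℝ => (1 + θ * g x * s p) * f s) = f from funext fun s => by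
          rw [hg x hx hxA]; ring,
        ih _ (Finset.erase_ssubset hx) hD' hsub'
          (fun v hv hvA => hg v (Finset.mem_of_mem_erase hv) hvA)]
      have h1 := Finset.card_le_card hsub'
      have h2 := Finset.card_erase_of_mem hx
      have h3 := Finset.card_pos.2 ⟨x, hx⟩
      have hc : D.card - A.card = (D.erase x).card - A.card + 1 := by omega
      rw [hc, pow_succ]
      ring

lemma avg_consistent (hG : G.IsTree) {A D : Finset V} (hA : Closed G A) (hAne : A.Nonempty)
    (hD : Closed G D) (hsub : A ⊆ D) {g : V → ℝ} (hg : ∀ v ∈ D, v ∉ A → g v = 0)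
    {f : (V → ℝ) → ℝ} (hf : DepOn f A) : avg G θ D g f = avg G θ A g f := by
  unfold avg
  rw [Sm_consistent hG hA hAne hf D hD hsub hg,
    Sm_consistent hG hA hAne (fun _ _ _ => rfl) D hD hsub hg,
    mul_div_mul_left _ _ (by positivity : (2:ℝ) ^ (D.card - A.card) ≠ 0)]

lemma Sm_zero_one (hG : G.IsTree) {D : Finset V} (hD : Closed G D) (hne : D.Nonempty) :
    Sm G θ D (fun _ => 0) (fun _ => 1) = 2 ^ D.card := by
  obtain ⟨v, hv⟩ := hne
  rw [Sm_consistent hG (closed_singleton v) ⟨v, by simp⟩ (fun _ _ _ => rfl) D hD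
    (by simpa using hv) (fun _ _ _ => rfl)]
  have : Sm G θ {v} (fun _ => 0) (fun _ => 1) = 2 := by
    have he : edgesIn G {v} = ∅ := by
      refine Finset.eq_empty_of_forall_notMem fun e => ?_
      induction e using Sym2.ind with
      | _ a b =>
        simp only [edgesIn, Finset.mem_filter, Finset.mk_mem_sym2_iff, Finset.mem_singleton,
          SimpleGraph.mem_edgeSet, not_and]
        rintro ⟨rfl, rfl⟩ h
        exact h.ne rfl
    simp [Sm, wt, he]
  rw [this, Finset.card_singleton, ← pow_succ]
  congr 1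
  have := Finset.card_pos.2 ⟨v, hv⟩
  omega

lemma card_edgesIn (hG : G.IsTree) {D : Finset V} (hD : Closed G D) (hne : D.Nonempty) :
    (edgesIn G D).card + 1 = D.card := by
  obtain ⟨v, hv⟩ := hne
  induction D using Finset.strongInduction with
  | H D ih =>
    by_cases hAD : ({v} : Finset V) = D
    · subst hAD
      simp only [Finset.card_singleton, add_eq_right, Finset.card_eq_zero]
      refine Finset.eq_empty_of_forall_notMem fun e => ?_
      induction e using Sym2.ind with
      | _ a b =>
        simp only [edgesIn, Finset.mem_filter, Finset.mk_mem_sym2_iff, Finset.mem_singleton,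
          SimpleGraph.mem_edgeSet, not_and]
        rintro ⟨rfl, rfl⟩ h
        exact h.ne rfl
    · obtain ⟨x, hx, hxA, p, hp, hxp, hu, hD'⟩ :=
        exists_leaf hG hD (closed_singleton v) ⟨v, by simp⟩ (by simpa using hv) hAD
      rw [Finset.mem_singleton] at hxA
      obtain ⟨he, hne⟩ := edgesIn_peel hx hp hxp hu
      rw [he, Finset.card_insert_of_notMem hne,
        ih _ (Finset.erase_ssubset hx) hD' (Finset.mem_erase.2 ⟨Ne.symm hxA, hv⟩),
        Finset.card_erase_add_one hx]

/-! ### The mean as a function of real fields -/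

lemma abs_tanh_lt_one' (y : ℝ) : |Real.tanh y| < 1 := by
  have := Real.tanh_bijOn.mapsTo (Set.mem_univ y)
  exact abs_lt.2 ⟨this.1, this.2⟩

lemma Fld.tanh (y : V → ℝ) : Fld (fun v => Real.tanh (y v)) := fun v => abs_tanh_lt_one' (y v)

variable (G θ)

/-- Mean spins of the free model on `D` tilted by fields `y`; zero outside `D`. -/
def mf (D : Finset V) (y : V → ℝ) (v : V) : ℝ :=
  if v ∈ D then mean G θ D (fun u => Real.tanh (y u)) v else 0

variable {G θ}

lemma abs_mf_le (hθ : Par θ) (D : Finset V) (y : V → ℝ) (v : V) : |mf G θ D y v| ≤ 1 := by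
  unfold mf
  split_ifs
  · exact abs_mean_le hθ D (Fld.tanh y) v
  · simp

lemma single_site_lipschitz {m : ℝ} (hm : |m| ≤ 1) (a b : ℝ) :
    |(m + Real.tanh a) / (1 + Real.tanh a * m) - (m + Real.tanh b) / (1 + Real.tanh b * m)|
      ≤ |a - b| := by
  have hpos : ∀ x, 0 < Real.cosh x + m * Real.sinh x := fun x => by
    have h := one_add_mul_pos (abs_tanh_lt_one' x) hm
    have hc := Real.cosh_pos x
    rw [Real.tanh_eq_sinh_div_cosh] at h
    have : Real.cosh x + m * Real.sinh x
        = Real.cosh x * (1 + Real.sinh x / Real.cosh x * m) := by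
      field_simp
    rw [this]
    exact mul_pos hc h
  have hval : ∀ x, (m + Real.tanh x) / (1 + Real.tanh x * m)
      = (m * Real.cosh x + Real.sinh x) / (Real.cosh x + m * Real.sinh x) := fun x => by
    have hc := (Real.cosh_pos x).ne'
    have h := (hpos x).ne'
    have h' := (one_add_mul_pos (abs_tanh_lt_one' x) hm).ne'
    rw [Real.tanh_eq_sinh_div_cosh] at h' ⊢
    field_simp
  rw [hval, hval]
  have hd : ∀ x : ℝ, HasDerivAt
      (fun x => (m * Real.cosh x + Real.sinh x) / (Real.cosh x + m * Real.sinh x))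
      ((1 - m ^ 2) / (Real.cosh x + m * Real.sinh x) ^ 2) x := by
    intro x
    refine (((Real.hasDerivAt_cosh x).const_mul m).add (Real.hasDerivAt_sinh x)).div
      ((Real.hasDerivAt_cosh x).add ((Real.hasDerivAt_sinh x).const_mul m)) (hpos x).ne'
      |>.congr_deriv ?_
    congr 1
    simp only [Pi.add_apply]
    linear_combination (1 - m ^ 2) * Real.cosh_sq x
  have hb : ∀ x : ℝ, ‖(1 - m ^ 2) / (Real.cosh x + m * Real.sinh x) ^ 2‖ ≤ 1 := by
    intro x
    have hm2 : 0 ≤ 1 - m ^ 2 := by
      have := abs_le.1 hm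
      nlinarith [this.1, this.2]
    rw [Real.norm_eq_abs, abs_of_nonneg (by positivity), div_le_one (pow_pos (hpos x) 2)]
    nlinarith [Real.cosh_sq x, sq_nonneg (m * Real.cosh x + Real.sinh x)]
  have := convex_univ.norm_image_sub_le_of_norm_hasDerivWithin_le
    (fun x _ => (hd x).hasDerivWithinAt) (fun x _ => hb x) (Set.mem_univ b) (Set.mem_univ a)
  simpa using this

lemma mf_update_bound (hG : G.IsTree) (hθ : Par θ) {D : Finset V} (hD : Closed G D)
    (y : V → ℝ) {v w : V} (hv : v ∈ D) (hw : w ∈ D) (a b : ℝ) :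
    |mf G θ D (update y w a) v - mf G θ D (update y w b) v| ≤ θ ^ G.dist v w * |a - b| := by
  set g := fun u => Real.tanh (y u) with hg
  have hupd : ∀ r, (fun u => Real.tanh (update y w r u)) = update g w (Real.tanh r) := fun r => by
    funext u
    by_cases h : u = w
    · subst h; simp
    · simp [update_of_ne h, hg]
  have hgf : Fld g := Fld.tanh y
  unfold mf
  rw [if_pos hv, if_pos hv, hupd, hupd]
  refine (mean_update_bound hG hθ hD hgf hv hw (abs_tanh_lt_one' a) (abs_tanh_lt_one' b)).trans ?_
  refine mul_le_mul_of_nonneg_left ?_ (pow_nonneg hθ.1 _)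
  have h0 : Fld (update g w 0) := hgf.update w (by simp)
  set m := mean G θ D (update g w 0) w with hm
  have hval : ∀ r, mean G θ D (update g w (Real.tanh r)) w
      = (m + Real.tanh r) / (1 + Real.tanh r * m) := fun r => by
    have hsq : avg G θ D (update g w 0) (fun s => s w * s w) = 1 := by
      have := cv_self (G := G) hθ D h0 w
      unfold cv at this
      linarith [sq (mean G θ D (update g w 0) w)]
    rw [hm]
    conv_lhs => unfold mean
    rw [avg_update hθ hw hgf, hsq, mul_one]
    rfl
  rw [hval, hval]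
  exact single_site_lipschitz (abs_mean_le hθ D h0 w) a b

lemma mf_congr {D : Finset V} {y y' : V → ℝ} (h : ∀ u ∈ D, y u = y' u) (v : V) :
    mf G θ D y v = mf G θ D y' v := by
  unfold mf mean avg
  by_cases hv : v ∈ D
  · rw [if_pos hv, if_pos hv]
    rw [Sm_congr (fun u hu => by rw [h u hu]) (fun _ _ => rfl) (g := fun u => Real.tanh (y u))
      (g' := fun u => Real.tanh (y' u)) (f := fun s => s v) (f' := fun s => s v),
      Sm_congr (fun u hu => by rw [h u hu]) (fun _ _ => rfl) (g := fun u => Real.tanh (y u))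
      (g' := fun u => Real.tanh (y' u)) (f := fun _ => (1:ℝ)) (f' := fun _ => (1:ℝ))]
  · rw [if_neg hv, if_neg hv]

lemma mf_lipschitz (hG : G.IsTree) (hθ : Par θ) {D : Finset V} (hD : Closed G D)
    (y y' : V → ℝ) {v : V} (hv : v ∈ D) :
    |mf G θ D y v - mf G θ D y' v| ≤ ∑ u ∈ D, θ ^ G.dist v u * |y u - y' u| := by
  have key : ∀ B : Finset V, B ⊆ D →
      |mf G θ D (B.piecewise y y') v - mf G θ D y' v|
        ≤ ∑ u ∈ B, θ ^ G.dist v u * |y u - y' u| := by
    intro B
    induction B using Finset.induction with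
    | empty => intro _; simp
    | @insert w B hwB ih =>
      intro hsub
      rw [Finset.insert_subset_iff] at hsub
      rw [Finset.sum_insert hwB]
      refine (abs_sub_le _ (mf G θ D (B.piecewise y y') v) _).trans (add_le_add ?_ (ih hsub.2))
      rw [Finset.piecewise_insert]
      have : B.piecewise y y' = update (B.piecewise y y') w (y' w) := by
        rw [eq_comm, update_eq_self_iff, Finset.piecewise_eq_of_notMem _ _ _ hwB]
      nth_rewrite 2 [this]
      exact mf_update_bound hG hθ hD _ hv hsub.1 _ _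
  refine le_trans (le_of_eq ?_) (key D subset_rfl)
  rw [mf_congr (fun u hu => (Finset.piecewise_eq_of_mem D y y' hu).symm)]

lemma mf_restrict (hG : G.IsTree) {A D : Finset V} (hA : Closed G A) (hD : Closed G D)
    (hsub : A ⊆ D) (y : V → ℝ) {v : V} (hv : v ∈ A) :
    mf G θ D ((↑A : Set V).indicator y) v = mf G θ A y v := by
  rw [← mf_congr (D := A) (y := (↑A : Set V).indicator y) (y' := y)
    (fun u hu => by simp [hu])]
  unfold mf mean
  rw [if_pos hv, if_pos (hsub hv)]
  exact avg_consistent hG hA ⟨v, hv⟩ hD hsub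
    (fun u _ hu => by simp [hu]) (fun s t h => h v hv)

lemma mf_step_bound (hG : G.IsTree) (hθ : Par θ) {D : Finset V} (hD : Closed G D)
    (y : V → ℝ) {v w : V} (hv : v ∈ D) (hw : w ∈ D) (a b : ℝ) :
    |mf G θ D (update y w a) v - mf G θ D (update y w b) v| ≤ 2 * θ ^ G.dist v w := by
  set g := fun u => Real.tanh (y u) with hg
  have hupd : ∀ r, (fun u => Real.tanh (update y w r u)) = update g w (Real.tanh r) := fun r => by
    funext u
    by_cases h : u = w
    · subst h; simp
    · simp [update_of_ne h, hg]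
  have hgf : Fld g := Fld.tanh y
  unfold mf
  rw [if_pos hv, if_pos hv, hupd, hupd, mul_comm (2:ℝ)]
  refine (mean_update_bound hG hθ hD hgf hv hw (abs_tanh_lt_one' a) (abs_tanh_lt_one' b)).trans ?_
  refine mul_le_mul_of_nonneg_left ?_ (pow_nonneg hθ.1 _)
  have h1 := abs_le.1 (abs_mean_le (G := G) hθ D (hgf.update w (abs_tanh_lt_one' a)) w)
  have h2 := abs_le.1 (abs_mean_le (G := G) hθ D (hgf.update w (abs_tanh_lt_one' b)) w)
  exact abs_le.2 ⟨by linarith [h1.1, h2.2], by linarith [h1.2, h2.1]⟩

lemma continuous_tanh' : Continuous Real.tanh := by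
  rw [show Real.tanh = fun x => Real.sinh x / Real.cosh x from
    funext Real.tanh_eq_sinh_div_cosh]
  exact Real.continuous_sinh.div Real.continuous_cosh fun x => (Real.cosh_pos x).ne'

lemma continuous_mf (hθ : Par θ) (D : Finset V) (v : V) :
    Continuous (fun y => mf G θ D y v) := by
  unfold mf
  split_ifs
  · unfold mean avg Sm
    refine Continuous.div ?_ ?_ fun y => (Sm_one_pos hθ D (Fld.tanh y)).ne'
    · refine continuous_finsetSum _ fun S _ => ?_
      refine (continuous_const.mul (continuous_finsetProd _ fun u _ => ?_)).mul continuous_const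
      exact continuous_const.add ((continuous_tanh'.comp (continuous_apply u)).mul continuous_const)
    · refine continuous_finsetSum _ fun S _ => ?_
      refine (continuous_const.mul (continuous_finsetProd _ fun u _ => ?_)).mul continuous_const
      exact continuous_const.add ((continuous_tanh'.comp (continuous_apply u)).mul continuous_const)
  · exact continuous_const

end

end Vale.Agent.P161
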