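import Vale.Agent.P161.Innovation

/-!
The planted model: change of variables for real expectations, the posterior identity,
restriction to sub-systems, and the martingale bound on the effect of distant sites.
-/

namespace Vale.Agent.P161

open MeasureTheory ProbabilityTheory Finset Function
open scoped NNReal ENNReal Classical

noncomputable section

variable {V : Type*} (G : SimpleGraph V) (θ : ℝ)

/-- Expectation in the planted model on `D` with `N` noise increments. -/
def Epl (D : Finset V) (h : ℝ≥0) (N : ℕ) (f : Finset V → (Fin N → D → ℝ) → ℝ) : ℝ :=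
  ∑ S ∈ D.powerset, post G θ D 0 S * ∫ ξ, f S ξ ∂(nlaw h N D)

/-- The innovations as a point of the noise space. -/
def inn (D : Finset V) (h : ℝ≥0) {N : ℕ} (S : Finset V) (ξ : Fin N → D → ℝ) : Fin N → D → ℝ :=
  resN N D (innov G θ D h 0 S (extN ξ))

variable {G θ} {D : Finset V} {h : ℝ≥0} {N : ℕ}

lemma Epl_mono (hθ : Par θ) {f g : Finset V → (Fin N → D → ℝ) → ℝ}
    (hf : ∀ S, Integrable (f S) (nlaw h N D)) (hg : ∀ S, Integrable (g S) (nlaw h N D))
    (hle : ∀ S ∈ D.powerset, ∀ ξ, f S ξ ≤ g S ξ) : Epl G θ D h N f ≤ Epl G θ D h N g :=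
  Finset.sum_le_sum fun S hS =>
    mul_le_mul_of_nonneg_left (integral_mono (hf S) (hg S) (hle S hS)) (post_nonneg hθ D 0 S)

lemma Epl_nonneg (hθ : Par θ) {f : Finset V → (Fin N → D → ℝ) → ℝ}
    (hle : ∀ S ξ, 0 ≤ f S ξ) : 0 ≤ Epl G θ D h N f :=
  Finset.sum_nonneg fun S _ => mul_nonneg (post_nonneg hθ D 0 S) (integral_nonneg (hle S))

lemma Epl_add {f g : Finset V → (Fin N → D → ℝ) → ℝ}
    (hf : ∀ S, Integrable (f S) (nlaw h N D)) (hg : ∀ S, Integrable (g S) (nlaw h N D)) :
    Epl G θ D h N (fun S ξ => f S ξ + g S ξ) = Epl G θ D h N f + Epl G θ D h N g := by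
  unfold Epl
  rw [← Finset.sum_add_distrib]
  exact Finset.sum_congr rfl fun S _ => by rw [integral_add (hf S) (hg S), mul_add]

lemma Epl_const_mul (c : ℝ) (f : Finset V → (Fin N → D → ℝ) → ℝ) :
    Epl G θ D h N (fun S ξ => c * f S ξ) = c * Epl G θ D h N f := by
  unfold Epl
  rw [Finset.mul_sum]
  exact Finset.sum_congr rfl fun S _ => by rw [integral_const_mul]; ring

lemma Epl_const (hθ : Par θ) (c : ℝ) : Epl G θ D h N (fun _ _ => c) = c := by
  unfold Epl
  simp [← Finset.sum_mul, sum_post hθ]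

lemma Epl_sum {ι : Type*} (s : Finset ι) {f : ι → Finset V → (Fin N → D → ℝ) → ℝ}
    (hf : ∀ i ∈ s, ∀ S, Integrable (f i S) (nlaw h N D)) :
    Epl G θ D h N (fun S ξ => ∑ i ∈ s, f i S ξ) = ∑ i ∈ s, Epl G θ D h N (f i) := by
  unfold Epl
  rw [Finset.sum_comm]
  refine Finset.sum_congr rfl fun S _ => ?_
  rw [integral_finsetSum _ fun i hi => hf i hi S, Finset.mul_sum]

lemma Epl_congr {f g : Finset V → (Fin N → D → ℝ) → ℝ}
    (hfg : ∀ S ∈ D.powerset, ∀ ξ, f S ξ = g S ξ) : Epl G θ D h N f = Epl G θ D h N g :=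
  Finset.sum_congr rfl fun S hS => by rw [funext (hfg S hS)]

lemma measurable_planted (hc : ℝ) (S : Finset V) (j : ℕ) (u : V) :
    Measurable fun ξ : Fin N → D → ℝ => planted hc 0 S (extN ξ) j u :=
  measurable_const.add (Finset.measurable_sum _ fun i _ => measurable_extN i u)

lemma measurable_inn (hθ : Par θ) (S : Finset V) :
    Measurable fun ξ : Fin N → D → ℝ => inn G θ D h S ξ :=
  measurable_pi_lambda _ fun j => measurable_pi_lambda _ fun u =>
    (measurable_extN j.1 u.1).add (measurable_const.mul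
      (measurable_const.sub (measurable_mf_comp hθ D (fun w => measurable_planted _ S j w) u.1)))

lemma path_inn (S : Finset V) (ξ : Fin N → D → ℝ) {j : ℕ} (hj : j ≤ N) {u : V} (hu : u ∈ D) :
    path G θ D h 0 (extN (inn G θ D h S ξ)) j u = planted h 0 S (extN ξ) j u :=
  path_innov (G := G) (θ := θ) (D := D) h S (extN ξ) (fun _ _ => rfl) j
    (fun i hi w hw => by rw [extN_apply _ (lt_of_lt_of_le hi hj) hw]; rfl) u hu

lemma integral_lik (hθ : Par θ) (D : Finset V) {h : ℝ≥0} (hh : h ≠ 0) (N : ℕ) :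
    ∫⁻ z, ENNReal.ofReal (lik G θ D h N 0 z) ∂(nlaw h N D) = 1 := by
  have := planted_change (G := G) hθ D hh N 0 (fun _ _ => 1) (fun _ => measurable_const)
  simp only [lintegral_one, measure_univ, mul_one] at this
  have hs : ∀ y, ∑ S ∈ D.powerset, ENNReal.ofReal (post G θ D y S) = 1 := fun y => by
    rw [← ENNReal.ofReal_sum_of_nonneg fun S _ => post_nonneg hθ D y S, sum_post hθ,
      ENNReal.ofReal_one]
  simp only [hs, mul_one] at this
  exact this.symm

lemma measurable_lik' (hθ : Par θ) :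
    Measurable fun z : Fin N → D → ℝ => lik G θ D h N 0 z :=
  measurable_lik (Y := fun _ : Fin N → D → ℝ => (0 : V → ℝ)) (Z := fun z => z) hθ D h N
    (fun _ => measurable_const) measurable_id

lemma integrable_lik (hθ : Par θ) (hh : h ≠ 0) :
    Integrable (fun z => lik G θ D h N 0 z) (nlaw h N D) :=
  ⟨(measurable_lik' hθ).aestronglyMeasurable, by
    rw [hasFiniteIntegral_iff_ofReal (ae_of_all _ fun z => lik_nonneg hθ D h N 0 z),
      integral_lik hθ D hh]
    exact ENNReal.one_lt_top⟩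

/-- Change of variables, for bounded real functions. -/
theorem planted_eq (hθ : Par θ) (hh : h ≠ 0) (f : Finset V → (Fin N → D → ℝ) → ℝ)
    (hf : ∀ S, Measurable (f S)) {B : ℝ} (hb : ∀ S z, |f S z| ≤ B) :
    Epl G θ D h N (fun S ξ => f S (inn G θ D h S ξ))
      = ∫ z, lik G θ D h N 0 z *
          ∑ S ∈ D.powerset, post G θ D (path G θ D h 0 (extN z) N) S * f S z ∂(nlaw h N D) := by
  have mpath : ∀ u, Measurable fun z : Fin N → D → ℝ => path G θ D h 0 (extN z) N u :=
    measurable_path (Y := fun _ => (0 : V → ℝ)) hθ D h (fun _ => measurable_const)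
      (fun j u => measurable_extN j u) N
  have pos : ∀ (g : Finset V → (Fin N → D → ℝ) → ℝ), (∀ S, Measurable (g S)) →
      ∀ C : ℝ, (∀ S z, 0 ≤ g S z ∧ g S z ≤ C) →
      Epl G θ D h N (fun S ξ => g S (inn G θ D h S ξ))
        = ∫ z, lik G θ D h N 0 z *
            ∑ S ∈ D.powerset, post G θ D (path G θ D h 0 (extN z) N) S * g S z ∂(nlaw h N D) := by
    intro g hg C hC
    have hgi : ∀ S, Integrable (fun ξ => g S (inn G θ D h S ξ)) (nlaw h N D) := fun S =>
      integrable_of_bdd (B := C) ((hg S).comp (measurable_inn hθ S)) fun ξ => by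
        rw [abs_of_nonneg (hC _ _).1]; exact (hC _ _).2
    have hsum0 : ∀ z, 0 ≤ ∑ S ∈ D.powerset,
        post G θ D (path G θ D h 0 (extN z) N) S * g S z := fun z =>
      Finset.sum_nonneg fun S _ => mul_nonneg (post_nonneg hθ D _ S) (hC S z).1
    have key := planted_change (G := G) hθ D hh N 0 (fun S z => ENNReal.ofReal (g S z))
      (fun S => (hg S).ennreal_ofReal)
    have l1 : ∀ S, ENNReal.ofReal (post G θ D 0 S) *
        ∫⁻ ξ, ENNReal.ofReal (g S (resN N D (innov G θ D h 0 S (extN ξ)))) ∂(nlaw h N D)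
        = ENNReal.ofReal (post G θ D 0 S * ∫ ξ, g S (inn G θ D h S ξ) ∂(nlaw h N D)) := fun S => by
      rw [ENNReal.ofReal_mul (post_nonneg hθ D 0 S),
        ofReal_integral_eq_lintegral_ofReal (hgi S) (ae_of_all _ fun ξ => (hC _ _).1)]
      rfl
    have l2 : ∀ z, ENNReal.ofReal (lik G θ D h N 0 z) * ∑ S ∈ D.powerset,
        ENNReal.ofReal (post G θ D (path G θ D h 0 (extN z) N) S) * ENNReal.ofReal (g S z)
        = ENNReal.ofReal (lik G θ D h N 0 z *
            ∑ S ∈ D.powerset, post G θ D (path G θ D h 0 (extN z) N) S * g S z) := fun z => by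
      rw [ENNReal.ofReal_mul (lik_nonneg hθ D h N 0 z),
        ENNReal.ofReal_sum_of_nonneg fun S _ => mul_nonneg (post_nonneg hθ D _ S) (hC S z).1]
      congr 1
      exact Finset.sum_congr rfl fun S _ => (ENNReal.ofReal_mul (post_nonneg hθ D _ S)).symm
    simp only [l1, l2] at key
    have mR : Measurable fun z : Fin N → D → ℝ => lik G θ D h N 0 z *
        ∑ S ∈ D.powerset, post G θ D (path G θ D h 0 (extN z) N) S * g S z :=
      (measurable_lik' hθ).mul (Finset.measurable_sum _ fun S _ =>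
        (measurable_post_comp hθ D mpath S).mul (hg S))
    have iR : Integrable (fun z => lik G θ D h N 0 z *
        ∑ S ∈ D.powerset, post G θ D (path G θ D h 0 (extN z) N) S * g S z) (nlaw h N D) := by
      refine (integrable_lik (G := G) hθ hh).mul_bdd (c := C)
        (Finset.measurable_sum _ fun S _ =>
          (measurable_post_comp hθ D mpath S).mul (hg S)).aestronglyMeasurable
        (ae_of_all _ fun z => ?_)
      rw [Real.norm_eq_abs, abs_of_nonneg (hsum0 z)]
      calc ∑ S ∈ D.powerset, post G θ D (path G θ D h 0 (extN z) N) S * g S z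
          ≤ ∑ S ∈ D.powerset, post G θ D (path G θ D h 0 (extN z) N) S * C :=
            Finset.sum_le_sum fun S _ =>
              mul_le_mul_of_nonneg_left (hC S z).2 (post_nonneg hθ D _ S)
        _ = C := by rw [← Finset.sum_mul, sum_post hθ, one_mul]
    rw [← ofReal_integral_eq_lintegral_ofReal iR
      (ae_of_all _ fun z => mul_nonneg (lik_nonneg hθ D h N 0 z) (hsum0 z)),
      ← ENNReal.ofReal_sum_of_nonneg fun S _ => mul_nonneg (post_nonneg hθ D 0 S)
        (integral_nonneg fun ξ => (hC _ _).1)] at key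
    exact (ENNReal.ofReal_eq_ofReal_iff
      (Epl_nonneg hθ fun S ξ => (hC _ _).1)
      (integral_nonneg fun z => mul_nonneg (lik_nonneg hθ D h N 0 z) (hsum0 z))).1 key
  have hBf := pos (fun S z => f S z + B) (fun S => (hf S).add_const B) (B + B) fun S z => by
    have := abs_le.1 (hb S z); constructor <;> linarith
  have hfi : ∀ S, Integrable (fun ξ => f S (inn G θ D h S ξ)) (nlaw h N D) := fun S =>
    integrable_of_bdd (B := B) ((hf S).comp (measurable_inn hθ S)) fun ξ => hb _ _
  rw [Epl_add (f := fun S ξ => f S (inn G θ D h S ξ)) (g := fun _ _ => B) hfi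
    (fun _ => integrable_const _), Epl_const hθ] at hBf
  have hs : ∀ z, ∑ S ∈ D.powerset, post G θ D (path G θ D h 0 (extN z) N) S * (f S z + B)
      = (∑ S ∈ D.powerset, post G θ D (path G θ D h 0 (extN z) N) S * f S z) + B := fun z => by
    simp_rw [mul_add]
    rw [Finset.sum_add_distrib, ← Finset.sum_mul, sum_post hθ, one_mul]
  simp only [hs] at hBf
  simp only [mul_add (lik G θ D (h:ℝ) N 0 _)] at hBf
  have i1 : Integrable (fun z => lik G θ D h N 0 z *
      ∑ S ∈ D.powerset, post G θ D (path G θ D h 0 (extN z) N) S * f S z) (nlaw h N D) := by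
    refine (integrable_lik (G := G) hθ hh).mul_bdd (c := B)
      (Finset.measurable_sum _ fun S _ =>
        (measurable_post_comp hθ D mpath S).mul (hf S)).aestronglyMeasurable
      (ae_of_all _ fun z => ?_)
    rw [Real.norm_eq_abs]
    refine (Finset.abs_sum_le_sum_abs _ _).trans ?_
    calc ∑ S ∈ D.powerset, |post G θ D (path G θ D h 0 (extN z) N) S * f S z|
        ≤ ∑ S ∈ D.powerset, post G θ D (path G θ D h 0 (extN z) N) S * B :=
          Finset.sum_le_sum fun S _ => by
            rw [abs_mul, abs_of_nonneg (post_nonneg hθ D _ S)]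
            exact mul_le_mul_of_nonneg_left (hb S z) (post_nonneg hθ D _ S)
      _ = B := by rw [← Finset.sum_mul, sum_post hθ, one_mul]
  rw [integral_add i1 ((integrable_lik hθ hh).mul_const B), integral_mul_const] at hBf
  have h1 : ∫ z, lik G θ D h N 0 z ∂(nlaw h N D) = 1 := by
    rw [integral_eq_lintegral_of_nonneg_ae (ae_of_all _ fun z => lik_nonneg hθ D h N 0 z)
      (measurable_lik' hθ).aestronglyMeasurable, integral_lik hθ D hh]
    simp
  rw [h1] at hBf
  linarith

/-- The `χ²` budget. -/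
def chi (D : Finset V) (h : ℝ≥0) (N : ℕ) : ℝ :=
  (1 + 16 * (D.card : ℝ) ^ 2 * (h : ℝ) ^ 2) ^ N - 1

/-- The planted innovations are close to Gaussian noise. -/
theorem planted_close (hθ : Par θ) (hh : h ≠ 0) (hsmall : (h : ℝ) * (4 * D.card) ≤ 1)
    {ψ : (Fin N → D → ℝ) → ℝ} (hψ : Measurable ψ) (hb : ∀ z, |ψ z| ≤ 2) {ε : ℝ} (hε : 0 < ε) :
    |Epl G θ D h N (fun S ξ => ψ (inn G θ D h S ξ)) - ∫ z, ψ z ∂(nlaw h N D)|
      ≤ chi D h N / ε + ε := by
  rw [planted_eq hθ hh (fun _ z => ψ z) (fun _ => hψ) (fun _ z => hb z)]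
  simp only [← Finset.sum_mul, sum_post hθ, one_mul]
  have iψ : Integrable ψ (nlaw h N D) := integrable_of_bdd hψ hb
  have iL := integrable_lik (G := G) (N := N) (D := D) hθ hh
  have iLψ : Integrable (fun z => lik G θ D h N 0 z * ψ z) (nlaw h N D) :=
    iL.mul_bdd (c := 2) hψ.aestronglyMeasurable (ae_of_all _ hb)
  have mL2 : Measurable fun z : Fin N → D → ℝ => lik G θ D h N 0 z ^ 2 :=
    (measurable_lik' hθ).pow_const 2
  have hl2 := lintegral_lik_sq (G := G) hθ D hh hsmall N 0
  have iL2 : Integrable (fun z => lik G θ D h N 0 z ^ 2) (nlaw h N D) :=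
    ⟨mL2.aestronglyMeasurable, by
      rw [hasFiniteIntegral_iff_ofReal (ae_of_all _ fun z => sq_nonneg _)]
      exact lt_of_le_of_lt hl2 ENNReal.ofReal_lt_top⟩
  have hL2 : ∫ z, lik G θ D h N 0 z ^ 2 ∂(nlaw h N D) ≤ 1 + chi D h N := by
    rw [chi, add_sub_cancel,
      integral_eq_lintegral_of_nonneg_ae (ae_of_all _ fun z => sq_nonneg _)
        mL2.aestronglyMeasurable]
    exact ENNReal.toReal_le_of_le_ofReal (by positivity) hl2
  have hL1 : ∫ z, lik G θ D h N 0 z ∂(nlaw h N D) = 1 := by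
    rw [integral_eq_lintegral_of_nonneg_ae (ae_of_all _ fun z => lik_nonneg hθ D h N 0 z)
      (measurable_lik' hθ).aestronglyMeasurable, integral_lik hθ D hh]
    simp
  rw [← integral_sub iLψ iψ]
  refine abs_integral_le_integral_abs.trans ?_
  have iA : Integrable (fun z => lik G θ D h N 0 z ^ 2 / ε) (nlaw h N D) := iL2.div_const ε
  have iB : Integrable (fun z => 2 * lik G θ D h N 0 z / ε) (nlaw h N D) :=
    (iL.const_mul 2).div_const ε
  have iAB : Integrable (fun z => lik G θ D h N 0 z ^ 2 / ε - 2 * lik G θ D h N 0 z / ε)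
      (nlaw h N D) := iA.sub iB
  calc ∫ z, |lik G θ D h N 0 z * ψ z - ψ z| ∂(nlaw h N D)
      ≤ ∫ z, (lik G θ D h N 0 z ^ 2 / ε - 2 * lik G θ D h N 0 z / ε + (1 / ε + ε))
          ∂(nlaw h N D) := by
        refine integral_mono (iLψ.sub iψ).abs (iAB.add (integrable_const _)) fun z => ?_
        simp only
        set L := lik G θ D h N 0 z
        rw [show L * ψ z - ψ z = (L - 1) * ψ z by ring, abs_mul]
        have e : L ^ 2 / ε - 2 * L / ε + (1 / ε + ε) = (|L - 1| ^ 2 + ε ^ 2) / ε := by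
          rw [sq_abs]; field_simp; ring
        rw [e, le_div_iff₀ hε]
        nlinarith [hb z, sq_nonneg (|L - 1| - ε), abs_nonneg (L - 1),
          mul_nonneg (abs_nonneg (L - 1)) hε.le]
    _ = (∫ z, lik G θ D h N 0 z ^ 2 ∂(nlaw h N D)) / ε
          - 2 * (∫ z, lik G θ D h N 0 z ∂(nlaw h N D)) / ε + (1 / ε + ε) := by
        rw [integral_add iAB (integrable_const _), integral_sub iA iB, integral_div,
          integral_div, integral_const_mul]
        simp
    _ ≤ chi D h N / ε + ε := by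
        rw [hL1]
        have : (∫ z, lik G θ D h N 0 z ^ 2 ∂(nlaw h N D)) / ε ≤ (1 + chi D h N) / ε :=
          div_le_div_of_nonneg_right hL2 hε.le
        rw [add_div] at this
        have e2 : 2 * (1:ℝ) / ε = 1 / ε + 1 / ε := by ring
        rw [e2]
        linarith

/-- The posterior mean is the conditional expectation of the spin. -/
theorem planted_tower (hθ : Par θ) (hh : h ≠ 0) {v : V} (hv : v ∈ D) {φ : (V → ℝ) → ℝ}
    (hφ : ∀ y y', (∀ u ∈ D, y u = y' u) → φ y = φ y') (hb : ∀ y, |φ y| ≤ 1)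
    (hφm' : ∀ (Y : (Fin N → D → ℝ) → V → ℝ),
      (∀ u, Measurable fun a => Y a u) → Measurable fun a => φ (Y a)) :
    Epl G θ D h N (fun S ξ => spin S v * φ (planted h 0 S (extN ξ) N))
      = Epl G θ D h N (fun S ξ => mf G θ D (planted h 0 S (extN ξ) N) v
          * φ (planted h 0 S (extN ξ) N)) := by
  set P : (Fin N → D → ℝ) → V → ℝ := fun z => path G θ D h 0 (extN z) N with hP
  have mpath : ∀ u, Measurable fun z : Fin N → D → ℝ => P z u :=
    measurable_path (Y := fun _ => (0 : V → ℝ)) hθ D h (fun _ => measurable_const)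
      (fun j u => measurable_extN j u) N
  have hp : ∀ S ξ, ∀ u ∈ D, P (inn G θ D h S ξ) u = planted h 0 S (extN ξ) N u :=
    fun S ξ u hu => path_inn S ξ le_rfl hu
  have e1 := planted_eq (G := G) (N := N) hθ hh (fun S z => spin S v * φ (P z))
    (fun S => measurable_const.mul (hφm' P mpath)) (B := 1) fun S z => by
      rw [abs_mul, abs_spin, one_mul]; exact hb _
  have e2 := planted_eq (G := G) (N := N) hθ hh (fun _ z => mf G θ D (P z) v * φ (P z))
    (fun S => (measurable_mf_comp hθ D mpath v).mul (hφm' P mpath)) (B := 1) fun S z => by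
      rw [abs_mul]
      exact (mul_le_mul (abs_mf_le hθ D _ v) (hb _) (abs_nonneg _) zero_le_one).trans_eq (one_mul 1)
  have c1 : Epl G θ D h N (fun S ξ => spin S v * φ (planted h 0 S (extN ξ) N))
      = Epl G θ D h N (fun S ξ => spin S v * φ (P (inn G θ D h S ξ))) :=
    Epl_congr fun S _ ξ => by rw [hφ _ _ fun u hu => (hp S ξ u hu).symm]
  have c2 : Epl G θ D h N (fun S ξ => mf G θ D (planted h 0 S (extN ξ) N) v
          * φ (planted h 0 S (extN ξ) N))
      = Epl G θ D h N (fun S ξ => mf G θ D (P (inn G θ D h S ξ)) v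
          * φ (P (inn G θ D h S ξ))) :=
    Epl_congr fun S _ ξ => by
      rw [hφ _ _ fun u hu => (hp S ξ u hu).symm, mf_congr (fun u hu => (hp S ξ u hu).symm)]
  rw [c1, c2, e1, e2]
  refine integral_congr_ae (ae_of_all _ fun z => ?_)
  simp only [← mul_assoc (post G θ D _ _), ← Finset.sum_mul, sum_post hθ, one_mul]
  rw [← mf_eq_sum_post hθ _ hv]

end

end Vale.Agent.P161
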